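import Vale.Agent.P369.Min

open Finset Filter Topology

noncomputable section

namespace Vale.Agent.P369

/-- A passive state with finite mean photon number, given by its Fock probabilities. -/
structure PassiveInf (p : ℕ → ℝ) : Prop where
  nonneg : ∀ k, 0 ≤ p k
  anti : ∀ k, p (k + 1) ≤ p k
  total : HasSum p 1
  mean : Summable (fun k : ℕ => (k : ℝ) * p k)

/-- Output distribution for inputs with unbounded support. -/
def pCinf (η : ℝ) (p q : ℕ → ℝ) (m : ℕ) : ℝ :=
  ∑' ij : ℕ × ℕ, p ij.1 * q ij.2 * bsProb η ij.1 ij.2 m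

/-- Shannon entropy of a sequence. -/
def entInf (p : ℕ → ℝ) : ℝ := ∑' k, Real.negMulLog (p k)

variable {η : ℝ} {p q : ℕ → ℝ}

lemma bsProb_le_one (h0 : 0 ≤ η) (h1 : η ≤ 1) (i j m : ℕ) : bsProb η i j m ≤ 1 := by
  rcases lt_or_ge (i + j) m with h | h
  · rw [bsProb_of_lt η h]; exact zero_le_one
  · rw [← sum_bsProb h0 h1 i j (i + j) le_rfl]
    exact Finset.single_le_sum (fun a _ => bsProb_nonneg η i j a) (Finset.mem_range.2 (by omega))

lemma negMulLog_le_linear {x : ℝ} (hx : 0 ≤ x) (m : ℝ) :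
    Real.negMulLog x ≤ m * x + Real.exp (-m - 1) := by
  rcases hx.eq_or_lt with rfl | hx
  · simp [(Real.exp_pos _).le]
  have h := Real.log_le_sub_one_of_pos (div_pos (Real.exp_pos (-m - 1)) hx)
  rw [Real.log_div (Real.exp_pos _).ne' hx.ne', Real.log_exp] at h
  have h2 := mul_le_mul_of_nonneg_left h hx.le
  have e : x * (Real.exp (-m - 1) / x - 1) = Real.exp (-m - 1) - x := by field_simp
  rw [e] at h2
  unfold Real.negMulLog
  linarith

lemma summable_entBound {c : ℕ → ℝ} (hc : Summable fun m : ℕ => (m : ℝ) * c m) :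
    Summable fun m : ℕ => 2 * ((m : ℝ) * c m) + Real.exp (-(m : ℝ) - 1) := by
  refine (hc.mul_left 2).add ((Real.summable_exp_neg_nat.mul_left (Real.exp (-1))).congr fun m => ?_)
  rw [← Real.exp_add]; congr 1; ring

lemma negMulLog_dom {x c : ℝ} {m : ℕ} (hx : 0 ≤ x) (hx1 : x ≤ 1) (hxc : x ≤ 2 * c) :
    ‖Real.negMulLog x‖ ≤ 2 * ((m : ℝ) * c) + Real.exp (-(m : ℝ) - 1) := by
  rw [Real.norm_of_nonneg (Real.negMulLog_nonneg hx hx1)]
  refine (negMulLog_le_linear hx (m : ℝ)).trans ?_
  have : (m : ℝ) * x ≤ (m : ℝ) * (2 * c) := mul_le_mul_of_nonneg_left hxc (Nat.cast_nonneg m)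
  linarith

lemma PassiveInf.le_one (h : PassiveInf p) (k : ℕ) : p k ≤ 1 :=
  le_hasSum h.total k fun j _ => h.nonneg j

lemma PassiveInf.zero_pos (h : PassiveInf p) : 0 < p 0 := by
  rcases (h.nonneg 0).eq_or_lt with h0 | h0
  · exfalso
    have hz : ∀ k, p k = 0 := fun k => le_antisymm
      (by have := (antitone_nat_of_succ_le h.anti) (Nat.zero_le k); rwa [← h0] at this) (h.nonneg k)
    have := h.total.unique (show HasSum p 0 by rw [funext hz]; exact hasSum_zero)
    norm_num at this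
  · exact h0

lemma PassiveInf.summable_negMulLog (h : PassiveInf p) : Summable (Real.negMulLog ∘ p) :=
  Summable.of_norm_bounded (summable_entBound h.mean) fun k =>
    negMulLog_dom (h.nonneg k) (h.le_one k) (by linarith [h.nonneg k])

/-- Mass below `n + 1`. -/
def mass (p : ℕ → ℝ) (n : ℕ) : ℝ := ∑ k ∈ range (n + 1), p k

/-- Normalised truncation. -/
def trunc (p : ℕ → ℝ) (n k : ℕ) : ℝ := if k < n + 1 then p k / mass p n else 0

lemma PassiveInf.mass_pos (h : PassiveInf p) (n : ℕ) : 0 < mass p n :=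
  lt_of_lt_of_le h.zero_pos
    (Finset.single_le_sum (fun k _ => h.nonneg k) (Finset.mem_range.2 (Nat.succ_pos n)))

lemma PassiveInf.trunc_passive (h : PassiveInf p) (n : ℕ) : Passive (n + 1) (trunc p n) where
  nonneg k := by
    unfold trunc; split
    · exact div_nonneg (h.nonneg k) (h.mass_pos n).le
    · exact le_rfl
  anti k := by
    unfold trunc
    split_ifs with a b
    · exact div_le_div_of_nonneg_right (h.anti k) (h.mass_pos n).le
    · omega
    · exact div_nonneg (h.nonneg k) (h.mass_pos n).le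
    · exact le_rfl
  supp k hk := by unfold trunc; rw [if_neg (by omega)]
  total := by
    rw [Finset.sum_congr rfl fun k hk =>
      show trunc p n k = p k / mass p n from if_pos (Finset.mem_range.1 hk), ← Finset.sum_div]
    exact div_self (h.mass_pos n).ne'

lemma PassiveInf.tendsto_mass (h : PassiveInf p) : Tendsto (mass p) atTop (𝓝 1) :=
  h.total.tendsto_sum_nat.comp (tendsto_add_atTop_nat 1)

lemma PassiveInf.tendsto_trunc (h : PassiveInf p) (k : ℕ) :
    Tendsto (fun n => trunc p n k) atTop (𝓝 (p k)) := by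
  have : Tendsto (fun n => p k / mass p n) atTop (𝓝 (p k / 1)) :=
    tendsto_const_nhds.div h.tendsto_mass one_ne_zero
  rw [div_one] at this
  refine this.congr' ?_
  filter_upwards [eventually_ge_atTop k] with n hn
  exact (if_pos (by omega)).symm

lemma PassiveInf.tendsto_ent (h : PassiveInf p) :
    Tendsto (fun n => ent (n + 1) (trunc p n)) atTop (𝓝 (entInf p)) := by
  have e : ∀ n, ent (n + 1) (trunc p n) = ∑' k, Real.negMulLog (trunc p n k) := fun n =>
    (tsum_eq_sum fun k hk => by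
      rw [(h.trunc_passive n).supp k (by simpa using hk), Real.negMulLog_zero]).symm
  simp_rw [e]
  refine tendsto_tsum_of_dominated_convergence (summable_entBound h.mean)
    (fun k => (Real.continuous_negMulLog.tendsto _).comp (h.tendsto_trunc k)) ?_
  filter_upwards [h.tendsto_mass.eventually_const_le (show (1 : ℝ) / 2 < 1 by norm_num)] with n hn k
  refine negMulLog_dom ((h.trunc_passive n).nonneg k) ((h.trunc_passive n).le_one k) ?_
  unfold trunc
  split
  · rw [div_le_iff₀ (h.mass_pos n)]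
    nlinarith [mul_le_mul_of_nonneg_left hn (h.nonneg k)]
  · linarith [h.nonneg k]

section output

lemma summable_inputs (hp : PassiveInf p) (hq : PassiveInf q) :
    Summable fun ij : ℕ × ℕ => p ij.1 * q ij.2 :=
  hp.total.summable.mul_of_nonneg hq.total.summable hp.nonneg hq.nonneg

lemma summable_pCinf (hp : PassiveInf p) (hq : PassiveInf q) (h0 : 0 ≤ η) (h1 : η ≤ 1) (m : ℕ) :
    Summable fun ij : ℕ × ℕ => p ij.1 * q ij.2 * bsProb η ij.1 ij.2 m :=
  (summable_inputs hp hq).of_nonneg_of_le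
    (fun ij => mul_nonneg (mul_nonneg (hp.nonneg _) (hq.nonneg _)) (bsProb_nonneg _ _ _ _))
    fun ij => mul_le_of_le_one_right (mul_nonneg (hp.nonneg _) (hq.nonneg _))
      (bsProb_le_one h0 h1 _ _ _)

lemma hasSum_fiber (h0 : 0 ≤ η) (h1 : η ≤ 1) (a : ℝ) (i j : ℕ) :
    HasSum (fun m => a * bsProb η i j m) a := by
  have h : HasSum (fun m => a * bsProb η i j m)
      (∑ m ∈ range (i + j + 1), a * bsProb η i j m) :=
    hasSum_sum_of_ne_finset_zero fun m hm => by
      rw [Finset.mem_range] at hm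
      rw [bsProb_of_lt η (show i + j < m by omega), mul_zero]
  rwa [← Finset.mul_sum, sum_bsProb h0 h1 i j (i + j) le_rfl, mul_one] at h

lemma hasSum_pCinf (hp : PassiveInf p) (hq : PassiveInf q) (h0 : 0 ≤ η) (h1 : η ≤ 1) :
    HasSum (pCinf η p q) 1 := by
  set G : (ℕ × ℕ) × ℕ → ℝ := fun x => p x.1.1 * q x.1.2 * bsProb η x.1.1 x.1.2 x.2
  have hf : ∀ ij : ℕ × ℕ, HasSum (fun m => G (ij, m)) (p ij.1 * q ij.2) := fun ij =>
    hasSum_fiber h0 h1 (p ij.1 * q ij.2) ij.1 ij.2
  have hG : Summable G := by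
    have hn : ∀ x, 0 ≤ G x := fun x =>
      mul_nonneg (mul_nonneg (hp.nonneg _) (hq.nonneg _)) (bsProb_nonneg _ _ _ _)
    refine (summable_prod_of_nonneg (f := G) hn).2
      ⟨fun ij => (hf ij).summable, ?_⟩
    exact (summable_inputs hp hq).congr fun ij => (hf ij).tsum_eq.symm
  have ht : ∑' x, G x = 1 := by
    rw [hG.tsum_prod, tsum_congr fun ij => (hf ij).tsum_eq,
      ← hp.total.summable.tsum_mul_tsum hq.total.summable (summable_inputs hp hq),
      hp.total.tsum_eq, hq.total.tsum_eq, one_mul]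
  have hs : HasSum (G ∘ Equiv.prodComm ℕ (ℕ × ℕ)) 1 :=
    (Equiv.hasSum_iff _).2 (ht ▸ hG.hasSum)
  exact hs.prod_fiberwise fun m => (summable_pCinf hp hq h0 h1 m).hasSum

lemma summable_mean_pCinf (hp : PassiveInf p) (hq : PassiveInf q) (h0 : 0 ≤ η) (h1 : η ≤ 1) :
    Summable fun m : ℕ => (m : ℝ) * pCinf η p q m := by
  set H : (ℕ × ℕ) × ℕ → ℝ :=
    fun x => (x.2 : ℝ) * (p x.1.1 * q x.1.2 * bsProb η x.1.1 x.1.2 x.2)
  have hn : ∀ x, 0 ≤ H x := fun x => mul_nonneg (Nat.cast_nonneg _)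
    (mul_nonneg (mul_nonneg (hp.nonneg _) (hq.nonneg _)) (bsProb_nonneg _ _ _ _))
  have hle : ∀ (ij : ℕ × ℕ) m,
      H (ij, m) ≤ ((ij.1 : ℝ) + ij.2) * (p ij.1 * q ij.2 * bsProb η ij.1 ij.2 m) := by
    intro ij m
    rcases lt_or_ge (ij.1 + ij.2) m with h | h
    · simp [H, bsProb_of_lt η h]
    · exact mul_le_mul_of_nonneg_right (by exact_mod_cast h)
        (mul_nonneg (mul_nonneg (hp.nonneg _) (hq.nonneg _)) (bsProb_nonneg _ _ _ _))
  have hf : ∀ ij : ℕ × ℕ, HasSum
      (fun m => ((ij.1 : ℝ) + ij.2) * (p ij.1 * q ij.2 * bsProb η ij.1 ij.2 m))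
      (((ij.1 : ℝ) + ij.2) * (p ij.1 * q ij.2)) := fun ij =>
    (hasSum_fiber h0 h1 (p ij.1 * q ij.2) ij.1 ij.2).mul_left ((ij.1 : ℝ) + ij.2)
  have hH : Summable H := by
    refine (summable_prod_of_nonneg (f := H) hn).2
      ⟨fun ij => (hf ij).summable.of_nonneg_of_le (fun m => hn _) (hle ij), ?_⟩
    refine Summable.of_nonneg_of_le (fun ij => tsum_nonneg fun m => hn _) (fun ij =>
      hasSum_le (hle ij) ((hf ij).summable.of_nonneg_of_le (fun m => hn _) (hle ij)).hasSum (hf ij))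
      ?_
    have a := hp.mean.mul_of_nonneg hq.total.summable
      (fun i : ℕ => mul_nonneg (Nat.cast_nonneg i) (hp.nonneg i)) hq.nonneg
    have b := hp.total.summable.mul_of_nonneg hq.mean hp.nonneg
      (fun j : ℕ => mul_nonneg (Nat.cast_nonneg j) (hq.nonneg j))
    exact (a.add b).congr fun ij => by ring
  have hs : Summable (H ∘ Equiv.prodComm ℕ (ℕ × ℕ)) := (Equiv.summable_iff _).2 hH
  refine ((summable_prod_of_nonneg (f := H ∘ Equiv.prodComm ℕ (ℕ × ℕ))
    (fun x => hn _)).1 hs).2.congr fun m => ?_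
  simp [H, pCinf, tsum_mul_left]

lemma pC_trunc_eq (hp : PassiveInf p) (hq : PassiveInf q) (η : ℝ) (n m : ℕ) :
    pC (n + 1) η (trunc p n) (trunc q n) m
      = (∑ ij ∈ range (n + 1) ×ˢ range (n + 1), p ij.1 * q ij.2 * bsProb η ij.1 ij.2 m)
        / (mass p n * mass q n) := by
  rw [Finset.sum_product, Finset.sum_div]
  refine Finset.sum_congr rfl fun i hi => ?_
  rw [Finset.sum_div]
  refine Finset.sum_congr rfl fun j hj => ?_
  have := (hp.mass_pos n).ne'
  have := (hq.mass_pos n).ne'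
  simp only [trunc, if_pos (Finset.mem_range.1 hi), if_pos (Finset.mem_range.1 hj)]
  field_simp

lemma tendsto_squares :
    Tendsto (fun n : ℕ => range (n + 1) ×ˢ range (n + 1)) atTop atTop :=
  tendsto_atTop_finset_of_monotone
    (fun a b h => Finset.product_subset_product (Finset.range_mono (by omega))
      (Finset.range_mono (by omega)))
    fun x => ⟨max x.1 x.2, by simp only [Finset.mem_product, Finset.mem_range]; omega⟩

lemma tendsto_ent_out (hp : PassiveInf p) (hq : PassiveInf q) (h0 : 0 ≤ η) (h1 : η ≤ 1) :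
    Tendsto (fun n => ent (2 * (n + 1)) (pC (n + 1) η (trunc p n) (trunc q n))) atTop
      (𝓝 (entInf (pCinf η p q))) := by
  have hn : ∀ n m, 0 ≤ pC (n + 1) η (trunc p n) (trunc q n) m := fun n m =>
    Finset.sum_nonneg fun i _ => Finset.sum_nonneg fun j _ => mul_nonneg
      (mul_nonneg ((hp.trunc_passive n).nonneg i) ((hq.trunc_passive n).nonneg j))
      (bsProb_nonneg _ _ _ _)
  have hs : ∀ n m, 2 * (n + 1) ≤ m → pC (n + 1) η (trunc p n) (trunc q n) m = 0 := fun n m hm =>
    pC_eq_zero_of η _ _ fun i hi j hj h => by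
      rw [Finset.mem_range] at hi hj; omega
  have hle : ∀ n m, pC (n + 1) η (trunc p n) (trunc q n) m ≤ 1 := by
    intro n m
    rcases lt_or_ge m (2 * (n + 1)) with hm | hm
    · refine (Finset.single_le_sum (fun k _ => hn n k) (Finset.mem_range.2 hm)).trans ?_
      rw [sum_pC h0 h1, (hp.trunc_passive n).total, (hq.trunc_passive n).total, one_mul]
    · rw [hs n m hm]; exact zero_le_one
  have e : ∀ n, ent (2 * (n + 1)) (pC (n + 1) η (trunc p n) (trunc q n))
      = ∑' m, Real.negMulLog (pC (n + 1) η (trunc p n) (trunc q n) m) := fun n =>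
    (tsum_eq_sum fun m hm => by
      rw [hs n m (by simpa using hm), Real.negMulLog_zero]).symm
  simp_rw [e]
  have hZ : Tendsto (fun n => mass p n * mass q n) atTop (𝓝 1) := by
    simpa using hp.tendsto_mass.mul hq.tendsto_mass
  refine tendsto_tsum_of_dominated_convergence
    (summable_entBound (summable_mean_pCinf hp hq h0 h1))
    (fun m => (Real.continuous_negMulLog.tendsto _).comp ?_) ?_
  · simp_rw [pC_trunc_eq hp hq]
    have h := ((summable_pCinf hp hq h0 h1 m).hasSum.comp tendsto_squares).div hZ one_ne_zero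
    rw [div_one] at h
    exact h
  · filter_upwards [hZ.eventually_const_le (show (1 : ℝ) / 2 < 1 by norm_num)] with n hz m
    refine negMulLog_dom (hn n m) (hle n m) ?_
    rw [pC_trunc_eq hp hq, div_le_iff₀ (mul_pos (hp.mass_pos n) (hq.mass_pos n))]
    have hsum : (∑ ij ∈ range (n + 1) ×ˢ range (n + 1), p ij.1 * q ij.2 * bsProb η ij.1 ij.2 m)
        ≤ pCinf η p q m :=
      (summable_pCinf hp hq h0 h1 m).sum_le_tsum _ fun ij _ =>
        mul_nonneg (mul_nonneg (hp.nonneg _) (hq.nonneg _)) (bsProb_nonneg _ _ _ _)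
    have hC : 0 ≤ pCinf η p q m := tsum_nonneg fun ij =>
      mul_nonneg (mul_nonneg (hp.nonneg _) (hq.nonneg _)) (bsProb_nonneg _ _ _ _)
    have : pCinf η p q m * (1 / 2) ≤ pCinf η p q m * (mass p n * mass q n) :=
      mul_le_mul_of_nonneg_left hz hC
    linarith

end output

lemma PassiveInf.entInf_nonneg (h : PassiveInf p) : 0 ≤ entInf p :=
  tsum_nonneg fun k => Real.negMulLog_nonneg (h.nonneg k) (h.le_one k)

lemma pCinf_nonneg (hp : PassiveInf p) (hq : PassiveInf q) (m : ℕ) : 0 ≤ pCinf η p q m :=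
  tsum_nonneg fun _ =>
    mul_nonneg (mul_nonneg (hp.nonneg _) (hq.nonneg _)) (bsProb_nonneg _ _ _ _)

lemma summable_negMulLog_pCinf (hp : PassiveInf p) (hq : PassiveInf q) (h0 : 0 ≤ η)
    (h1 : η ≤ 1) : Summable fun m => Real.negMulLog (pCinf η p q m) := by
  have hle : ∀ m, pCinf η p q m ≤ 1 := fun m =>
    le_hasSum (hasSum_pCinf hp hq h0 h1) m fun j _ => pCinf_nonneg hp hq j
  exact Summable.of_norm_bounded (summable_entBound (summable_mean_pCinf hp hq h0 h1)) fun m =>
    negMulLog_dom (pCinf_nonneg hp hq m) (hle m) (by linarith [pCinf_nonneg (η := η) hp hq m])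

lemma tendsto_ginv_ent (h : PassiveInf p) :
    Tendsto (fun n => ginv (ent (n + 1) (trunc p n))) atTop (𝓝 (ginv (entInf p))) :=
  (continuousOn_ginv _ h.entInf_nonneg).tendsto.comp <| tendsto_nhdsWithin_iff.2
    ⟨h.tendsto_ent, Eventually.of_forall fun n => ent_nonneg (h.trunc_passive n)⟩

/-- EPnI for two passive distributions with finite mean photon number. -/
theorem epni_passive_inf (hp : PassiveInf p) (hq : PassiveInf q) (h0 : 0 ≤ η) (h1 : η ≤ 1) :
    HasSum (pCinf η p q) 1 ∧ Summable (fun m => Real.negMulLog (pCinf η p q m)) ∧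
      Summable (Real.negMulLog ∘ p) ∧ Summable (Real.negMulLog ∘ q) ∧
      gFun (η * ginv (entInf p) + (1 - η) * ginv (entInf q)) ≤ entInf (pCinf η p q) := by
  refine ⟨hasSum_pCinf hp hq h0 h1, summable_negMulLog_pCinf hp hq h0 h1,
    hp.summable_negMulLog, hq.summable_negMulLog, ?_⟩
  have harg : Tendsto (fun n => η * ginv (ent (n + 1) (trunc p n))
      + (1 - η) * ginv (ent (n + 1) (trunc q n))) atTop
      (𝓝 (η * ginv (entInf p) + (1 - η) * ginv (entInf q))) :=
    (tendsto_const_nhds.mul (tendsto_ginv_ent hp)).add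
      (tendsto_const_nhds.mul (tendsto_ginv_ent hq))
  have hnn : ∀ {a b : ℝ}, 0 ≤ a → 0 ≤ b → 0 ≤ η * ginv a + (1 - η) * ginv b := fun ha hb =>
    add_nonneg (mul_nonneg h0 (ginv_nonneg ha)) (mul_nonneg (sub_nonneg.2 h1) (ginv_nonneg hb))
  have hL : Tendsto (fun n => gFun (η * ginv (ent (n + 1) (trunc p n))
      + (1 - η) * ginv (ent (n + 1) (trunc q n)))) atTop
      (𝓝 (gFun (η * ginv (entInf p) + (1 - η) * ginv (entInf q)))) :=
    (continuousOn_gFun _ (hnn hp.entInf_nonneg hq.entInf_nonneg)).tendsto.comp <|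
      tendsto_nhdsWithin_iff.2 ⟨harg, Eventually.of_forall fun n =>
        hnn (ent_nonneg (hp.trunc_passive n)) (ent_nonneg (hq.trunc_passive n))⟩
  exact le_of_tendsto_of_tendsto' hL (tendsto_ent_out hp hq h0 h1) fun n =>
    epni_passive (hp.trunc_passive n) (hq.trunc_passive n) h0 h1

/-- The same statement for entropy photon numbers. -/
theorem epn_passive_inf (hp : PassiveInf p) (hq : PassiveInf q) (h0 : 0 ≤ η) (h1 : η ≤ 1) :
    η * ginv (entInf p) + (1 - η) * ginv (entInf q) ≤ ginv (entInf (pCinf η p q)) := by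
  have h := (epni_passive_inf hp hq h0 h1).2.2.2.2
  have hC : 0 ≤ entInf (pCinf η p q) := tsum_nonneg fun m => Real.negMulLog_nonneg
    (pCinf_nonneg hp hq m)
    (le_hasSum (hasSum_pCinf hp hq h0 h1) m fun j _ => pCinf_nonneg hp hq j)
  by_contra hcon
  push Not at hcon
  exact absurd h (not_le.2 ((ginv_lt_iff hC
    (add_nonneg (mul_nonneg h0 (ginv_nonneg hp.entInf_nonneg))
      (mul_nonneg (sub_nonneg.2 h1) (ginv_nonneg hq.entInf_nonneg)))).1 hcon))

end Vale.Agent.P369
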