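import Vale.Agent.P369.QDefs
import Vale.Agent.P369.Limit
import Mathlib.Analysis.InnerProductSpace.l2Space
import Mathlib.LinearAlgebra.Matrix.PosDef

/-!
Entropy comparison without mean hypothesis, and the diagonal of the beam-splitter output of a
non-diagonal input in an arbitrary orthonormal basis.
-/

open Finset Real Filter Topology ComplexOrder

noncomputable section

namespace Vale.Agent.P369

/-- A sequence whose set sums are dominated by the prefix sums of another one of the same mass has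
more entropy, with finite entropies as the only further hypothesis. -/
theorem entropy_le_of_majorized' {C D : ℕ → ℝ} (hC0 : ∀ k, 0 ≤ C k) (hD0 : ∀ k, 0 ≤ D k)
    (hC : HasSum C 1) (hD : HasSum D 1) (sC : Summable (negMulLog ∘ C))
    (sD : Summable (negMulLog ∘ D))
    (hmaj : ∀ K : Finset ℕ, ∑ k ∈ K, C k ≤ ∑ k ∈ range K.card, D k) :
    entInf D ≤ entInf C := by
  classical
  simp only [Function.comp_def] at sC sD
  have hC1 : ∀ k, C k ≤ 1 := fun k => le_hasSum hC k fun j _ => hC0 j
  have hnml : ∀ k, 0 ≤ negMulLog (C k) := fun k => negMulLog_nonneg (hC0 k) (hC1 k)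
  set T : ℕ → ℝ := fun M => ∑' k, if C k ≤ 1 / (M : ℝ) then negMulLog (C k) else 0 with hT
  set err : ℕ → ℝ := fun M => 2 * T M + 2 * (Real.log M / M) with herr
  have step : ∀ M : ℕ, 4 ≤ M →
      ∑ k ∈ range M, negMulLog (D k) ≤ ∑' k, negMulLog (C k) + err M := by
    intro M hM
    have hM4 : (4 : ℝ) ≤ M := by exact_mod_cast hM
    have hMp : (0 : ℝ) < M := by linarith
    have hfin : {k | 1 / (M : ℝ) < C k}.Finite := by
      have h := hC.summable.tendsto_cofinite_zero.eventually_lt_const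
        (show (0 : ℝ) < 1 / M by positivity)
      rw [Filter.eventually_cofinite] at h
      exact h.subset fun k hk => not_lt.2 (le_of_lt hk)
    set F := hfin.toFinset with hF
    have hmem : ∀ k, k ∈ F ↔ 1 / (M : ℝ) < C k := fun k => by simp [hF]
    have hFc : F.card ≤ M := by
      have h1 : ∑ k ∈ F, 1 / (M : ℝ) ≤ ∑ k ∈ F, C k :=
        Finset.sum_le_sum fun k hk => ((hmem k).1 hk).le
      have h2 := h1.trans (sum_le_hasSum F (fun k _ => hC0 k) hC)
      rw [Finset.sum_const, nsmul_eq_mul, mul_one_div, div_le_one hMp] at h2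
      exact_mod_cast h2
    set g : ℕ → ℕ := fun k => if h : k < F.card then (F.equivFin.symm ⟨k, h⟩ : ℕ) else 0 with hg
    have hg_mem : ∀ k, k < F.card → g k ∈ F := fun k hk => by
      simp only [hg, dif_pos hk]; exact Subtype.coe_prop _
    have hg_inj : ∀ a, a < F.card → ∀ b, b < F.card → g a = g b → a = b := fun a ha b hb h => by
      simp only [hg, dif_pos ha, dif_pos hb] at h
      simpa using F.equivFin.symm.injective (Subtype.ext h)
    set p : ℕ → ℝ := fun k => if k < F.card then C (g k) else 0 with hp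
    have hp0 : ∀ k, 0 ≤ p k := fun k => by simp only [hp]; split_ifs <;> [exact hC0 _; exact le_rfl]
    obtain ⟨σ, E, hEa, hE0, hEs, hEeq⟩ := exists_rearr M p fun k _ => hp0 k
    have hsum : ∀ φ : ℝ → ℝ, φ 0 = 0 → ∑ k ∈ range M, φ (E k) = ∑ k ∈ F, φ (C k) := by
      intro φ hφ
      rw [perm_sum σ hEeq φ, ← Finset.sum_subset (Finset.range_subset_range.2 hFc) fun k _ hk => by
        simp only [Finset.mem_range] at hk; simp [hp, hk, hφ]]
      refine Finset.sum_bij (fun k _ => g k) (fun k hk => hg_mem k (Finset.mem_range.1 hk))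
        (fun a ha b hb => hg_inj a (Finset.mem_range.1 ha) b (Finset.mem_range.1 hb)) ?_ ?_
      · intro k hk
        refine ⟨F.equivFin ⟨k, hk⟩, Finset.mem_range.2 (Fin.isLt _), ?_⟩
        simp [hg]
      · intro k hk; simp [hp, Finset.mem_range.1 hk]
    have hpre : ∀ n, n ≤ M → ∑ k ∈ range n, E k ≤ ∑ k ∈ range n, D k := by
      intro n hn
      obtain ⟨S, -, hc, hs⟩ := prefix_rearr σ hEeq hn
      rw [hs, hp, ← Finset.sum_filter,
        ← Finset.sum_image fun a ha b hb => hg_inj a (Finset.mem_filter.1 ha).2 b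
          (Finset.mem_filter.1 hb).2]
      refine (hmaj _).trans (Finset.sum_le_sum_of_subset_of_nonneg
        (Finset.range_subset_range.2 ?_) fun k _ _ => hD0 k)
      exact (Finset.card_image_le.trans (Finset.card_filter_le _ _)).trans hc.le
    set δ : ℝ := 1 / (M : ℝ) ^ 2 with hδ
    have hδ0 : 0 < δ := by positivity
    have hδ1 : δ ≤ Real.exp (-1) := by
      rw [hδ, Real.exp_neg, inv_eq_one_div]
      refine one_div_le_one_div_of_le (Real.exp_pos 1) ?_
      nlinarith [Real.exp_one_lt_d9]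
    set G : ℝ := -Real.log δ - 1 with hG
    set h : ℕ → ℝ := fun k => Real.log (max (E k) δ) - Real.log δ with hh
    have hh0 : ∀ k, 0 ≤ h k := fun k =>
      sub_nonneg.2 (Real.log_le_log hδ0 (le_max_right _ _))
    have hha : ∀ k, k < M → h (k + 1) ≤ h k := fun k _ =>
      sub_le_sub_right (Real.log_le_log (lt_max_of_lt_right hδ0)
        (max_le_max (hEa (Nat.le_succ k)) le_rfl)) _
    have hE1 : ∀ k, E k ≤ 1 := fun k => by
      rcases lt_or_ge k M with hk | hk
      · rw [show E k = p (σ ⟨k, hk⟩) from hEeq ⟨k, hk⟩]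
        simp only [hp]
        split_ifs
        · exact hC1 _
        · exact zero_le_one
      · rw [hEs k hk]; exact zero_le_one
    have h1 : ∑ k ∈ range M, negMulLog (D k) ≤ ∑ k ∈ range M, negMulLog (E k)
        + ∑ k ∈ range M, (G - h k) * (D k - E k) + M * negMulLog δ := by
      have := Finset.sum_le_sum (s := range M) fun k _ =>
        negMulLog_tangent (hD0 k) (hE0 k) (hE1 k) hδ0 hδ1
      rw [Finset.sum_add_distrib, Finset.sum_add_distrib, Finset.sum_const, Finset.card_range,
        nsmul_eq_mul] at this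
      refine this.trans_eq ?_
      congr 2
      refine Finset.sum_congr rfl fun k _ => ?_
      simp only [hG, hh]; ring
    have h2 : ∑ k ∈ range M, (G - h k) * (D k - E k)
        ≤ G * (∑ k ∈ range M, D k - ∑ k ∈ range M, E k) := by
      have := abel_le hha hh0 hpre
      have e : ∑ k ∈ range M, (G - h k) * (D k - E k)
          = G * (∑ k ∈ range M, D k - ∑ k ∈ range M, E k)
            - (∑ k ∈ range M, h k * D k - ∑ k ∈ range M, h k * E k) := by
        simp only [mul_sub, sub_mul, Finset.sum_sub_distrib, ← Finset.mul_sum]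
        ring
      linarith
    rw [hsum (fun x => x) rfl] at h2
    rw [hsum negMulLog negMulLog_zero] at h1
    have hlogδ : Real.log δ = -(2 * Real.log M) := by
      rw [hδ, one_div, Real.log_inv, Real.log_pow]; norm_num
    have hL : 0 ≤ Real.log (M : ℝ) := Real.log_nonneg (by linarith)
    have hG0 : 0 ≤ G := by
      have := (Real.log_le_iff_le_exp hδ0).2 hδ1
      simp only [hG]; linarith
    have htail : Real.log M * (1 - ∑ k ∈ F, C k) ≤ T M := by
      have ht : HasSum (fun k => if k ∈ F then 0 else C k) (1 - ∑ k ∈ F, C k) := by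
        have h5 := hC.sub (hasSum_sum_of_ne_finset_zero (s := F)
          (f := fun k => if k ∈ F then C k else 0) (fun k hk => if_neg hk))
        rw [Finset.sum_congr rfl (g := C) fun k hk => if_pos hk] at h5
        refine h5.congr_fun fun k => ?_
        split_ifs <;> simp
      have hs : Summable fun k => if C k ≤ 1 / (M : ℝ) then negMulLog (C k) else 0 :=
        sC.of_nonneg_of_le (fun k => by split_ifs <;> [exact hnml k; exact le_rfl])
          fun k => by split_ifs <;> [exact le_rfl; exact hnml k]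
      refine hasSum_le (fun k => ?_) (ht.mul_left (Real.log M)) hs.hasSum
      by_cases hk : k ∈ F
      · rw [if_pos hk, mul_zero, if_neg (not_le.2 ((hmem k).1 hk))]
      · have hle : C k ≤ 1 / (M : ℝ) := not_lt.1 fun hlt => hk ((hmem k).2 hlt)
        rw [if_neg hk, if_pos hle, negMulLog]
        rcases (hC0 k).eq_or_lt with h0 | h0
        · simp [← h0]
        · have h3 := Real.log_le_log h0 hle
          rw [one_div, Real.log_inv] at h3
          linarith [mul_le_mul_of_nonneg_left h3 h0.le]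
    have h4 : G * (∑ k ∈ range M, D k - ∑ k ∈ F, C k) ≤ 2 * T M := by
      have hd1 := sum_le_hasSum (range M) (fun k _ => hD0 k) hD
      have hc1 := sum_le_hasSum F (fun k _ => hC0 k) hC
      calc G * (∑ k ∈ range M, D k - ∑ k ∈ F, C k) ≤ G * (1 - ∑ k ∈ F, C k) :=
            mul_le_mul_of_nonneg_left (by linarith) hG0
        _ ≤ (2 * Real.log M) * (1 - ∑ k ∈ F, C k) := by
            refine mul_le_mul_of_nonneg_right ?_ (by linarith)
            simp only [hG, hlogδ]; linarith
        _ ≤ 2 * T M := by linarith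
    have h5 : (M : ℝ) * negMulLog δ = 2 * (Real.log M / M) := by
      rw [negMulLog, hlogδ, hδ]; field_simp
    have h6 := sC.sum_le_tsum F fun k _ => hnml k
    simp only [herr]
    linarith
  have herr0 : Tendsto err atTop (𝓝 0) := by
    have h1 : Tendsto T atTop (𝓝 0) := by
      have := tendsto_tsum_of_dominated_convergence (bound := fun k => negMulLog (C k))
        (f := fun (M : ℕ) k => if C k ≤ 1 / (M : ℝ) then negMulLog (C k) else 0)
        (g := fun _ => (0 : ℝ)) (𝓕 := atTop) sC (fun k => ?_) (Eventually.of_forall fun M k => ?_)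
      · rw [tsum_zero] at this
        exact this
      · rcases (hC0 k).eq_or_lt with h0 | h0
        · simp [← h0]
        · refine tendsto_const_nhds.congr' ?_
          filter_upwards [(tendsto_one_div_atTop_nhds_zero_nat (𝕜 := ℝ)).eventually_lt_const h0]
            with M hM
          rw [if_neg (not_le.2 hM)]
      · split_ifs
        · rw [Real.norm_of_nonneg (hnml k)]
        · rw [norm_zero]; exact hnml k
    have h2 : Tendsto (fun M : ℕ => Real.log (M : ℝ) / M) atTop (𝓝 0) :=
      Real.isLittleO_log_id_atTop.tendsto_div_nhds_zero.comp tendsto_natCast_atTop_atTop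
    simpa [herr] using (h1.const_mul 2).add (h2.const_mul 2)
  unfold entInf
  refine le_of_tendsto_of_tendsto sD.hasSum.tendsto_sum_nat
    (by simpa using herr0.const_add (∑' k, negMulLog (C k))) ?_
  exact (eventually_ge_atTop 4).mono step

/-! ### The diagonal of the output in an arbitrary basis -/

variable {N : ℕ} {η : ℝ} {q : ℕ → ℝ}

/-- Amplitude of the component of the output along a vector. -/
def envAmp (η : ℝ) (v : ℕ → ℂ) (i l e : ℕ) : ℂ :=
  ∑' m : ℕ, (starRingEnd ℂ) (v m) * (bsMat η m e i l : ℂ)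

/-- One Kraus term of `outForm`. -/
def envTerm (η : ℝ) (q : ℕ → ℝ) (X : Matrix (Fin N) (Fin N) ℂ) (v : ℕ → ℂ) (le : ℕ × ℕ) : ℝ :=
  q le.1 * (∑ i : Fin N, ∑ i' : Fin N, X i i' * envAmp η v i le.1 le.2 *
    (starRingEnd ℂ) (envAmp η v i' le.1 le.2)).re

lemma outForm_eq_tsum (η : ℝ) (q : ℕ → ℝ) (X : Matrix (Fin N) (Fin N) ℂ) (v : ℕ → ℂ) :
    outForm η q X v = ∑' le, envTerm η q X v le := rfl

lemma bsMat_eq_zero (η : ℝ) {m e i l : ℕ} (h : m ≠ i + l - e) : bsMat η m e i l = 0 :=
  if_neg fun h' => h (by omega)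

lemma envAmp_eq (η : ℝ) (v : ℕ → ℂ) (i l e : ℕ) :
    envAmp η v i l e = (starRingEnd ℂ) (v (i + l - e)) * (bsMat η (i + l - e) e i l : ℂ) :=
  tsum_eq_single _ fun m hm => by simp [bsMat_eq_zero η hm]

lemma quad_re_nonneg {X : Matrix (Fin N) (Fin N) ℂ} (hX : X.PosSemidef) (a : Fin N → ℂ) :
    0 ≤ (∑ i, ∑ i', X i i' * a i * (starRingEnd ℂ) (a i')).re := by
  have h := hX.dotProduct_mulVec_nonneg fun i => (starRingEnd ℂ) (a i)
  have e : star (fun i => (starRingEnd ℂ) (a i)) ⬝ᵥ X.mulVec (fun i => (starRingEnd ℂ) (a i))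
      = ∑ i, ∑ i', X i i' * a i * (starRingEnd ℂ) (a i') := by
    simp only [dotProduct, Matrix.mulVec, Finset.mul_sum, Pi.star_apply, RCLike.star_def,
      Complex.conj_conj]
    exact Finset.sum_congr rfl fun i _ => Finset.sum_congr rfl fun i' _ => by ring
  rw [e] at h
  exact (Complex.nonneg_iff.1 h).1

lemma envTerm_nonneg (hq : ∀ l, 0 ≤ q l) {X : Matrix (Fin N) (Fin N) ℂ} (hX : X.PosSemidef)
    (v : ℕ → ℂ) (le : ℕ × ℕ) : 0 ≤ envTerm η q X v le :=
  mul_nonneg (hq _) (quad_re_nonneg hX fun i => envAmp η v i le.1 le.2)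

/-- `outForm` is nonnegative. -/
lemma outForm_nonneg (hq : ∀ l, 0 ≤ q l) {X : Matrix (Fin N) (Fin N) ℂ} (hX : X.PosSemidef)
    (v : ℕ → ℂ) : 0 ≤ outForm η q X v :=
  tsum_nonneg fun le => envTerm_nonneg hq hX v le

lemma hasSum_bsMat_sq (h0 : 0 ≤ η) (h1 : η ≤ 1) (i l : ℕ) :
    HasSum (fun e => bsMat η (i + l - e) e i l ^ 2) 1 := by
  have h : HasSum (fun e => bsMat η (i + l - e) e i l ^ 2)
      (∑ e ∈ range (i + l + 1), bsMat η (i + l - e) e i l ^ 2) :=
    hasSum_sum_of_ne_finset_zero fun e he => by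
      simp only [Finset.mem_range] at he
      rw [bsMat, if_neg (by omega)]; norm_num
  have e1 : ∑ e ∈ range (i + l + 1), bsMat η (i + l - e) e i l ^ 2 = 1 := by
    conv_rhs => rw [← sum_bsProb h0 h1 i l (i + l) le_rfl, ← Finset.sum_range_reflect]
    refine Finset.sum_congr rfl fun e he => ?_
    simp only [Finset.mem_range] at he
    rw [bsMat, if_pos (by omega), bsProb, show i + l + 1 - 1 - e = i + l - e by omega]
  rwa [e1] at h

/-- Parseval in one Kraus term. -/
lemma hasSum_envTerm_basis (e : HilbertBasis ℕ ℂ (lp (fun _ : ℕ => ℂ) 2))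
    (X : Matrix (Fin N) (Fin N) ℂ) (q : ℕ → ℝ) (le : ℕ × ℕ) :
    HasSum (fun k => envTerm η q X (e k) le)
      (q le.1 * ∑ i : Fin N, (X i i).re * bsMat η ((i : ℕ) + le.1 - le.2) le.2 i le.1 ^ 2) := by
  classical
  obtain ⟨l, d⟩ := le
  set m : Fin N → ℕ := fun i => (i : ℕ) + l - d with hm
  set b : Fin N → ℂ := fun i => (bsMat η (m i) d i l : ℂ) with hb
  have hpar : ∀ x y : ℕ, HasSum (fun k => (starRingEnd ℂ) (e k x) * e k y)
      (if x = y then 1 else 0) := by
    intro x y
    have h := e.hasSum_inner_mul_inner (lp.single 2 y (1 : ℂ)) (lp.single 2 x (1 : ℂ))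
    simp only [lp.inner_single_left, lp.inner_single_right, RCLike.inner_apply, lp.single_apply,
      map_one, mul_one, one_mul] at h
    have e' : (starRingEnd ℂ) (Pi.single (M := fun _ => ℂ) y (1 : ℂ) x) = if x = y then 1 else 0 := by
      rw [Pi.single_apply]; split_ifs <;> simp
    rw [e'] at h
    exact h.congr_fun fun k => mul_comm _ _
  have hii : ∀ i i' : Fin N, HasSum
      (fun k => X i i' * envAmp η (e k) i l d * (starRingEnd ℂ) (envAmp η (e k) i' l d))
      (if i = i' then X i i * b i ^ 2 else 0) := by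
    intro i i'
    have h := (hpar (m i) (m i')).mul_left (X i i' * b i * b i')
    have e' : X i i' * b i * b i' * (if m i = m i' then 1 else 0)
        = if i = i' then X i i * b i ^ 2 else 0 := by
      rcases eq_or_ne i i' with rfl | hne
      · simp [sq]; ring
      · rw [if_neg hne]
        by_cases hbi : b i = 0
        · simp [hbi]
        by_cases hbi' : b i' = 0
        · simp [hbi']
        rw [if_neg, mul_zero]
        intro hmm
        simp only [hb, hm, Complex.ofReal_eq_zero, bsMat, ite_eq_right_iff, not_forall] at hbi hbi'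
        obtain ⟨a, -⟩ := hbi
        obtain ⟨a', -⟩ := hbi'
        simp only [hm] at hmm
        exact hne (Fin.ext (by omega))
    rw [e'] at h
    refine h.congr_fun fun k => ?_
    simp only [envAmp_eq, map_mul, Complex.conj_conj, Complex.conj_ofReal, hm, hb]
    ring
  have h := (Complex.hasSum_re (hasSum_sum (s := (Finset.univ : Finset (Fin N))) fun i _ =>
    hasSum_sum (s := (Finset.univ : Finset (Fin N))) fun i' _ => hii i i')).mul_left (q l)
  simp only [Finset.sum_ite_eq, Finset.mem_univ, if_true, Complex.re_sum] at h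
  have e2 : ∀ i, (X i i * b i ^ 2).re = (X i i).re * bsMat η (m i) d i l ^ 2 := fun i => by
    simp [hb, sq]
  simp only [e2] at h
  exact h.congr_fun fun k => by simp [envTerm, Complex.re_sum]

/-- The diagonal of the output in a Hilbert basis sums to the trace. -/
theorem hasSum_outForm_basis (h0 : 0 ≤ η) (h1 : η ≤ 1) (hq : ∀ l, 0 ≤ q l) (hq1 : HasSum q 1)
    {X : Matrix (Fin N) (Fin N) ℂ} (hX : X.PosSemidef)
    (e : HilbertBasis ℕ ℂ (lp (fun _ : ℕ => ℂ) 2)) :
    HasSum (fun k => outForm η q X (e k)) X.trace.re := by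
  set g : ℕ × ℕ → ℝ := fun le =>
    q le.1 * ∑ i : Fin N, (X i i).re * bsMat η ((i : ℕ) + le.1 - le.2) le.2 i le.1 ^ 2 with hg
  have hd : ∀ i : Fin N, 0 ≤ (X i i).re := fun i => (Complex.nonneg_iff.1 hX.diag_nonneg).1
  have hrow : ∀ l, HasSum (fun d => g (l, d)) (q l * X.trace.re) := by
    intro l
    have h := (hasSum_sum (s := (Finset.univ : Finset (Fin N))) fun i _ =>
      (hasSum_bsMat_sq h0 h1 (i : ℕ) l).mul_left (X i i).re).mul_left (q l)
    simp only [mul_one] at h
    rw [← Complex.re_sum] at h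
    exact h
  have hg0 : ∀ le, 0 ≤ g le := fun le =>
    mul_nonneg (hq _) (Finset.sum_nonneg fun i _ => mul_nonneg (hd i) (sq_nonneg _))
  have hgs : Summable g := (summable_prod_of_nonneg hg0).2
    ⟨fun l => (hrow l).summable,
      ((hq1.mul_right X.trace.re).congr_fun fun l => (hrow l).tsum_eq).summable⟩
  have hgt : ∑' le, g le = X.trace.re := by
    rw [hgs.tsum_prod, tsum_congr fun l => (hrow l).tsum_eq,
      (hq1.mul_right X.trace.re).tsum_eq, one_mul]
  set G : (ℕ × ℕ) × ℕ → ℝ := fun x => envTerm η q X (e x.2) x.1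
  have hG0 : ∀ x, 0 ≤ G x := fun x => envTerm_nonneg hq hX _ _
  have hGs : Summable G := (summable_prod_of_nonneg hG0).2
    ⟨fun le => (hasSum_envTerm_basis e X q le).summable,
      hgs.congr fun le => (hasSum_envTerm_basis e X q le).tsum_eq.symm⟩
  have hGt : HasSum G X.trace.re := by
    have : ∑' x, G x = X.trace.re := by
      rw [hGs.tsum_prod, tsum_congr fun le => (hasSum_envTerm_basis e X q le).tsum_eq, hgt]
    exact this ▸ hGs.hasSum
  have hsw : HasSum (G ∘ Equiv.prodComm ℕ (ℕ × ℕ)) X.trace.re := (Equiv.hasSum_iff _).2 hGt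
  exact hsw.prod_fiberwise fun k => (hsw.summable.prod_factor k).hasSum

/-- Gram matrix of truncated vectors. -/
def gramQ {κ : Type*} (K : Finset κ) (v : κ → lp (fun _ : ℕ => ℂ) 2) (L : ℕ) :
    Matrix (Fin L) (Fin L) ℂ :=
  fun m' m => ∑ k ∈ K, v k m' * (starRingEnd ℂ) (v k m)

variable {κ : Type*} {K : Finset κ} {v : κ → lp (fun _ : ℕ => ℂ) 2} {L : ℕ}

lemma gramQ_posSemidef : (gramQ K v L).PosSemidef := by
  set A : Matrix (Fin L) K ℂ := fun m k => v k m
  have : gramQ K v L = A * A.conjTranspose := by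
    ext m' m
    exact (Finset.sum_coe_sort K fun k => v k m' * (starRingEnd ℂ) (v k m)).symm
  rw [this]
  exact Matrix.posSemidef_self_mul_conjTranspose A

lemma gramQ_quad_le (hv : Orthonormal ℂ v) (x : Fin L → ℂ) :
    (star x ⬝ᵥ (gramQ K v L).mulVec x).re ≤ ∑ m, ‖x m‖ ^ 2 := by
  classical
  set u : lp (fun _ : ℕ => ℂ) 2 := ∑ m : Fin L, lp.single 2 (m : ℕ) (x m) with hu
  have e1 : ∀ k, inner ℂ (v k) u = ∑ m : Fin L, (starRingEnd ℂ) (v k m) * x m := fun k => by
    simp only [hu, inner_sum, lp.inner_single_right, RCLike.inner_apply]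
    exact Finset.sum_congr rfl fun m _ => by ring
  have e2 : ‖u‖ ^ 2 = ∑ m, ‖x m‖ ^ 2 := by
    have hum : ∀ m : Fin L, u (m : ℕ) = x m := fun m => by
      rw [hu, lp.coeFn_sum, Fintype.sum_apply, Finset.sum_eq_single m]
      · exact lp.single_apply_self ..
      · exact fun b _ hb => lp.single_apply_ne _ _ _ fun h => hb (Fin.ext h.symm)
      · simp
    rw [← inner_self_eq_norm_sq (𝕜 := ℂ)]
    conv_lhs => rw [hu, sum_inner]
    rw [← hu]
    simp only [lp.inner_single_left, hum, inner_self_eq_norm_sq_to_K, map_sum]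
    exact Finset.sum_congr rfl fun m _ => by norm_cast
  have e4 : ∀ k, (starRingEnd ℂ) (inner ℂ (v k) u) * inner ℂ (v k) u = ∑ m : Fin L, ∑ m' : Fin L,
      (starRingEnd ℂ) (x m) * (v k m * (starRingEnd ℂ) (v k m') * x m') := fun k => by
    simp only [e1, map_sum, map_mul, Complex.conj_conj, Finset.sum_mul_sum]
    exact Finset.sum_congr rfl fun m _ => Finset.sum_congr rfl fun m' _ => by ring
  have e3 : star x ⬝ᵥ (gramQ K v L).mulVec x
      = ∑ k ∈ K, (starRingEnd ℂ) (inner ℂ (v k) u) * inner ℂ (v k) u := by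
    rw [Finset.sum_congr rfl fun k _ => e4 k, Finset.sum_comm]
    simp only [dotProduct, Matrix.mulVec, gramQ, Pi.star_apply, RCLike.star_def, Finset.sum_mul,
      Finset.mul_sum]
    exact Finset.sum_congr rfl fun m _ => Finset.sum_comm
  rw [e3, Complex.re_sum, ← e2]
  refine le_trans (le_of_eq (Finset.sum_congr rfl fun k _ => ?_))
    (hv.sum_inner_products_le u (s := K))
  rw [← Complex.normSq_eq_conj_mul_self, Complex.ofReal_re, Complex.normSq_eq_norm_sq]

lemma one_sub_gramQ_posSemidef (hv : Orthonormal ℂ v) : (1 - gramQ K v L).PosSemidef := by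
  have hp : (gramQ K v L).PosSemidef := gramQ_posSemidef
  refine Matrix.PosSemidef.of_dotProduct_mulVec_nonneg (Matrix.isHermitian_one.sub hp.1) fun x => ?_
  rw [Matrix.sub_mulVec, Matrix.one_mulVec, dotProduct_sub, Complex.nonneg_iff]
  have h2 := hp.dotProduct_mulVec_nonneg x
  rw [Complex.nonneg_iff] at h2
  have e4 : star x ⬝ᵥ x = ((∑ m, ‖x m‖ ^ 2 : ℝ) : ℂ) := by
    push_cast
    simp [dotProduct, RCLike.conj_mul]
  rw [e4, Complex.sub_re, Complex.sub_im, Complex.ofReal_re, Complex.ofReal_im, ← h2.2]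
  exact ⟨sub_nonneg.2 (gramQ_quad_le hv x), by norm_num⟩

lemma gramQ_trace_le (hv : Orthonormal ℂ v) : (gramQ K v L).trace.re ≤ K.card := by
  simp only [Matrix.trace, Matrix.diag, gramQ, Complex.re_sum]
  rw [Finset.sum_comm, show (K.card : ℝ) = ∑ k ∈ K, (1 : ℝ) by simp]
  refine Finset.sum_le_sum fun k _ => ?_
  have h := lp.sum_rpow_le_norm_rpow (p := 2) (by norm_num) (v k)
    ((Finset.univ : Finset (Fin L)).map Fin.valEmbedding)
  simp only [hv.1 k, Finset.sum_map, ENNReal.toReal_ofNat, Real.rpow_two, one_pow,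
    Fin.valEmbedding_apply] at h
  refine le_trans (le_of_eq (Finset.sum_congr rfl fun m _ => ?_)) h
  rw [Complex.mul_conj, Complex.ofReal_re, Complex.normSq_eq_norm_sq]

lemma summable_envEl (h0 : 0 ≤ η) (h1 : η ≤ 1) (hq : ∀ l, 0 ≤ q l) (hq1 : Summable q)
    (i i' m m' : ℕ) : Summable fun le : ℕ × ℕ =>
      q le.1 * (bsMat η m le.2 i le.1 * bsMat η m' le.2 i' le.1) := by
  have hb : ∀ m e i l, |bsMat η m e i l| ≤ 1 := fun m e i l => by
    unfold bsMat
    split_ifs
    · rw [← sq_le_one_iff_abs_le_one]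
      exact bsProb_le_one h0 h1 i l m
    · simp
  set g : ℕ × ℕ → ℝ := fun le => if le.2 = i + le.1 - m then q le.1 else 0 with hg
  have hg0 : ∀ le, 0 ≤ g le := fun le => by
    simp only [hg]; split_ifs <;> [exact hq _; exact le_rfl]
  have hrow : ∀ l, HasSum (fun d => g (l, d)) (q l) := fun l =>
    hasSum_ite_eq (i + l - m) (q l)
  have hgs : Summable g := (summable_prod_of_nonneg hg0).2
    ⟨fun l => (hrow l).summable, hq1.congr fun l => (hrow l).tsum_eq.symm⟩
  refine Summable.of_norm_bounded hgs fun le => ?_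
  simp only [hg]
  rw [Real.norm_eq_abs]
  split_ifs with he
  · rw [abs_mul, abs_mul, abs_of_nonneg (hq _)]
    exact mul_le_of_le_one_right (hq _) (mul_le_one₀ (hb _ _ _ _) (abs_nonneg _) (hb _ _ _ _))
  · rw [show bsMat η m le.2 i le.1 = 0 from if_neg (by omega)]
    simp

lemma envAmp_cut (w : ℕ → ℂ) (L i l d : ℕ) :
    envAmp η (fun m => if m < L then w m else 0) i l d
      = ∑ m : Fin L, (starRingEnd ℂ) (w m) * (bsMat η m d i l : ℂ) := by
  rw [envAmp, tsum_eq_sum (s := range L) fun m hm => by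
    simp only [Finset.mem_range] at hm; simp [hm],
    ← Fin.sum_univ_eq_sum_range]
  exact Finset.sum_congr rfl fun m _ => by simp

lemma sum_envTerm_cut (X : Matrix (Fin N) (Fin N) ℂ) (l d : ℕ) :
    ∑ k ∈ K, envTerm η q X (fun m => if m < L then v k m else 0) (l, d)
      = (∑ i : Fin N, ∑ i' : Fin N, ∑ m : Fin L, ∑ m' : Fin L, X i i' * gramQ K v L m' m *
          ((q l * (bsMat η m d i l * bsMat η m' d i' l) : ℝ) : ℂ)).re := by
  simp only [envTerm, envAmp_cut, ← Finset.mul_sum]
  rw [← Complex.re_sum, ← Complex.re_ofReal_mul]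
  congr 1
  rw [Finset.mul_sum]
  simp only [gramQ, Finset.mul_sum, Finset.sum_mul, map_sum]
  rw [Finset.sum_comm]
  refine Finset.sum_congr rfl fun i _ => ?_
  rw [Finset.sum_comm]
  refine Finset.sum_congr rfl fun i' _ => ?_
  rw [Finset.sum_comm, Finset.sum_comm (s := (Finset.univ : Finset (Fin L)))]
  rw [Finset.sum_comm (s := K)]
  refine ((Finset.sum_congr rfl fun m' _ => Finset.sum_comm).trans Finset.sum_comm).trans ?_
  refine Finset.sum_congr rfl fun m _ => Finset.sum_congr rfl fun m' _ =>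
    Finset.sum_congr rfl fun k _ => ?_
  simp only [map_mul, Complex.conj_conj, Complex.conj_ofReal, Complex.ofReal_mul]
  ring

lemma hasSum_envTerm_cut (h0 : 0 ≤ η) (h1 : η ≤ 1) (hq : ∀ l, 0 ≤ q l) (hq1 : Summable q)
    (X : Matrix (Fin N) (Fin N) ℂ) :
    HasSum (fun le => ∑ k ∈ K, envTerm η q X (fun m => if m < L then v k m else 0) le)
      (∑ i : Fin N, ∑ i' : Fin N, ∑ m : Fin L, ∑ m' : Fin L,
        X i i' * gramQ K v L m' m * (envEl η q i i' m m' : ℂ)).re := by
  have hC : HasSum (fun le : ℕ × ℕ => ∑ i : Fin N, ∑ i' : Fin N, ∑ m : Fin L, ∑ m' : Fin L,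
      X i i' * gramQ K v L m' m *
        ((q le.1 * (bsMat η m le.2 i le.1 * bsMat η m' le.2 i' le.1) : ℝ) : ℂ))
      (∑ i : Fin N, ∑ i' : Fin N, ∑ m : Fin L, ∑ m' : Fin L,
        X i i' * gramQ K v L m' m * (envEl η q i i' m m' : ℂ)) :=
    hasSum_sum fun i _ => hasSum_sum fun i' _ => hasSum_sum fun m _ => hasSum_sum fun m' _ =>
      (Complex.hasSum_ofReal.2 (summable_envEl h0 h1 hq hq1 i i' m m').hasSum).mul_left _
  exact (Complex.hasSum_re hC).congr_fun fun le => sum_envTerm_cut X le.1 le.2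

/-- Partial sums of the output diagonal over orthonormal vectors are bounded by the Ky Fan
functional of the output. -/
theorem outForm_sets (hv : Orthonormal ℂ v) (h0 : 0 ≤ η) (h1 : η ≤ 1) (hq : ∀ l, 0 ≤ q l)
    (hq1 : HasSum q 1) {X : Matrix (Fin N) (Fin N) ℂ} (hX : X.PosSemidef) {B : ℝ}
    (hB : ∀ (L : ℕ) (Q : Matrix (Fin L) (Fin L) ℂ), Q.PosSemidef → (1 - Q).PosSemidef →
      Q.trace.re ≤ K.card →
      (∑ i : Fin N, ∑ i' : Fin N, ∑ m : Fin L, ∑ m' : Fin L,
        X i i' * Q m' m * (envEl η q i i' m m' : ℂ)).re ≤ B) :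
    ∑ k ∈ K, outForm η q X (v k) ≤ B := by
  have key : ∀ S : Finset (ℕ × ℕ), ∑ le ∈ S, ∑ k ∈ K, envTerm η q X (v k) le ≤ B := by
    intro S
    set L : ℕ := N + S.sup (fun le => le.1)
    have hle : ∑ le ∈ S, ∑ k ∈ K, envTerm η q X (v k) le
        = ∑ le ∈ S, ∑ k ∈ K, envTerm η q X (fun m => if m < L then v k m else 0) le := by
      refine Finset.sum_congr rfl fun le hle => Finset.sum_congr rfl fun k _ => ?_
      have hlt : ∀ i : Fin N, (i : ℕ) + le.1 - le.2 < L := fun i => by
        have := Finset.le_sup (f := fun le : ℕ × ℕ => le.1) hle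
        have := i.isLt
        simp only [L] at *
        omega
      simp only [envTerm, envAmp_eq, hlt, if_true]
    rw [hle]
    exact (sum_le_hasSum S
      (fun le _ => Finset.sum_nonneg fun k _ => envTerm_nonneg hq hX _ _)
      (hasSum_envTerm_cut h0 h1 hq hq1.summable X)).trans
        (hB L _ gramQ_posSemidef (one_sub_gramQ_posSemidef hv) (gramQ_trace_le hv))
  have hs : ∀ k ∈ K, Summable (envTerm η q X (v k)) := fun k hk =>
    summable_of_sum_le (envTerm_nonneg hq hX _) fun S =>
      le_trans (Finset.sum_le_sum fun le _ =>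
        Finset.single_le_sum (fun j _ => envTerm_nonneg hq hX (v j) le) hk) (key S)
  simp only [outForm_eq_tsum]
  rw [← Summable.tsum_finsetSum hs]
  exact Real.tsum_le_of_sum_le (fun le => Finset.sum_nonneg fun k _ => envTerm_nonneg hq hX _ _) key

end Vale.Agent.P369
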