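import Vale.Agent.P369.QDefs

open Finset Polynomial Nat

noncomputable section

namespace Vale.Agent.P369

variable {η z : ℝ}

/-! ### Ladder relations of the amplitudes -/

lemma bsAmp_of_lt (η : ℝ) {i j m : ℕ} (h : i + j < m) : bsAmp η i j m = 0 := by
  rw [bsAmp, coeff_bsPoly_of_lt η h, mul_zero]

lemma abs_bsAmp_le_one (h0 : 0 ≤ η) (h1 : η ≤ 1) (i j m : ℕ) : |bsAmp η i j m| ≤ 1 := by
  rw [← sq_le_one_iff_abs_le_one]
  exact thermal_bsProb_le_one h0 h1 i j m

/-- Square root of a factorial. -/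
def sqf (n : ℕ) : ℝ := Real.sqrt (n ! : ℝ)

lemma sqf_pos (n : ℕ) : 0 < sqf n := Real.sqrt_pos.2 (Nat.cast_pos.2 (Nat.factorial_pos n))

lemma sqf_succ (n : ℕ) : sqf (n + 1) = Real.sqrt ((n : ℝ) + 1) * sqf n := by
  rw [sqf, Nat.factorial_succ, sqf, ← Real.sqrt_mul (by positivity)]
  push_cast
  rfl

lemma bsAmp_eq (η : ℝ) (i j m : ℕ) :
    bsAmp η i j m = sqf m * sqf (i + j - m) / (sqf i * sqf j) * (bsPoly η i j).coeff m := by
  unfold bsAmp sqf
  rw [Real.sqrt_div (by positivity), Real.sqrt_mul (by positivity), Real.sqrt_mul (by positivity)]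

/-- Raising the first input. -/
lemma bsAmp_raise_left (η : ℝ) (i j m : ℕ) :
    Real.sqrt ((i : ℝ) + 1) * bsAmp η (i + 1) j m
      = Real.sqrt η * Real.sqrt (m : ℝ) * bsAmp η i j (m - 1)
        - Real.sqrt (1 - η) * Real.sqrt ((i + 1 + j - m : ℕ) : ℝ) * bsAmp η i j m := by
  have hi := (sqf_pos i).ne'
  have hj := (sqf_pos j).ne'
  have hi1 : Real.sqrt ((i : ℝ) + 1) ≠ 0 := (Real.sqrt_pos.2 (by positivity)).ne'
  simp only [bsAmp_eq, sqf_succ i]
  rw [bsPoly_succ_left]
  rcases m with _ | m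
  · rw [coeff_lin_zero, Nat.sub_zero, show i + 1 + j = i + j + 1 by ring, sqf_succ (i + j)]
    simp only [Nat.cast_zero, Real.sqrt_zero, Nat.sub_zero, mul_zero, zero_mul, zero_sub]
    push_cast
    field_simp
  · rw [coeff_lin_succ, sqf_succ m, Nat.add_sub_cancel, show i + 1 + j - (m + 1) = i + j - m by omega]
    push_cast
    rcases lt_or_ge (i + j) (m + 1) with h | h
    · rw [coeff_bsPoly_of_lt η h]
      simp only [mul_zero, add_zero, sub_zero]
      field_simp
    · rw [show i + j - m = (i + j - (m + 1)) + 1 by omega, sqf_succ]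
      push_cast
      field_simp
      ring

/-- Raising the second input. -/
lemma bsAmp_raise_right (η : ℝ) (i j m : ℕ) :
    Real.sqrt ((j : ℝ) + 1) * bsAmp η i (j + 1) m
      = Real.sqrt (1 - η) * Real.sqrt (m : ℝ) * bsAmp η i j (m - 1)
        + Real.sqrt η * Real.sqrt ((i + (j + 1) - m : ℕ) : ℝ) * bsAmp η i j m := by
  have hi := (sqf_pos i).ne'
  have hj := (sqf_pos j).ne'
  have hj1 : Real.sqrt ((j : ℝ) + 1) ≠ 0 := (Real.sqrt_pos.2 (by positivity)).ne'
  simp only [bsAmp_eq, sqf_succ j]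
  rw [bsPoly_succ_right]
  rcases m with _ | m
  · rw [coeff_lin_zero, Nat.sub_zero, show i + (j + 1) = i + j + 1 by ring, sqf_succ (i + j)]
    simp only [Nat.cast_zero, Real.sqrt_zero, Nat.sub_zero, mul_zero, zero_mul, zero_add]
    push_cast
    field_simp
  · rw [coeff_lin_succ, sqf_succ m, Nat.add_sub_cancel, show i + (j + 1) - (m + 1) = i + j - m by omega]
    push_cast
    rcases lt_or_ge (i + j) (m + 1) with h | h
    · rw [coeff_bsPoly_of_lt η h]
      simp only [mul_zero, add_zero]
      field_simp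
    · rw [show i + j - m = (i + j - (m + 1)) + 1 by omega, sqf_succ]
      push_cast
      field_simp

/-- Euler's relation for the amplitude polynomial. -/
lemma coeff_euler (η : ℝ) (i j m : ℕ) :
    ((i : ℝ) + j - m) * (bsPoly η i j).coeff m
      = -((i : ℝ) * Real.sqrt (1 - η)) * (bsPoly η (i - 1) j).coeff m
        + (j : ℝ) * Real.sqrt η * (bsPoly η i (j - 1)).coeff m := by
  have e : Polynomial.C ((i : ℝ) + j) * bsPoly η i j - Polynomial.X * derivative (bsPoly η i j)
      = Polynomial.C (-((i : ℝ) * Real.sqrt (1 - η))) * bsPoly η (i - 1) j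
        + Polynomial.C ((j : ℝ) * Real.sqrt η) * bsPoly η i (j - 1) := by
    unfold bsPoly
    rcases i with _ | i <;> rcases j with _ | j <;>
    · simp only [derivative_mul, derivative_pow, derivative_sub, derivative_X,
        derivative_C, derivative_one, pow_zero, sub_zero, add_zero, zero_add, Nat.cast_zero,
        Nat.zero_sub, add_tsub_cancel_right, Nat.cast_add, Nat.cast_one, map_add, map_mul, map_neg,
        map_zero, map_one, mul_one, one_mul, zero_mul, mul_zero, neg_zero]
      try ring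
  have h := congrArg (fun q => coeff q m) e
  simp only [coeff_sub, coeff_add, coeff_C_mul, coeff_X_mul_derivative] at h
  linear_combination h

/-- Lowering the discarded mode. -/
lemma bsAmp_lower (η : ℝ) (i j m : ℕ) :
    Real.sqrt ((i + j - m : ℕ) : ℝ) * bsAmp η i j m
      = Real.sqrt η * Real.sqrt (j : ℝ) * bsAmp η i (j - 1) m
        - Real.sqrt (1 - η) * Real.sqrt (i : ℝ) * bsAmp η (i - 1) j m := by
  rcases le_or_gt (i + j) m with h | h
  · rw [show i + j - m = 0 by omega, Nat.cast_zero, Real.sqrt_zero, zero_mul]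
    have hj : Real.sqrt (j : ℝ) * bsAmp η i (j - 1) m = 0 := by
      rcases j with _ | j
      · simp
      · rw [bsAmp_of_lt η (by omega), mul_zero]
    have hi : Real.sqrt (i : ℝ) * bsAmp η (i - 1) j m = 0 := by
      rcases i with _ | i
      · simp
      · rw [bsAmp_of_lt η (by omega), mul_zero]
    rw [mul_assoc, mul_assoc, hj, hi]; ring
  · obtain ⟨d, hd⟩ : ∃ d, i + j - m = d + 1 := ⟨i + j - m - 1, by omega⟩
    have hc : ((d : ℝ) + 1) = (i : ℝ) + j - m := by
      have : ((d + 1 + m : ℕ) : ℝ) = ((i + j : ℕ) : ℝ) := congrArg _ (by omega : d + 1 + m = i + j)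
      push_cast at this
      linarith
    have he := coeff_euler η i j m
    have hL : Real.sqrt ((i + j - m : ℕ) : ℝ) * bsAmp η i j m
        = sqf m * sqf d / (sqf i * sqf j) * (((i : ℝ) + j - m) * (bsPoly η i j).coeff m) := by
      rw [bsAmp_eq, hd, sqf_succ, ← hc]
      push_cast
      linear_combination (sqf m * sqf d / (sqf i * sqf j) * (bsPoly η i j).coeff m) *
        Real.mul_self_sqrt (show (0:ℝ) ≤ (d : ℝ) + 1 by positivity)
    have hR1 : Real.sqrt (j : ℝ) * bsAmp η i (j - 1) m
        = sqf m * sqf d / (sqf i * sqf j) * ((j : ℝ) * (bsPoly η i (j - 1)).coeff m) := by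
      rcases j with _ | j
      · simp
      · rw [bsAmp_eq, sqf_succ, Nat.add_sub_cancel, show i + j - m = d by omega]
        have := (sqf_pos i).ne'
        have := (sqf_pos j).ne'
        have h1 : Real.sqrt ((j : ℝ) + 1) ≠ 0 := (Real.sqrt_pos.2 (by positivity)).ne'
        push_cast
        field_simp
        linear_combination (sqf m * sqf d * (bsPoly η i j).coeff m) * Real.mul_self_sqrt
          (show (0:ℝ) ≤ (j : ℝ) + 1 by positivity)
    have hR2 : Real.sqrt (i : ℝ) * bsAmp η (i - 1) j m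
        = sqf m * sqf d / (sqf i * sqf j) * ((i : ℝ) * (bsPoly η (i - 1) j).coeff m) := by
      rcases i with _ | i
      · simp
      · rw [bsAmp_eq, sqf_succ, Nat.add_sub_cancel, show i + j - m = d by omega]
        have := (sqf_pos i).ne'
        have := (sqf_pos j).ne'
        have h1 : Real.sqrt ((i : ℝ) + 1) ≠ 0 := (Real.sqrt_pos.2 (by positivity)).ne'
        push_cast
        field_simp
        linear_combination (sqf m * sqf d * (bsPoly η i j).coeff m) * Real.mul_self_sqrt
          (show (0:ℝ) ≤ (i : ℝ) + 1 by positivity)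
    rw [mul_assoc (Real.sqrt η), mul_assoc (Real.sqrt (1 - η)), hL, hR1, hR2, he]
    ring

/-! ### Generating sums over the environment -/

/-- Generating sum of amplitude products. -/
def ampGen (η z : ℝ) (i i' m m' : ℕ) : ℝ := ∑' l, z ^ l * (bsAmp η i l m * bsAmp η i' l m')

lemma summable_bounded_mul (hz : 0 ≤ z) (hz1 : z < 1) (f : ℕ → ℝ) (c : ℝ)
    (hf : ∀ l : ℕ, |f l| ≤ (l : ℝ) + c) : Summable fun l => z ^ l * f l := by
  have h1 : Summable fun l : ℕ => ((l : ℝ) + c) * z ^ l := by
    simp only [add_mul]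
    refine Summable.add ?_ ((summable_geometric_of_lt_one hz hz1).mul_left c)
    have := summable_pow_mul_geometric_of_norm_lt_one 1 (R := ℝ) (r := z)
      (by rwa [Real.norm_of_nonneg hz])
    simpa using this
  refine Summable.of_norm_bounded h1 fun l => ?_
  rw [Real.norm_eq_abs, abs_mul, abs_of_nonneg (pow_nonneg hz l), mul_comm]
  exact mul_le_mul_of_nonneg_right (hf l) (pow_nonneg hz l)

lemma abs_mul_amp_le (h0 : 0 ≤ η) (h1 : η ≤ 1) (i i' l l' m m' : ℕ) :
    |bsAmp η i l m * bsAmp η i' l' m'| ≤ 1 := by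
  rw [abs_mul]
  exact mul_le_one₀ (abs_bsAmp_le_one h0 h1 i l m) (abs_nonneg _) (abs_bsAmp_le_one h0 h1 i' l' m')

lemma ampGen_hasSum (h0 : 0 ≤ η) (h1 : η ≤ 1) (hz : 0 ≤ z) (hz1 : z < 1) (i i' m m' : ℕ) :
    HasSum (fun l => z ^ l * (bsAmp η i l m * bsAmp η i' l m')) (ampGen η z i i' m m') :=
  (summable_bounded_mul hz hz1 _ 1 fun l =>
    (abs_mul_amp_le h0 h1 i i' l l m m').trans (le_add_of_nonneg_left (Nat.cast_nonneg l))).hasSum

lemma ampGen_swap (η z : ℝ) (i i' m m' : ℕ) : ampGen η z i i' m m' = ampGen η z i' i m' m :=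
  tsum_congr fun l => by ring

lemma ampGen_step (h0 : 0 ≤ η) (h1 : η ≤ 1) (hz : 0 ≤ z) (hz1 : z < 1) {i i' m m' : ℕ}
    (hc : i + 1 + m' = i' + m) :
    (1 - η * z) * (Real.sqrt ((i : ℝ) + 1) * ampGen η z (i + 1) i' m m')
      = Real.sqrt η * (1 - z) * Real.sqrt (m : ℝ) * ampGen η z i i' (m - 1) m'
        + (1 - η) * Real.sqrt (i' : ℝ) * ampGen η z i (i' - 1) m m' := by
  have hA := Real.mul_self_sqrt h0
  have hB := Real.mul_self_sqrt (sub_nonneg.2 h1)
  have sd : Summable fun l => z ^ l *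
      (Real.sqrt ((i' + l - m' : ℕ) : ℝ) * (bsAmp η i l m * bsAmp η i' l m')) := by
    refine summable_bounded_mul hz hz1 _ ((i' : ℝ) + 1) fun l => ?_
    rw [abs_mul, abs_of_nonneg (Real.sqrt_nonneg _)]
    refine (mul_le_of_le_one_right (Real.sqrt_nonneg _) (abs_mul_amp_le h0 h1 i i' l l m m')).trans ?_
    have h2 : ((i' + l - m' : ℕ) : ℝ) ≤ (l : ℝ) + i' := by
      have : ((i' + l - m' : ℕ) : ℝ) ≤ ((i' + l : ℕ) : ℝ) := Nat.cast_le.2 (Nat.sub_le _ _)
      push_cast at this
      linarith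
    rw [Real.sqrt_le_left (by positivity)]
    nlinarith [Nat.cast_nonneg (α := ℝ) l, Nat.cast_nonneg (α := ℝ) i']
  have hD := sd.hasSum
  set D := ∑' l, z ^ l *
    (Real.sqrt ((i' + l - m' : ℕ) : ℝ) * (bsAmp η i l m * bsAmp η i' l m'))
  have hK1 := ampGen_hasSum h0 h1 hz hz1 i i' (m - 1) m'
  have hK2 := ampGen_hasSum h0 h1 hz hz1 i (i' - 1) m m'
  -- raising the first input
  have e1 : Real.sqrt ((i : ℝ) + 1) * ampGen η z (i + 1) i' m m'
      = Real.sqrt η * Real.sqrt (m : ℝ) * ampGen η z i i' (m - 1) m' - Real.sqrt (1 - η) * D := by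
    refine ((ampGen_hasSum h0 h1 hz hz1 (i + 1) i' m m').mul_left _).unique
      (((hK1.mul_left _).sub (hD.mul_left _)).congr_fun fun l => ?_)
    have h := bsAmp_raise_left η i l m
    rw [show i + 1 + l - m = i' + l - m' by omega] at h
    linear_combination (z ^ l * bsAmp η i' l m') * h
  -- the discarded mode, lowered and then raised on the second input
  have hE : HasSum (fun l : ℕ => z ^ l *
      (Real.sqrt (l : ℝ) * (bsAmp η i l m * bsAmp η i' (l - 1) m')))
      (z * (Real.sqrt (1 - η) * Real.sqrt (m : ℝ) * ampGen η z i i' (m - 1) m'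
        + Real.sqrt η * D)) := by
    have hs := ((hK1.mul_left (Real.sqrt (1 - η) * Real.sqrt (m : ℝ))).add
      (hD.mul_left (Real.sqrt η))).mul_left z
    have hs' := hs.congr_fun (g := fun l : ℕ => z ^ (l + 1) *
      (Real.sqrt ((l + 1 : ℕ) : ℝ) * (bsAmp η i (l + 1) m * bsAmp η i' (l + 1 - 1) m'))) fun l => by
      have h := bsAmp_raise_right η i l m
      rw [show i + (l + 1) - m = i' + l - m' by omega] at h
      rw [Nat.add_sub_cancel, Nat.cast_add, Nat.cast_one]
      linear_combination (z ^ (l + 1) * bsAmp η i' l m') * h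
    have hf := (hasSum_nat_add_iff (f := fun l : ℕ => z ^ l *
      (Real.sqrt (l : ℝ) * (bsAmp η i l m * bsAmp η i' (l - 1) m'))) 1).1 hs'
    simpa using hf
  have e2 : D = Real.sqrt η * (z * (Real.sqrt (1 - η) * Real.sqrt (m : ℝ) *
      ampGen η z i i' (m - 1) m' + Real.sqrt η * D))
      - Real.sqrt (1 - η) * Real.sqrt (i' : ℝ) * ampGen η z i (i' - 1) m m' := by
    refine hD.unique (((hE.mul_left _).sub (hK2.mul_left _)).congr_fun fun l => ?_)
    linear_combination (z ^ l * bsAmp η i l m) * bsAmp_lower η i' l m'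
  linear_combination (1 - η * z) * e1 - Real.sqrt (1 - η) * e2
    - Real.sqrt (1 - η) * z * D * hA
    + (Real.sqrt (i' : ℝ) * ampGen η z i (i' - 1) m m'
      - Real.sqrt η * z * Real.sqrt (m : ℝ) * ampGen η z i i' (m - 1) m') * hB

/-! ### Ladder relations of loss followed by amplification -/

lemma lossA_eq_zero_of_lt (s : ℝ) {i m : ℕ} (h : i < m) : lossA s i m = 0 := if_neg (by omega)

lemma lossA_succ_left (s : ℝ) {i l : ℕ} (hl : l ≤ i + 1) :
    Real.sqrt ((i : ℝ) + 1) * lossA s (i + 1) l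
      = Real.sqrt s * Real.sqrt (l : ℝ) * lossA s i (l - 1)
        + Real.sqrt (1 - s) * Real.sqrt ((i + 1 - l : ℕ) : ℝ) * lossA s i l := by
  set S := Real.sqrt ((i + 1).choose l : ℝ) / Real.sqrt ((i : ℝ) + 1) with hS
  have h1 : Real.sqrt ((i : ℝ) + 1) ≠ 0 := (Real.sqrt_pos.2 (by positivity)).ne'
  have h1' := Real.mul_self_sqrt (show (0:ℝ) ≤ (i : ℝ) + 1 by positivity)
  have hS0 : 0 ≤ S := by positivity
  have hS2 : S * S * ((i : ℝ) + 1) = ((i + 1).choose l : ℝ) := by
    have h2 : S * Real.sqrt ((i : ℝ) + 1) = Real.sqrt ((i + 1).choose l : ℝ) :=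
      div_mul_cancel₀ _ h1
    have h3 := Real.mul_self_sqrt (Nat.cast_nonneg ((i + 1).choose l) : (0:ℝ) ≤ _)
    rw [← h2] at h3
    linear_combination h3 - S * S * h1'
  have key : ∀ (x c : ℕ), x * (i + 1).choose l = (i + 1) * c →
      Real.sqrt (x : ℝ) * Real.sqrt (c : ℝ) = (x : ℝ) * S := by
    intro x c hxc
    rw [← Real.sqrt_mul (Nat.cast_nonneg x), ← Real.sqrt_mul_self (mul_nonneg (Nat.cast_nonneg x) hS0)]
    congr 1
    have : ((x : ℝ) * ((i + 1).choose l : ℝ)) = ((i : ℝ) + 1) * c := by exact_mod_cast hxc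
    have hpos : (0:ℝ) < (i : ℝ) + 1 := by positivity
    refine mul_left_cancel₀ hpos.ne' ?_
    linear_combination -((x : ℝ)) * this - (x : ℝ) * x * hS2
  have hA1 : Real.sqrt s * Real.sqrt (l : ℝ) * lossA s i (l - 1)
      = (l : ℝ) * S * (Real.sqrt s ^ l * Real.sqrt (1 - s) ^ (i + 1 - l)) := by
    rcases l with _ | l
    · simp
    · rw [lossA, if_pos (by omega), Nat.add_sub_cancel, show i + 1 - (l + 1) = i - l by omega]
      have := key (l + 1) (i.choose l) (by rw [Nat.add_one_mul_choose_eq]; ring)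
      rw [← this]; ring
  have hA2 : Real.sqrt (1 - s) * Real.sqrt ((i + 1 - l : ℕ) : ℝ) * lossA s i l
      = ((i + 1 - l : ℕ) : ℝ) * S * (Real.sqrt s ^ l * Real.sqrt (1 - s) ^ (i + 1 - l)) := by
    rcases hl.eq_or_lt with rfl | hl'
    · simp
    · rw [lossA, if_pos (by omega)]
      have := key (i + 1 - l) (i.choose l) (by
        rw [mul_comm (i + 1 - l), ← Nat.choose_mul_succ_eq, mul_comm])
      rw [← this, show i + 1 - l = (i - l) + 1 by omega]; ring
  rw [hA1, hA2, lossA, if_pos hl]
  have hc : (l : ℝ) + ((i + 1 - l : ℕ) : ℝ) = (i : ℝ) + 1 := by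
    have : ((l + (i + 1 - l) : ℕ) : ℝ) = ((i + 1 : ℕ) : ℝ) := congrArg _ (by omega : l + (i + 1 - l) = i + 1)
    push_cast at this
    exact this
  have hSc : Real.sqrt ((i : ℝ) + 1) * Real.sqrt ((i + 1).choose l : ℝ) = ((i : ℝ) + 1) * S := by
    rw [hS]; field_simp; linear_combination Real.sqrt ((i + 1).choose l : ℝ) * h1'
  linear_combination (Real.sqrt s ^ l * Real.sqrt (1 - s) ^ (i + 1 - l)) * hSc
    - S * (Real.sqrt s ^ l * Real.sqrt (1 - s) ^ (i + 1 - l)) * hc

lemma lossA_lower (s : ℝ) (i l : ℕ) :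
    Real.sqrt ((i - l : ℕ) : ℝ) * lossA s i l
      = Real.sqrt (1 - s) * Real.sqrt (i : ℝ) * lossA s (i - 1) l := by
  rcases i with _ | i
  · simp
  rcases le_or_gt (i + 1) l with h | h
  · rw [Nat.add_sub_cancel, lossA_eq_zero_of_lt s (show i < l by omega),
      show i + 1 - l = 0 by omega]
    simp
  · rw [Nat.add_sub_cancel, lossA, lossA, if_pos h.le, if_pos (by omega),
      show i + 1 - l = (i - l) + 1 by omega]
    have e : Real.sqrt ((i - l + 1 : ℕ) : ℝ) * Real.sqrt ((i + 1).choose l : ℝ)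
        = Real.sqrt ((i + 1 : ℕ) : ℝ) * Real.sqrt (i.choose l : ℝ) := by
      rw [← Real.sqrt_mul (Nat.cast_nonneg _), ← Real.sqrt_mul (Nat.cast_nonneg _),
        ← Nat.cast_mul, ← Nat.cast_mul, show i - l + 1 = i + 1 - l by omega,
        mul_comm (i + 1 - l), ← Nat.choose_mul_succ_eq, mul_comm]
    linear_combination (Real.sqrt s ^ l * Real.sqrt (1 - s) ^ (i - l + 1)) * e

lemma lossA_shift (s : ℝ) (m l : ℕ) :
    Real.sqrt ((l : ℝ) + 1) * lossA s m (l + 1)
      = Real.sqrt s * Real.sqrt (m : ℝ) * lossA s (m - 1) l := by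
  rcases m with _ | m
  · rw [lossA_eq_zero_of_lt s (show 0 < l + 1 by omega)]; simp
  rw [← Nat.cast_add_one l]
  rcases lt_or_ge m l with h | h
  · rw [lossA_eq_zero_of_lt s (show m + 1 < l + 1 by omega), Nat.add_sub_cancel, lossA_eq_zero_of_lt s h]
    simp
  · rw [lossA, lossA, if_pos (by omega), Nat.add_sub_cancel, if_pos h, Nat.add_sub_add_right]
    have e : Real.sqrt ((l + 1 : ℕ) : ℝ) * Real.sqrt ((m + 1).choose (l + 1) : ℝ)
        = Real.sqrt ((m + 1 : ℕ) : ℝ) * Real.sqrt (m.choose l : ℝ) := by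
      rw [← Real.sqrt_mul (Nat.cast_nonneg _), ← Real.sqrt_mul (Nat.cast_nonneg _),
        ← Nat.cast_mul, ← Nat.cast_mul, Nat.add_one_mul_choose_eq, mul_comm]
    linear_combination (Real.sqrt s ^ (l + 1) * Real.sqrt (1 - s) ^ (m - l)) * e

/-- Summand of `compEl`. -/
def compTerm (p c : ℝ) (i i' m m' l l' : ℕ) : ℝ :=
  lossEl p i i' l l' * ((1 - c) * lossEl (1 - c) m m' l l')

lemma compEl_eq_big (p c : ℝ) (i i' m m' : ℕ) {B B' : ℕ} (hB : i < B) (hB' : i' < B') :
    compEl p c i i' m m' = ∑ l ∈ range B, ∑ l' ∈ range B', compTerm p c i i' m m' l l' := by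
  rw [compEl, sum_range_extend (show i + 1 ≤ B by omega) (f := fun l => ∑ l' ∈ range B',
    compTerm p c i i' m m' l l') fun l hl => Finset.sum_eq_zero fun l' _ => by
      simp [compTerm, lossEl, lossA_eq_zero_of_lt p (show i < l by omega)]]
  refine Finset.sum_congr rfl fun l _ => ?_
  exact (sum_range_extend (show i' + 1 ≤ B' by omega) fun l' hl => by
    simp [lossEl, lossA_eq_zero_of_lt p (show i' < l' by omega)]).symm

lemma compEl_swap (p c : ℝ) (i i' m m' : ℕ) : compEl p c i i' m m' = compEl p c i' i m' m := by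
  have e : ∀ (s : ℝ) (a a' b b' : ℕ), lossEl s a a' b b' = lossEl s a' a b' b := by
    intro s a a' b b'
    unfold lossEl
    split_ifs <;> first | omega | rfl | ring
  unfold compEl
  rw [Finset.sum_comm]
  exact Finset.sum_congr rfl fun l' _ => Finset.sum_congr rfl fun l _ => by
    rw [e p i i', e (1 - c) m m']

lemma compTerm_step {p c : ℝ} (hp : p ≤ 1) {i i' m m' : ℕ} (hc : i + 1 + m' = i' + m) (l l' : ℕ) :
    Real.sqrt ((i : ℝ) + 1) * compTerm p c (i + 1) i' m m' l l'
      = Real.sqrt p * Real.sqrt (1 - c) * Real.sqrt (m : ℝ) *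
          (if l = 0 then 0 else compTerm p c i i' (m - 1) m' (l - 1) l')
        + (1 - p) * Real.sqrt (i' : ℝ) * compTerm p c i (i' - 1) m m' l l' := by
  have hp2 := Real.mul_self_sqrt (sub_nonneg.2 hp)
  by_cases hC : i + 1 + l' = i' + l
  · have hC2 : m + l' = m' + l := by omega
    by_cases hl : l ≤ i + 1
    · have hsub : i + 1 - l = i' - l' := by omega
      have hA := lossA_succ_left p hl
      have hLo := lossA_lower p i' l'
      rw [hsub] at hA
      have e2 : (1 - p) * Real.sqrt (i' : ℝ) * compTerm p c i (i' - 1) m m' l l'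
          = (1 - p) * Real.sqrt (i' : ℝ) * (lossA p i l * lossA p (i' - 1) l') *
              ((1 - c) * (lossA (1 - c) m l * lossA (1 - c) m' l')) := by
        rcases i' with _ | k
        · simp
        · rw [compTerm, lossEl, lossEl, if_pos (show i + l' = k + 1 - 1 + l by omega), if_pos hC2]
          ring
      have e0 : compTerm p c (i + 1) i' m m' l l' = lossA p (i + 1) l * lossA p i' l' *
          ((1 - c) * (lossA (1 - c) m l * lossA (1 - c) m' l')) := by
        rw [compTerm, lossEl, lossEl, if_pos hC, if_pos hC2]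
      rw [e0, e2]
      rcases l with _ | x
      · rw [Nat.cast_zero, Real.sqrt_zero] at hA
        simp only [if_pos]
        linear_combination (lossA p i' l' * ((1 - c) * (lossA (1 - c) m 0 * lossA (1 - c) m' l'))) * hA
          + (Real.sqrt (1 - p) * lossA p i 0 *
              ((1 - c) * (lossA (1 - c) m 0 * lossA (1 - c) m' l'))) * hLo
          + (Real.sqrt (i' : ℝ) * (lossA p i 0 * lossA p (i' - 1) l') *
              ((1 - c) * (lossA (1 - c) m 0 * lossA (1 - c) m' l'))) * hp2
      · have hS := lossA_shift (1 - c) m x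
        rw [if_neg (Nat.succ_ne_zero x), Nat.add_sub_cancel] at *
        push_cast at hA
        have e1 : Real.sqrt (m : ℝ) * compTerm p c i i' (m - 1) m' x l'
            = Real.sqrt (m : ℝ) * (lossA p i x * lossA p i' l' *
                ((1 - c) * (lossA (1 - c) (m - 1) x * lossA (1 - c) m' l'))) := by
          rcases m with _ | k
          · simp
          · rw [compTerm, lossEl, lossEl, if_pos (show i + l' = i' + x by omega),
              if_pos (show k + 1 - 1 + l' = m' + x by omega)]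
        linear_combination (lossA p i' l' *
            ((1 - c) * (lossA (1 - c) m (x + 1) * lossA (1 - c) m' l'))) * hA
          + (Real.sqrt (1 - p) * lossA p i (x + 1) *
              ((1 - c) * (lossA (1 - c) m (x + 1) * lossA (1 - c) m' l'))) * hLo
          + (Real.sqrt (i' : ℝ) * (lossA p i (x + 1) * lossA p (i' - 1) l') *
              ((1 - c) * (lossA (1 - c) m (x + 1) * lossA (1 - c) m' l'))) * hp2
          + (Real.sqrt p * lossA p i x * lossA p i' l' * ((1 - c) * lossA (1 - c) m' l')) * hS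
          - (Real.sqrt p * Real.sqrt (1 - c)) * e1
    · rw [if_neg (show l ≠ 0 by omega)]
      simp [compTerm, lossEl, lossA_eq_zero_of_lt p (show i + 1 < l by omega),
        lossA_eq_zero_of_lt p (show i < l by omega), lossA_eq_zero_of_lt p (show i < l - 1 by omega)]
  · rw [compTerm, lossEl, if_neg hC]
    have e1 : Real.sqrt (m : ℝ) *
        (if l = 0 then 0 else compTerm p c i i' (m - 1) m' (l - 1) l') = 0 := by
      rcases l with _ | x
      · simp
      · rw [if_neg (Nat.succ_ne_zero x), compTerm, lossEl, if_neg (by omega)]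
        simp
    have e2 : Real.sqrt (i' : ℝ) * compTerm p c i (i' - 1) m m' l l' = 0 := by
      rcases i' with _ | k
      · simp
      · rw [compTerm, lossEl, if_neg (by omega)]
        simp
    linear_combination -(Real.sqrt p * Real.sqrt (1 - c)) * e1 - (1 - p) * e2

lemma compEl_step {p c : ℝ} (hp : p ≤ 1) {i i' m m' : ℕ} (hc : i + 1 + m' = i' + m) :
    Real.sqrt ((i : ℝ) + 1) * compEl p c (i + 1) i' m m'
      = Real.sqrt p * Real.sqrt (1 - c) * Real.sqrt (m : ℝ) * compEl p c i i' (m - 1) m'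
        + (1 - p) * Real.sqrt (i' : ℝ) * compEl p c i (i' - 1) m m' := by
  rw [compEl_eq_big p c (i + 1) i' m m' (B := i + 2) (B' := i' + 1) (by omega) (by omega),
    compEl_eq_big p c i i' (m - 1) m' (B := i + 1) (B' := i' + 1) (by omega) (by omega),
    compEl_eq_big p c i (i' - 1) m m' (B := i + 2) (B' := i' + 1) (by omega) (by omega)]
  simp only [Finset.mul_sum, compTerm_step hp hc, Finset.sum_add_distrib]
  congr 1
  rw [Finset.sum_range_succ']
  simp

lemma ampK_zero_row (c : ℝ) : ∀ m, ampK c 0 m = (1 - c) * c ^ m := by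
  intro m
  induction m with
  | zero => simp [ampK]
  | succ m ih => rw [ampK, ih]; ring

/-- The amplitude sums of a thermal environment are loss followed by amplification. -/
lemma ampGen_eq_compEl (h0 : 0 ≤ η) (h1 : η ≤ 1) (hz : 0 ≤ z) (hz1 : z < 1) :
    ∀ i i' m m' : ℕ, i + m' = i' + m →
      (1 - z) * ampGen η z i i' m m' = compEl (etaLoss η z) (cAmp η z) i i' m m' := by
  have hd := thermal_den h1 hz hz1
  have hu : 1 - cAmp η z = (1 - z) / (1 - η * z) := by
    rw [cAmp, one_sub_div hd.ne']; congr 1; ring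
  have hu0 : 0 ≤ 1 - cAmp η z := by linarith [cAmp_lt_one (η := η) h1 hz hz1]
  have hsq : Real.sqrt (etaLoss η z) * Real.sqrt (1 - cAmp η z) * (1 - η * z)
      = Real.sqrt η * (1 - z) := by
    have he : etaLoss η z = η * (1 - cAmp η z) := by rw [hu, etaLoss, mul_div_assoc]
    rw [he, Real.sqrt_mul h0, mul_assoc (Real.sqrt η), Real.mul_self_sqrt hu0, hu, mul_assoc,
      div_mul_cancel₀ _ hd.ne']
  have h1p : (1 - etaLoss η z) * (1 - η * z) = 1 - η := by
    rw [one_sub_etaLoss h1 hz hz1, div_mul_cancel₀ _ hd.ne']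
  suffices main : ∀ s i i' m m' : ℕ, i + i' ≤ s → i + m' = i' + m →
      (1 - z) * ampGen η z i i' m m' = compEl (etaLoss η z) (cAmp η z) i i' m m' from
    fun i i' m m' h => main _ i i' m m' le_rfl h
  intro s
  induction s with
  | zero =>
    intro i i' m m' hs hc
    obtain ⟨rfl, rfl⟩ : i = 0 ∧ i' = 0 := by omega
    obtain rfl : m = m' := by omega
    have e : ampGen η z 0 0 m m = bsGen η z 0 m :=
      tsum_congr fun l => by rw [bsProb, sq]
    rw [e, thermal_kernel h0 h1 hz hz1, compK_zero_left, ampK_zero_row, compEl]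
    have hc0 := cAmp_nonneg (η := η) h1 hz hz1
    simp [lossEl, lossA]
    left
    rw [← mul_pow, Real.mul_self_sqrt hc0]
  | succ s ih =>
    have step : ∀ a b m m' : ℕ, a + 1 + b ≤ s + 1 → a + 1 + m' = b + m →
        (1 - z) * ampGen η z (a + 1) b m m'
          = compEl (etaLoss η z) (cAmp η z) (a + 1) b m m' := by
      intro a b m m' hs hc
      have hA := ampGen_step h0 h1 hz hz1 hc
      have hC := compEl_step (c := cAmp η z) (etaLoss_le_one h1 hz hz1) hc
      have k1 : Real.sqrt (m : ℝ) * ((1 - z) * ampGen η z a b (m - 1) m')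
          = Real.sqrt (m : ℝ) * compEl (etaLoss η z) (cAmp η z) a b (m - 1) m' := by
        rcases m with _ | k
        · simp
        · rw [ih a b _ m' (by omega) (by omega)]
      have k2 : Real.sqrt (b : ℝ) * ((1 - z) * ampGen η z a (b - 1) m m')
          = Real.sqrt (b : ℝ) * compEl (etaLoss η z) (cAmp η z) a (b - 1) m m' := by
        rcases b with _ | k
        · simp
        · rw [ih a _ m m' (by omega) (by omega)]
      have hne : (1 - η * z) * Real.sqrt ((a : ℝ) + 1) ≠ 0 :=
        mul_ne_zero hd.ne' (Real.sqrt_pos.2 (by positivity)).ne'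
      refine mul_left_cancel₀ hne ?_
      linear_combination (1 - z) * hA - (1 - η * z) * hC
        + Real.sqrt η * (1 - z) * k1 + (1 - η) * k2
        - Real.sqrt (m : ℝ) * compEl (etaLoss η z) (cAmp η z) a b (m - 1) m' * hsq
        - Real.sqrt (b : ℝ) * compEl (etaLoss η z) (cAmp η z) a (b - 1) m m' * h1p
    intro i i' m m' hs hc
    rcases i with _ | a
    · rcases i' with _ | b
      · exact ih 0 0 m m' (by omega) hc
      · rw [ampGen_swap, compEl_swap]
        exact step b 0 m' m (by omega) (by omega)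
    · exact step a i' m m' hs (by omega)

lemma compEl_eq_zero (p c : ℝ) {i i' m m' : ℕ} (h : i + m' ≠ i' + m) :
    compEl p c i i' m m' = 0 := by
  refine Finset.sum_eq_zero fun l _ => Finset.sum_eq_zero fun l' _ => ?_
  unfold lossEl
  split_ifs <;> first | omega | simp

/-- A thermal environment turns the beam splitter into loss followed by amplification. -/
theorem envEl_geo (h0 : 0 ≤ η) (h1 : η ≤ 1) (hz : 0 ≤ z) (hz1 : z < 1) (i i' m m' : ℕ) :
    envEl η (geo z) i i' m m' = compEl (etaLoss η z) (cAmp η z) i i' m m' := by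
  by_cases hc : i + m' = i' + m
  · rw [← ampGen_eq_compEl h0 h1 hz hz1 i i' m m' hc, envEl]
    have hinj : Function.Injective fun l : ℕ => (l, i + l - m) :=
      fun a b hab => (Prod.ext_iff.1 hab).1
    have hsupp : Function.support (fun le : ℕ × ℕ =>
        geo z le.1 * (bsMat η m le.2 i le.1 * bsMat η m' le.2 i' le.1))
        ⊆ Set.range fun l : ℕ => (l, i + l - m) := by
      rintro ⟨l, e⟩ he
      refine ⟨l, Prod.ext rfl ?_⟩
      have h2 : bsMat η m e i l ≠ 0 := fun h => he (by simp only [h, zero_mul, mul_zero])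
      simp only [bsMat] at h2 ⊢
      split_ifs at h2 with h
      · omega
      · exact absurd rfl h2
    rw [← hinj.tsum_eq hsupp, ampGen, ← tsum_mul_left]
    refine tsum_congr fun l => ?_
    simp only [geo, bsMat]
    rcases lt_or_ge (i + l) m with h | h
    · rw [if_neg (by omega), bsAmp_of_lt η h]; simp
    · rw [if_pos (by omega), if_pos (by omega)]; ring
  · rw [compEl_eq_zero _ _ hc, envEl]
    refine (tsum_congr fun le => ?_).trans tsum_zero
    unfold bsMat
    split_ifs <;> first | omega | simp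

lemma envEl_geo_summable (h0 : 0 ≤ η) (h1 : η ≤ 1) (hz : 0 ≤ z) (hz1 : z < 1) (i i' m m' : ℕ) :
    Summable fun le : ℕ × ℕ =>
      geo z le.1 * (bsMat η m le.2 i le.1 * bsMat η m' le.2 i' le.1) := by
  have hinj : Function.Injective fun l : ℕ => (l, i + l - m) :=
    fun a b hab => (Prod.ext_iff.1 hab).1
  refine (hinj.summable_iff fun x hx => ?_).1 ?_
  · obtain ⟨l, e⟩ := x
    unfold bsMat
    split_ifs with h h'
    · exact absurd ⟨l, Prod.ext rfl (by simp only; omega)⟩ hx
    all_goals simp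
  · refine Summable.of_norm_bounded ((summable_geometric_of_lt_one hz hz1).mul_left (1 - z))
      fun l => ?_
    simp only [Function.comp_apply, geo]
    have hb : ∀ a b c d, |bsMat η a b c d| ≤ 1 := fun a b c d => by
      unfold bsMat; split_ifs
      · exact abs_bsAmp_le_one h0 h1 _ _ _
      · simp
    rw [Real.norm_eq_abs, abs_mul, abs_of_nonneg (mul_nonneg (sub_nonneg.2 hz1.le) (pow_nonneg hz l)),
      abs_mul]
    exact mul_le_of_le_one_right (mul_nonneg (sub_nonneg.2 hz1.le) (pow_nonneg hz l))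
      (mul_le_one₀ (hb ..) (abs_nonneg _) (hb ..))

end Vale.Agent.P369
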