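import Vale.Agent.P369.QDefs
import Mathlib.Analysis.Matrix.PosDef

/-!
The pure-loss channel is Fock-optimal: for `0 ≤ Q, X ≤ 1` with traces at most `k, r` the pairing
`tr (Q Λ_s X)` is at most the same pairing of the Fock projections. The channel is composed of
`n` short steps and each step is bounded to second order.
-/

open Finset Real Filter Topology Matrix
open scoped ComplexOrder

noncomputable section

namespace Vale.Agent.P369

variable {L : ℕ}

/-! ### Traces of products of positive matrices -/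

lemma re_trace_mul_nonneg {A B : Matrix (Fin L) (Fin L) ℂ} (hA : A.PosSemidef) (hB : B.PosSemidef) :
    0 ≤ (A * B).trace.re := by
  set U : Matrix (Fin L) (Fin L) ℂ := (hB.1.eigenvectorUnitary : Matrix (Fin L) (Fin L) ℂ) with hU
  have hspec := hB.1.spectral_theorem
  rw [Unitary.conjStarAlgAut_apply, ← hU] at hspec
  have h2 : (A * B).trace = ((Uᴴ * A * U) * diagonal (RCLike.ofReal ∘ hB.1.eigenvalues)).trace := by
    conv_lhs => rw [hspec]
    rw [← Matrix.mul_assoc, Matrix.trace_mul_comm, ← Matrix.mul_assoc, ← Matrix.mul_assoc,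
      ← star_eq_conjTranspose]
  rw [h2, Matrix.trace, Complex.re_sum]
  refine Finset.sum_nonneg fun i _ => ?_
  rw [Matrix.diag_apply, Matrix.mul_diagonal]
  have h3 : 0 ≤ (Uᴴ * A * U) i i := (hA.conjTranspose_mul_mul_same U).diag_nonneg
  simp only [Function.comp_apply, RCLike.ofReal_eq_complex_ofReal, Complex.mul_re,
    Complex.ofReal_re, Complex.ofReal_im, mul_zero, sub_zero]
  exact mul_nonneg (Complex.nonneg_iff.1 h3).1 (hB.eigenvalues_nonneg i)

lemma re_trace_mul_le {A X : Matrix (Fin L) (Fin L) ℂ} (hA : A.PosSemidef)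
    (hX1 : (1 - X).PosSemidef) : (A * X).trace.re ≤ A.trace.re := by
  have h := re_trace_mul_nonneg hA hX1
  rw [Matrix.mul_sub, Matrix.mul_one, Matrix.trace_sub, Complex.sub_re] at h
  linarith

lemma re_trace_mul_le' {A X : Matrix (Fin L) (Fin L) ℂ} (hA1 : (1 - A).PosSemidef)
    (hX : X.PosSemidef) : (A * X).trace.re ≤ X.trace.re := by
  rw [Matrix.trace_mul_comm]
  exact re_trace_mul_le hX hA1

lemma re_trace_le_card {X : Matrix (Fin L) (Fin L) ℂ} (hX1 : (1 - X).PosSemidef) :
    X.trace.re ≤ L := by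
  have h : 0 ≤ (1 - X).trace.re := by
    simpa using re_trace_mul_nonneg hX1 (Matrix.PosSemidef.one (n := Fin L) (R := ℂ))
  rw [Matrix.trace_sub, Matrix.trace_one, Complex.sub_re] at h
  simpa using h

lemma norm_entry_le {X : Matrix (Fin L) (Fin L) ℂ} (hX : X.PosSemidef)
    (hX1 : (1 - X).PosSemidef) (i j : Fin L) : ‖X i j‖ ≤ L := by
  have h1 : (X * X).trace.re ≤ L := (re_trace_mul_le hX hX1).trans (re_trace_le_card hX1)
  have hherm : ∀ a b, X b a = starRingEnd ℂ (X a b) := fun a b => (hX.1.apply b a).symm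
  have h2 : (X * X).trace.re = ∑ a, ∑ b, ‖X a b‖ ^ 2 := by
    simp only [Matrix.trace, Matrix.diag_apply, Matrix.mul_apply, Complex.re_sum]
    refine Finset.sum_congr rfl fun a _ => Finset.sum_congr rfl fun b _ => ?_
    rw [hherm a b, Complex.mul_conj', ← Complex.ofReal_pow, Complex.ofReal_re]
  have h3 : ‖X i j‖ ^ 2 ≤ ∑ a, ∑ b, ‖X a b‖ ^ 2 :=
    (Finset.single_le_sum (fun b _ => sq_nonneg ‖X i b‖) (Finset.mem_univ j)).trans
      (Finset.single_le_sum (f := fun a => ∑ b, ‖X a b‖ ^ 2)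
        (fun a _ => Finset.sum_nonneg fun b _ => sq_nonneg _) (Finset.mem_univ i))
  have hL : (1 : ℝ) ≤ L := by exact_mod_cast (show 1 ≤ L from i.pos)
  nlinarith [norm_nonneg (X i j)]

/-- A conjugate-symmetric trace. -/
lemma re_trace_rev {A B C : Matrix (Fin L) (Fin L) ℂ} (hA : A.IsHermitian) (hB : B.IsHermitian)
    (hC : C.IsHermitian) : (A * B * C).trace.re = (C * B * A).trace.re := by
  have h : (A * B * C)ᴴ = C * B * A := by
    simp only [Matrix.conjTranspose_mul, hA.eq, hB.eq, hC.eq, Matrix.mul_assoc]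
  rw [← h, Matrix.trace_conjTranspose]
  simp

/-! ### A positive matrix against a functional with majorised spectra -/

lemma psd_pair_le (F : Matrix (Fin L) (Fin L) ℂ →ₗ[ℝ] ℝ) {Y : Matrix (Fin L) (Fin L) ℂ}
    (hY : Y.PosSemidef) {u' v' : ℕ → ℝ} (hv : Antitone v') (hv0 : ∀ k, 0 ≤ v' k)
    (hU : ∀ P : Matrix (Fin L) (Fin L) ℂ, P.PosSemidef → (1 - P).PosSemidef →
      ∀ j : ℕ, P.trace.re = j → (P * Y).trace.re ≤ ∑ k ∈ range j, u' k)
    (hV : ∀ P : Matrix (Fin L) (Fin L) ℂ, P.PosSemidef → (1 - P).PosSemidef →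
      ∀ j : ℕ, P.trace.re = j → F P ≤ ∑ k ∈ range j, v' k) :
    F Y ≤ ∑ k ∈ range L, u' k * v' k := by
  set U : Matrix (Fin L) (Fin L) ℂ := (hY.1.eigenvectorUnitary : Matrix (Fin L) (Fin L) ℂ) with hUd
  have hUU : Uᴴ * U = 1 := Unitary.coe_star_mul_self hY.1.eigenvectorUnitary
  have hUU' : U * Uᴴ = 1 := Unitary.coe_mul_star_self hY.1.eigenvectorUnitary
  set ev := hY.1.eigenvalues with hev
  let W : (Fin L → ℝ) →ₗ[ℝ] Matrix (Fin L) (Fin L) ℂ :=
    { toFun := fun w => U * diagonal (fun i => (w i : ℂ)) * Uᴴ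
      map_add' := fun a b => by
        rw [← Matrix.add_mul, ← Matrix.mul_add, Matrix.diagonal_add]
        simp
      map_smul' := fun c a => by
        simp only [RingHom.id_apply]
        rw [← Matrix.smul_mul, ← Matrix.mul_smul, ← Matrix.diagonal_smul]
        congr 2
        ext i j
        simp [Matrix.diagonal_apply, Complex.real_smul] }
  have hW : ∀ w, W w = U * diagonal (fun i => (w i : ℂ)) * Uᴴ := fun _ => rfl
  have hY' : Y = W ev := by
    have := hY.1.spectral_theorem
    rw [Unitary.conjStarAlgAut_apply] at this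
    exact this
  have hpsd : ∀ w : Fin L → ℝ, (∀ i, 0 ≤ w i) → (W w).PosSemidef := fun w hw => by
    rw [hW]
    exact (Matrix.PosSemidef.diagonal fun i => Complex.zero_le_real.2 (hw i)).mul_mul_conjTranspose_same U
  have hone : W 1 = 1 := by
    rw [hW]
    simp [hUU']
  have htr : ∀ w, (W w).trace.re = ∑ i, w i := fun w => by
    rw [hW, Matrix.trace_mul_cycle, hUU, Matrix.one_mul, Matrix.trace_diagonal, Complex.re_sum]
    simp
  have htrY : ∀ w, (W w * Y).trace.re = ∑ i, w i * ev i := fun w => by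
    rw [hY', hW, hW]
    have : U * diagonal (fun i => (w i : ℂ)) * Uᴴ * (U * diagonal (fun i => (ev i : ℂ)) * Uᴴ)
        = U * diagonal (fun i => ((w i * ev i : ℝ) : ℂ)) * Uᴴ := by
      calc _ = U * diagonal (fun i => (w i : ℂ)) * (Uᴴ * U) * diagonal (fun i => (ev i : ℂ)) * Uᴴ := by
            simp only [Matrix.mul_assoc]
        _ = _ := by
            rw [hUU, Matrix.mul_one, Matrix.mul_assoc U, Matrix.diagonal_mul_diagonal]
            simp
    rw [this, ← hW, htr]
  set u : ℕ → ℝ := fun k => if h : k < L then ev ⟨k, h⟩ else 0 with hu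
  set v : ℕ → ℝ := fun k => if h : k < L then F (W (Pi.single ⟨k, h⟩ 1)) else 0 with hv'
  have hlin : ∀ w : Fin L → ℝ, F (W w) = ∑ i, w i * v i := fun w => by
    have e : w = ∑ i, w i • (Pi.single i 1 : Fin L → ℝ) := by
      ext j
      simp [Finset.sum_apply, Pi.single_apply]
    conv_lhs => rw [e]
    simp only [map_sum, map_smul, smul_eq_mul, hv', Fin.is_lt, dite_true, Fin.eta]
  have hmain : F Y = ∑ k ∈ range L, u k * v k := by
    rw [hY', hlin, ← Fin.sum_univ_eq_sum_range (fun k => u k * v k)]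
    simp [hu]
  rw [hmain]
  have key : ∀ S : Finset ℕ, S ⊆ range L →
      ∑ k ∈ S, u k ≤ ∑ k ∈ range S.card, u' k ∧ ∑ k ∈ S, v k ≤ ∑ k ∈ range S.card, v' k := by
    intro S hS
    set w : Fin L → ℝ := fun i => if (i : ℕ) ∈ S then 1 else 0 with hw
    have hsum : ∀ g : ℕ → ℝ, ∑ i : Fin L, w i * g i = ∑ k ∈ S, g k := fun g => by
      simp only [hw, ite_mul, one_mul, zero_mul]
      rw [Fin.sum_univ_eq_sum_range (fun k => if k ∈ S then g k else 0), Finset.sum_ite_mem,
        Finset.inter_eq_right.2 hS]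
    have h0 : ∀ i, 0 ≤ w i := fun i => by simp only [hw]; split_ifs <;> norm_num
    have h1 : ∀ i, 0 ≤ (1 - w) i := fun i => by
      simp only [hw, Pi.sub_apply, Pi.one_apply]; split_ifs <;> norm_num
    have hP1 : (1 - W w).PosSemidef := by
      rw [← hone, ← map_sub]; exact hpsd _ h1
    have hT : (W w).trace.re = S.card := by
      rw [htr]; simpa using hsum fun _ => 1
    refine ⟨?_, ?_⟩
    · have := hU _ (hpsd _ h0) hP1 _ hT
      rw [htrY] at this
      rwa [← hsum u, Finset.sum_congr rfl fun i _ => show w i * u i = w i * ev i by simp [hu]]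
    · have := hV _ (hpsd _ h0) hP1 _ hT
      rw [hlin] at this
      rwa [← hsum v]
  refine sum_mul_le_majorant (fun k hk => ?_) hv hv0 (fun S hS => (key S hS).1)
    fun S hS => (key S hS).2
  simp only [hu, dif_pos hk]
  exact hY.eigenvalues_nonneg _

/-! ### The loss channel on matrices -/

lemma lossA_of_lt (s : ℝ) {i m : ℕ} (h : i < m) : lossA s i m = 0 := if_neg (not_le.2 h)

/-- Pure loss as a real-linear map. -/
def lossLin (s : ℝ) : Matrix (Fin L) (Fin L) ℂ →ₗ[ℝ] Matrix (Fin L) (Fin L) ℂ where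
  toFun := lossMap s
  map_add' X Y := by
    ext m m'
    simp only [lossMap, Matrix.add_apply, mul_add, Finset.sum_add_distrib]
  map_smul' c X := by
    ext m m'
    simp only [lossMap, Matrix.smul_apply, RingHom.id_apply, Finset.smul_sum, mul_smul_comm]

/-- The functional `W ↦ re tr (Q Λ_s W)`. -/
def lossPair (s : ℝ) (Q : Matrix (Fin L) (Fin L) ℂ) : Matrix (Fin L) (Fin L) ℂ →ₗ[ℝ] ℝ where
  toFun W := (Q * lossLin s W).trace.re
  map_add' X Y := by simp [map_add, Matrix.mul_add, Matrix.trace_add]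
  map_smul' c X := by simp [map_smul, Matrix.trace_smul]

/-- Kraus operator losing `j` photons. -/
def krausL (s : ℝ) (j : ℕ) : Matrix (Fin L) (Fin L) ℂ :=
  fun m i => if (m : ℕ) + j = i then (lossA s i m : ℂ) else 0

lemma kraus_entry (s : ℝ) (i i' m m' : Fin L) :
    ∑ j ∈ range L, krausL s j m i * starRingEnd ℂ (krausL s j m' i') = (lossEl s i i' m m' : ℂ) := by
  unfold krausL lossEl
  by_cases hle : (m : ℕ) ≤ i
  · rw [Finset.sum_eq_single ((i : ℕ) - m)]
    · rw [if_pos (show (m : ℕ) + (i - m) = i by omega)]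
      by_cases he : (i : ℕ) + m' = i' + m
      · rw [if_pos he, if_pos (show (m' : ℕ) + (i - m) = i' by omega), Complex.conj_ofReal]
        push_cast; ring
      · rw [if_neg he, if_neg (show ¬ ((m' : ℕ) + (i - m) = i') by omega)]
        simp
    · intro j _ hj
      rw [if_neg (show ¬ ((m : ℕ) + j = i) by omega), zero_mul]
    · intro h
      exact absurd (Finset.mem_range.2 (by omega : (i : ℕ) - m < L)) h
  · rw [lossA_of_lt s (not_le.1 hle), zero_mul, ite_self, Complex.ofReal_zero]
    exact Finset.sum_eq_zero fun j _ => by simp [show ¬ ((m : ℕ) + j = i) by omega]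

lemma lossMap_kraus (s : ℝ) (X : Matrix (Fin L) (Fin L) ℂ) :
    lossMap s X = ∑ j ∈ range L, krausL s j * X * (krausL s j)ᴴ := by
  ext m m'
  simp only [lossMap, Matrix.sum_apply, Matrix.mul_apply, Matrix.conjTranspose_apply,
    Finset.sum_mul, ← starRingEnd_apply]
  rw [Finset.sum_comm]
  conv_rhs => rw [Finset.sum_comm]; enter [2, i']; rw [Finset.sum_comm]
  refine Finset.sum_congr rfl fun i' _ => Finset.sum_congr rfl fun i _ => ?_
  rw [← kraus_entry s i i' m m', Finset.sum_mul]
  exact Finset.sum_congr rfl fun j _ => by ring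

lemma lossMap_posSemidef (s : ℝ) {X : Matrix (Fin L) (Fin L) ℂ} (hX : X.PosSemidef) :
    (lossMap s X).PosSemidef := by
  rw [lossMap_kraus]
  exact Matrix.posSemidef_sum _ fun j _ => hX.mul_mul_conjTranspose_same _

lemma lossA_comp {s t : ℝ} (ht : 0 ≤ t) {m J a : ℕ} (ha : a ≤ J) :
    lossA t (m + J) (m + a) * lossA s (m + a) m
      = Real.sqrt ((m + J).choose m : ℝ) * Real.sqrt (t * s) ^ m
        * (Real.sqrt (J.choose a : ℝ) * (Real.sqrt t * Real.sqrt (1 - s)) ^ a
          * Real.sqrt (1 - t) ^ (J - a)) := by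
  have hc : ((m + J).choose (m + a) : ℝ) * ((m + a).choose m : ℝ)
      = ((m + J).choose m : ℝ) * (J.choose a : ℝ) := by
    have h := Nat.choose_mul (n := m + J) (k := m + a) (s := m) (Nat.le_add_right m a)
    rw [Nat.add_sub_cancel_left, Nat.add_sub_cancel_left] at h
    exact_mod_cast h
  have hc' : Real.sqrt ((m + J).choose (m + a) : ℝ) * Real.sqrt ((m + a).choose m : ℝ)
      = Real.sqrt ((m + J).choose m : ℝ) * Real.sqrt (J.choose a : ℝ) := by
    rw [← Real.sqrt_mul (Nat.cast_nonneg _), ← Real.sqrt_mul (Nat.cast_nonneg _), hc]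
  rw [lossA, if_pos (by omega), lossA, if_pos (by omega),
    show m + J - (m + a) = J - a by omega, show m + a - m = a by omega, Real.sqrt_mul ht,
    pow_add, mul_pow, mul_pow]
  linear_combination (Real.sqrt t ^ m * Real.sqrt t ^ a * Real.sqrt s ^ m * Real.sqrt (1 - s) ^ a
    * Real.sqrt (1 - t) ^ (J - a)) * hc'

lemma lossEl_comp {s t : ℝ} (hs : 0 ≤ s) (hs1 : s ≤ 1) (ht : 0 ≤ t) (ht1 : t ≤ 1) {i i' : ℕ}
    (hi : i < L) (hi' : i' < L) (m m' : ℕ) :
    ∑ l : Fin L, ∑ l' : Fin L, lossEl t i i' l l' * lossEl s l l' m m'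
      = lossEl (s * t) i i' m m' := by
  by_cases he : i + m' = i' + m
  swap
  · rw [lossEl, if_neg he]
    refine Finset.sum_eq_zero fun l _ => Finset.sum_eq_zero fun l' _ => ?_
    unfold lossEl
    split_ifs <;> first | omega | simp
  rw [lossEl, if_pos he]
  by_cases hm : m ≤ i
  swap
  · rw [lossA_of_lt _ (not_le.1 hm), zero_mul]
    refine Finset.sum_eq_zero fun l _ => Finset.sum_eq_zero fun l' _ => ?_
    rcases lt_or_ge i (l : ℕ) with h | h
    · simp [lossEl, lossA_of_lt t h]
    · simp [lossEl, lossA_of_lt s (show (l : ℕ) < m by omega)]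
  obtain ⟨J, rfl⟩ : ∃ J, i = m + J := ⟨i - m, by omega⟩
  obtain rfl : i' = m' + J := by omega
  rw [Fin.sum_univ_eq_sum_range
    (fun l => ∑ l' : Fin L, lossEl t (m + J) (m' + J) l l' * lossEl s l l' m m') L]
  rw [← Finset.sum_subset (s₁ := Finset.Ico m (m + (J + 1)))
    (fun l hl => by simp only [Finset.mem_Ico, Finset.mem_range] at hl ⊢; omega)
    (fun l _ hl => by
      simp only [Finset.mem_Ico] at hl
      refine Finset.sum_eq_zero fun l' _ => ?_
      rcases lt_or_ge l m with h | h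
      · simp [lossEl, lossA_of_lt s h]
      · simp [lossEl, lossA_of_lt t (show m + J < l by omega)]),
    Finset.sum_Ico_eq_sum_range, Nat.add_sub_cancel_left]
  have e : ∀ a ∈ range (J + 1), (∑ l' : Fin L, lossEl t (m + J) (m' + J) (m + a) l'
        * lossEl s (m + a) l' m m')
      = (Real.sqrt ((m + J).choose m : ℝ) * Real.sqrt ((m' + J).choose m' : ℝ)
          * Real.sqrt (t * s) ^ (m + m')) * ((t * (1 - s)) ^ a * (1 - t) ^ (J - a) * (J.choose a : ℝ)) := by
    intro a ha
    rw [Finset.mem_range] at ha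
    rw [Finset.sum_eq_single (⟨m' + a, by omega⟩ : Fin L)]
    · rw [lossEl, if_pos (show m + J + (m' + a) = m' + J + (m + a) by omega),
        lossEl, if_pos (show m + a + m' = m' + a + m by omega)]
      have h1 := lossA_comp (s := s) (m := m) ht (show a ≤ J by omega)
      have h2 := lossA_comp (s := s) (m := m') ht (show a ≤ J by omega)
      rw [show lossA t (m + J) (m + a) * lossA t (m' + J) (m' + a)
          * (lossA s (m + a) m * lossA s (m' + a) m')
        = (lossA t (m + J) (m + a) * lossA s (m + a) m)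
          * (lossA t (m' + J) (m' + a) * lossA s (m' + a) m') by ring, h1, h2]
      have q1 : (Real.sqrt t * Real.sqrt (1 - s)) ^ a * (Real.sqrt t * Real.sqrt (1 - s)) ^ a
          = (t * (1 - s)) ^ a := by
        rw [← mul_pow]; congr 1
        rw [show Real.sqrt t * Real.sqrt (1 - s) * (Real.sqrt t * Real.sqrt (1 - s))
          = (Real.sqrt t * Real.sqrt t) * (Real.sqrt (1 - s) * Real.sqrt (1 - s)) by ring,
          Real.mul_self_sqrt ht, Real.mul_self_sqrt (by linarith)]
      have q2 : Real.sqrt (1 - t) ^ (J - a) * Real.sqrt (1 - t) ^ (J - a) = (1 - t) ^ (J - a) := by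
        rw [← mul_pow, Real.mul_self_sqrt (by linarith)]
      have q3 : Real.sqrt (J.choose a : ℝ) * Real.sqrt (J.choose a : ℝ) = (J.choose a : ℝ) :=
        Real.mul_self_sqrt (Nat.cast_nonneg _)
      rw [pow_add, ← q1, ← q2]
      conv_rhs => rw [← q3]
      ring
    · intro l' _ hl'
      have hne : (l' : ℕ) ≠ m' + a := fun h => hl' (Fin.ext h)
      rw [lossEl, if_neg (show ¬ (m + J + (l' : ℕ) = m' + J + (m + a)) by omega), zero_mul]
    · simp
  rw [Finset.sum_congr rfl e, ← Finset.mul_sum, ← add_pow, lossA, if_pos (by omega), lossA,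
    if_pos (by omega), show m + J - m = J by omega, show m' + J - m' = J by omega,
    mul_comm t s, pow_add]
  have q : Real.sqrt (1 - s * t) ^ J * Real.sqrt (1 - s * t) ^ J = (1 - s * t) ^ J := by
    rw [← mul_pow, Real.mul_self_sqrt (sub_nonneg.2 (mul_le_one₀ hs1 ht ht1))]
  rw [show t * (1 - s) + (1 - t) = 1 - s * t by ring, ← q]
  ring

lemma lossMap_comp {s t : ℝ} (hs : 0 ≤ s) (hs1 : s ≤ 1) (ht : 0 ≤ t) (ht1 : t ≤ 1)
    (X : Matrix (Fin L) (Fin L) ℂ) : lossMap s (lossMap t X) = lossMap (s * t) X := by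
  ext m m'
  simp only [lossMap, Finset.mul_sum]
  rw [Finset.sum_comm_cycle]
  refine Finset.sum_congr rfl fun i _ => ?_
  rw [Finset.sum_comm_cycle]
  refine Finset.sum_congr rfl fun i' _ => ?_
  rw [← lossEl_comp hs hs1 ht ht1 i.isLt i'.isLt m m', Complex.ofReal_sum, Finset.sum_mul]
  refine Finset.sum_congr rfl fun l _ => ?_
  rw [Complex.ofReal_sum, Finset.sum_mul]
  exact Finset.sum_congr rfl fun l' _ => by push_cast; ring

lemma lossMap_one (X : Matrix (Fin L) (Fin L) ℂ) : lossMap 1 X = X := by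
  ext m m'
  have e : ∀ i i' : Fin L, lossEl 1 i i' m m' = if i = m ∧ i' = m' then 1 else 0 := by
    intro i i'
    unfold lossEl
    by_cases h : i = m ∧ i' = m'
    · obtain ⟨rfl, rfl⟩ := h
      simp [lossA, add_comm]
    · rw [if_neg h]
      split_ifs with he
      · rcases lt_trichotomy (m : ℕ) i with h1 | h1 | h1
        · simp [lossA, h1.le, show (i : ℕ) - m ≠ 0 by omega]
        · exact absurd ⟨Fin.ext h1.symm, Fin.ext (by omega)⟩ h
        · simp [lossA_of_lt (1 : ℝ) h1]
      · rfl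
  simp [lossMap, e, ite_and, Complex.ofReal_one, apply_ite (Complex.ofReal)]

/-! ### Scalar estimates -/

lemma one_sub_pow_bounds {δ : ℝ} (h0 : 0 ≤ δ) (h1 : δ ≤ 1) : ∀ n : ℕ,
    1 - (n : ℝ) * δ ≤ (1 - δ) ^ n ∧ (1 - δ) ^ n ≤ 1 - (n : ℝ) * δ + (n : ℝ) ^ 2 * δ ^ 2 := by
  intro n
  induction n with
  | zero => simp
  | succ n ih =>
    have hn : (0 : ℝ) ≤ n := Nat.cast_nonneg n
    have a1 := mul_le_mul_of_nonneg_right ih.1 (sub_nonneg.2 h1)
    have a2 := mul_le_mul_of_nonneg_right ih.2 (sub_nonneg.2 h1)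
    rw [pow_succ]
    push_cast
    constructor
    · nlinarith [mul_nonneg hn (sq_nonneg δ)]
    · nlinarith [mul_nonneg (mul_nonneg (sq_nonneg (n : ℝ)) h0) (sq_nonneg δ),
        mul_nonneg hn (sq_nonneg δ), sq_nonneg δ]

/-- The loss matrix elements to first order in `δ`, `√s = 1 - δ`. -/
def linEl (δ : ℝ) (i i' m m' : ℕ) : ℝ :=
  if i = m ∧ i' = m' then 1 - δ * ((i : ℝ) + i')
  else if i = m + 1 ∧ i' = m' + 1 then 2 * δ * (Real.sqrt i * Real.sqrt i') else 0

/-- Constant in the first-order expansion. -/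
def cEl (L : ℕ) : ℝ := 4 * 2 ^ L + 9 * (L : ℝ) ^ 2

lemma abs_lossEl_sub_linEl {δ : ℝ} (h0 : 0 ≤ δ) (h1 : δ ≤ 1) {i i' m m' : ℕ} (hi : i < L)
    (hi' : i' < L) : |lossEl ((1 - δ) ^ 2) i i' m m' - linEl δ i i' m m'| ≤ cEl L * δ ^ 2 := by
  have hu : (0 : ℝ) ≤ 1 - δ := sub_nonneg.2 h1
  have hc : (0 : ℝ) ≤ cEl L * δ ^ 2 := by unfold cEl; positivity
  have hlin0 : ¬ (m ≤ i ∧ i + m' = i' + m) → linEl δ i i' m m' = 0 := fun h => by
    unfold linEl; split_ifs <;> first | omega | rfl
  by_cases hmi : m ≤ i ∧ i + m' = i' + m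
  swap
  · rw [hlin0 hmi]
    rcases not_and_or.1 hmi with h | h
    · simp [lossEl, lossA_of_lt ((1 - δ) ^ 2) (not_le.1 h), hc]
    · simp [lossEl, h, hc]
  obtain ⟨hm, he⟩ := hmi
  obtain ⟨J, rfl⟩ : ∃ J, i = m + J := ⟨i - m, by omega⟩
  obtain rfl : i' = m' + J := by omega
  set n := m + m' with hn
  have hw : 0 ≤ 1 - (1 - δ) ^ 2 := by nlinarith
  have hval : lossEl ((1 - δ) ^ 2) (m + J) (m' + J) m m'
      = Real.sqrt ((m + J).choose m : ℝ) * Real.sqrt ((m' + J).choose m' : ℝ)
        * ((1 - δ) ^ n * (1 - (1 - δ) ^ 2) ^ J) := by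
    rw [lossEl, if_pos he, lossA, if_pos (by omega), lossA, if_pos (by omega),
      Real.sqrt_sq hu, show m + J - m = J by omega, show m' + J - m' = J by omega, hn, pow_add]
    conv_rhs => rw [← Real.mul_self_sqrt hw]
    rw [mul_pow]; ring
  obtain ⟨lo, hi2⟩ := one_sub_pow_bounds h0 h1 n
  have hnL : (n : ℝ) ≤ 2 * L := by exact_mod_cast (show n ≤ 2 * L by omega)
  have hn0 : (0 : ℝ) ≤ n := Nat.cast_nonneg n
  have h2L : (0 : ℝ) ≤ 2 ^ L := pow_nonneg two_pos.le L
  rcases lt_trichotomy J 1 with hJ | hJ | hJ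
  · obtain rfl : J = 0 := by omega
    rw [hval, linEl, if_pos ⟨rfl, rfl⟩]
    simp only [add_zero, Nat.choose_self, Nat.cast_one, Real.sqrt_one, pow_zero, mul_one, one_mul]
    rw [show ((m : ℝ) + m') = n by rw [hn]; push_cast; ring, abs_le]
    have : (n : ℝ) ^ 2 * δ ^ 2 ≤ cEl L * δ ^ 2 :=
      mul_le_mul_of_nonneg_right (by unfold cEl; nlinarith) (sq_nonneg δ)
    constructor <;> nlinarith
  · subst hJ
    rw [hval, linEl, if_neg (by omega), if_pos ⟨rfl, rfl⟩]
    have hr : ∀ x : ℕ, ((x + 1).choose x : ℝ) = ((x + 1 : ℕ) : ℝ) := fun x => by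
      rw [Nat.choose_succ_self_right]
    rw [hr, hr, pow_one]
    set R := Real.sqrt ((m + 1 : ℕ) : ℝ) * Real.sqrt ((m' + 1 : ℕ) : ℝ) with hR
    have hR0 : 0 ≤ R := mul_nonneg (Real.sqrt_nonneg _) (Real.sqrt_nonneg _)
    have hRL : R ≤ L := by
      rw [hR, ← Real.mul_self_sqrt (Nat.cast_nonneg L)]
      exact mul_le_mul (Real.sqrt_le_sqrt (by exact_mod_cast hi.le))
        (Real.sqrt_le_sqrt (by exact_mod_cast hi'.le)) (Real.sqrt_nonneg _) (Real.sqrt_nonneg _)
    have hd : |(1 - δ) ^ n * (1 - (1 - δ) ^ 2) - 2 * δ| ≤ (4 * (L : ℝ) + 1) * δ ^ 2 := by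
      have hup : (1 - δ) ^ n ≤ 1 := pow_le_one₀ hu (by linarith)
      have p1 := mul_le_mul_of_nonneg_right lo hw
      have p2 := mul_le_mul_of_nonneg_right hup hw
      have hL0 : (0 : ℝ) ≤ L := Nat.cast_nonneg L
      rw [abs_le]; constructor <;>
        nlinarith [mul_nonneg (mul_nonneg hn0 h0) (sq_nonneg δ),
          mul_nonneg (sub_nonneg.2 hnL) (sq_nonneg δ), sq_nonneg δ, mul_nonneg hL0 (sq_nonneg δ)]
    rw [show R * ((1 - δ) ^ n * (1 - (1 - δ) ^ 2)) - 2 * δ * R
      = R * ((1 - δ) ^ n * (1 - (1 - δ) ^ 2) - 2 * δ) by ring, abs_mul, abs_of_nonneg hR0]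
    refine (mul_le_mul hRL hd (abs_nonneg _) (Nat.cast_nonneg L)).trans ?_
    rw [← mul_assoc]
    refine mul_le_mul_of_nonneg_right ?_ (sq_nonneg δ)
    unfold cEl
    have hL1 : (1 : ℝ) ≤ L := by exact_mod_cast (show 1 ≤ L by omega)
    nlinarith
  · rw [hval, linEl, if_neg (by omega), if_neg (by omega), sub_zero]
    have hC : ∀ x, x + J < L → Real.sqrt ((x + J).choose x : ℝ) ≤ Real.sqrt (2 ^ L : ℝ) := by
      intro x hx
      refine Real.sqrt_le_sqrt ?_
      calc ((x + J).choose x : ℝ) ≤ ((2 ^ (x + J) : ℕ) : ℝ) := by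
            exact_mod_cast Nat.choose_le_two_pow _ _
        _ ≤ (2 : ℝ) ^ L := by push_cast; exact pow_le_pow_right₀ one_le_two hx.le
    have hww : (1 - (1 - δ) ^ 2) ^ J ≤ 4 * δ ^ 2 := by
      refine (pow_le_pow_of_le_one hw (by nlinarith) (show 2 ≤ J by omega)).trans ?_
      nlinarith [pow_le_pow_left₀ hw (show 1 - (1 - δ) ^ 2 ≤ 2 * δ by nlinarith) 2]
    rw [abs_of_nonneg (by positivity)]
    calc _ ≤ Real.sqrt (2 ^ L : ℝ) * Real.sqrt (2 ^ L : ℝ) * (1 * (4 * δ ^ 2)) :=
          mul_le_mul (mul_le_mul (hC m hi) (hC m' hi') (Real.sqrt_nonneg _) (Real.sqrt_nonneg _))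
            (mul_le_mul (pow_le_one₀ hu (by linarith)) hww (pow_nonneg hw J) zero_le_one)
            (mul_nonneg (pow_nonneg hu n) (pow_nonneg hw J))
            (mul_nonneg (Real.sqrt_nonneg _) (Real.sqrt_nonneg _))
      _ ≤ cEl L * δ ^ 2 := by
          rw [Real.mul_self_sqrt h2L]
          unfold cEl
          nlinarith [mul_nonneg (sq_nonneg (L : ℝ)) (sq_nonneg δ)]

/-! ### One short step -/

/-- Truncated annihilation operator. -/
def annL (L : ℕ) : Matrix (Fin L) (Fin L) ℂ :=
  fun m i => if (i : ℕ) = m + 1 then (Real.sqrt ((i : ℕ) : ℝ) : ℂ) else 0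

/-- Number operator. -/
def numL (L : ℕ) : Matrix (Fin L) (Fin L) ℂ := diagonal fun i => (((i : ℕ) : ℝ) : ℂ)

lemma numL_posSemidef (L : ℕ) : (numL L).PosSemidef :=
  Matrix.PosSemidef.diagonal fun i => Complex.zero_le_real.2 (Nat.cast_nonneg _)

lemma annL_gram (L : ℕ) : (annL L)ᴴ * annL L = numL L := by
  ext i i'
  simp only [Matrix.mul_apply, Matrix.conjTranspose_apply, annL, numL, Matrix.diagonal_apply]
  by_cases h : i = i'
  · subst h
    rw [if_pos rfl]
    rcases Nat.eq_zero_or_pos (i : ℕ) with h0 | h0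
    · rw [Finset.sum_eq_zero fun m _ => by rw [if_neg (by omega)]; simp]
      simp [h0]
    · rw [Finset.sum_eq_single (⟨(i : ℕ) - 1, by omega⟩ : Fin L)]
      · rw [if_pos (show (i : ℕ) = (i : ℕ) - 1 + 1 by omega), ← starRingEnd_apply,
          Complex.conj_ofReal, ← Complex.ofReal_mul, Real.mul_self_sqrt (Nat.cast_nonneg _)]
      · intro m _ hm
        rw [if_neg fun hh => hm (Fin.ext (show (m : ℕ) = (i : ℕ) - 1 by omega))]
        simp
      · simp
  · rw [if_neg h]
    exact Finset.sum_eq_zero fun m _ => by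
      split_ifs with a b <;> first | (simp; done) | exact absurd (Fin.ext (by omega)) h

/-- `a a† ≤ N + 1`. -/
lemma annL_gram' (L : ℕ) : (numL L + 1 - annL L * (annL L)ᴴ).PosSemidef := by
  have e : numL L + 1 - annL L * (annL L)ᴴ
      = diagonal fun m : Fin L => ((if (m : ℕ) + 1 < L then 0 else ((m : ℕ) : ℝ) + 1 : ℝ) : ℂ) := by
    ext m m'
    simp only [Matrix.sub_apply, Matrix.add_apply, numL, Matrix.mul_apply,
      Matrix.conjTranspose_apply, annL, Matrix.diagonal_apply, Matrix.one_apply]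
    by_cases h : m = m'
    · subst h
      simp only [if_true]
      by_cases hl : (m : ℕ) + 1 < L
      · rw [Finset.sum_eq_single (⟨(m : ℕ) + 1, hl⟩ : Fin L)]
        · rw [if_pos rfl, if_pos hl, ← starRingEnd_apply, Complex.conj_ofReal,
            ← Complex.ofReal_mul, Real.mul_self_sqrt (Nat.cast_nonneg _)]
          push_cast; ring
        · intro i _ hi
          rw [if_neg fun hh => hi (Fin.ext (show (i : ℕ) = m + 1 by omega)), zero_mul]
        · simp
      · rw [Finset.sum_eq_zero fun i _ => by rw [if_neg (by omega), zero_mul], if_neg hl]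
        push_cast; ring
    · rw [if_neg h, if_neg h, Finset.sum_eq_zero fun i _ => by
        split_ifs with a b <;> first | (simp; done) | exact absurd (Fin.ext (by omega)) h]
      simp [h]
  rw [e]
  refine Matrix.PosSemidef.diagonal fun m => Complex.zero_le_real.2 ?_
  split_ifs <;> positivity

/-- Second-order bound used in place of Cauchy–Schwarz. -/
lemma re_trace_num_le {P X : Matrix (Fin L) (Fin L) ℂ} (hP : P.PosSemidef)
    (hP1 : (1 - P).PosSemidef) (hX : X.PosSemidef) (hX1 : (1 - X).PosSemidef) (δ : ℝ) :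
    2 * δ * (P * numL L * X).trace.re ≤ δ ^ 2 * (L : ℝ) ^ 3 + (P * X).trace.re := by
  set N := numL L with hN
  have hNh : N.IsHermitian := (numL_posSemidef L).1
  set M := (δ : ℂ) • N - 1 with hM
  have hMh : Mᴴ = M := by
    rw [hM, Matrix.conjTranspose_sub, Matrix.conjTranspose_smul, hNh.eq, Matrix.conjTranspose_one]
    simp
  have h := re_trace_mul_nonneg hP (hX.mul_mul_conjTranspose_same M)
  rw [hMh] at h
  have e : P * (M * X * M) = ((δ : ℂ) ^ 2) • (P * (N * X * N)) - (δ : ℂ) • (P * N * X)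
      - (δ : ℂ) • (P * X * N) + P * X := by
    simp only [hM, Matrix.sub_mul, Matrix.mul_sub, Matrix.smul_mul, Matrix.mul_smul,
      Matrix.one_mul, Matrix.mul_one, Matrix.mul_assoc, smul_sub, smul_smul, sq]
    abel
  rw [e] at h
  simp only [Matrix.trace_add, Matrix.trace_sub, Matrix.trace_smul, smul_eq_mul, Complex.add_re,
    Complex.sub_re, ← Complex.ofReal_pow, Complex.re_ofReal_mul] at h
  have h2 : (P * X * N).trace.re = (P * N * X).trace.re := by
    rw [re_trace_rev hP.1 hX.1 hNh, Matrix.trace_mul_cycle]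
  have h3 : (P * (N * X * N)).trace.re ≤ (L : ℝ) ^ 3 := by
    have hNXN : (N * X * N).PosSemidef := by
      have := hX.mul_mul_conjTranspose_same N; rwa [hNh.eq] at this
    refine (re_trace_mul_le' hP1 hNXN).trans ?_
    rw [Matrix.trace_mul_cycle]
    have hNN : (N * N).PosSemidef := by
      have := Matrix.posSemidef_conjTranspose_mul_self N; rwa [hNh.eq] at this
    refine (re_trace_mul_le hNN hX1).trans ?_
    simp only [hN, numL, Matrix.diagonal_mul_diagonal, Matrix.trace_diagonal, Complex.re_sum,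
      ← Complex.ofReal_mul, Complex.ofReal_re]
    calc ∑ i : Fin L, ((i : ℕ) : ℝ) * ((i : ℕ) : ℝ) ≤ ∑ _i : Fin L, (L : ℝ) * L :=
          Finset.sum_le_sum fun i _ => mul_le_mul (by exact_mod_cast i.isLt.le)
            (by exact_mod_cast i.isLt.le) (Nat.cast_nonneg _) (Nat.cast_nonneg _)
      _ = (L : ℝ) ^ 3 := by simp; ring
  rw [h2] at h
  nlinarith [mul_le_mul_of_nonneg_left h3 (sq_nonneg δ)]

lemma lossK_nonneg' {p : ℝ} (h0 : 0 ≤ p) (h1 : p ≤ 1) (i l : ℕ) : 0 ≤ lossK p i l :=
  lossK_nonneg h0 h1 i l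

lemma lossK_diag (p : ℝ) : ∀ i, lossK p i i = p ^ i := by
  intro i
  induction i with
  | zero => simp [lossK]
  | succ i ih => simp [lossK, lossK_of_lt (Nat.lt_succ_self i), ih]; ring

lemma sum_lossK_of_lt (p : ℝ) {i k : ℕ} (h : i < k) : ∑ l ∈ range k, lossK p i l = 1 := by
  rw [← sum_lossK p i]
  exact (Finset.sum_subset (Finset.range_subset_range.2 h) fun l _ hl =>
    lossK_of_lt (by simpa using hl)).symm

lemma rect_loss_eq (p : ℝ) {r k : ℕ} (h : r ≤ k) : rect (lossK p) r k = r := by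
  rw [rect, Finset.sum_congr rfl fun i hi => sum_lossK_of_lt p
    (lt_of_lt_of_le (Finset.mem_range.1 hi) h)]
  simp

lemma rect_loss_gt (p : ℝ) (k : ℕ) : rect (lossK p) (k + 1) k = (k : ℝ) + 1 - p ^ k := by
  have h := sum_lossK p k
  rw [Finset.sum_range_succ, lossK_diag] at h
  have h2 := rect_loss_eq p (le_refl k)
  rw [rect] at h2 ⊢
  rw [Finset.sum_range_succ, h2]
  linarith

/-- Constant in the one-step bound. -/
def cStep (L : ℕ) : ℝ := (L : ℝ) ^ 6 * cEl L + (L : ℝ) ^ 3 + 4 * (L : ℝ) ^ 2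

lemma re_trace_loss_step {δ : ℝ} (h0 : 0 ≤ δ) (h1 : δ ≤ 1) {Q X : Matrix (Fin L) (Fin L) ℂ}
    (hQ : Q.PosSemidef) (hQ1 : (1 - Q).PosSemidef) (hX : X.PosSemidef) (hX1 : (1 - X).PosSemidef) :
    (Q * lossMap ((1 - δ) ^ 2) X).trace.re ≤ (Q * X).trace.re
      + 2 * δ * ((Q * (annL L * X * (annL L)ᴴ)).trace.re - (Q * numL L * X).trace.re)
      + (L : ℝ) ^ 6 * cEl L * δ ^ 2 := by
  set N := numL L with hN
  set A := annL L with hA
  set lin : Matrix (Fin L) (Fin L) ℂ := fun m m' =>
    ∑ i : Fin L, ∑ i' : Fin L, (linEl δ i i' m m' : ℂ) * X i i' with hlin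
  have e : lin = X - (δ : ℂ) • (N * X) - (δ : ℂ) • (X * N) + ((2 * δ : ℝ) : ℂ) • (A * X * Aᴴ) := by
    ext m m'
    have hcoef : ∀ i i' : Fin L, (linEl δ i i' m m' : ℂ)
        = (if i = m then (if i' = m' then ((1 - δ * (((i : ℕ) : ℝ) + (i' : ℕ)) : ℝ) : ℂ) else 0) else 0)
          + ((2 * δ : ℝ) : ℂ) * (A m i * starRingEnd ℂ (A m' i')) := by
      intro i i'
      simp only [linEl, hA, annL, Fin.ext_iff]
      by_cases h : (i : ℕ) = m ∧ (i' : ℕ) = m'
      · rw [if_pos h, if_pos h.1, if_pos h.2, if_neg (show ¬ ((i : ℕ) = m + 1) by omega)]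
        push_cast; ring
      · rw [if_neg h]
        by_cases h2 : (i : ℕ) = m + 1 ∧ (i' : ℕ) = m' + 1
        · rw [if_pos h2, if_neg (show ¬ ((i : ℕ) = m) by omega), if_pos h2.1, if_pos h2.2,
            Complex.conj_ofReal]
          push_cast; ring
        · rw [if_neg h2]
          split_ifs <;> first | (exfalso; omega) | simp
    simp only [hlin, hcoef, add_mul, Finset.sum_add_distrib, Matrix.add_apply, Matrix.sub_apply,
      Matrix.smul_apply, smul_eq_mul]
    congr 1
    · simp only [ite_mul, zero_mul, Finset.sum_ite_irrel, Finset.sum_const_zero,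
        Finset.sum_ite_eq', Finset.mem_univ, if_true, hN, numL, Matrix.diagonal_mul,
        Matrix.mul_diagonal]
      push_cast; ring
    · simp only [Matrix.mul_apply, Matrix.conjTranspose_apply, Finset.mul_sum, Finset.sum_mul,
        ← starRingEnd_apply]
      rw [Finset.sum_comm]
      exact Finset.sum_congr rfl fun i' _ => Finset.sum_congr rfl fun i _ => by ring
  have hlt : (Q * lin).trace.re = (Q * X).trace.re
      + 2 * δ * ((Q * (A * X * Aᴴ)).trace.re - (Q * N * X).trace.re) := by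
    have hs : (Q * X * N).trace.re = (Q * N * X).trace.re := by
      rw [re_trace_rev hQ.1 hX.1 (numL_posSemidef L).1, Matrix.trace_mul_cycle]
    rw [e]
    simp only [Matrix.mul_add, Matrix.mul_sub, Matrix.mul_smul, Matrix.trace_add, Matrix.trace_sub,
      Matrix.trace_smul, smul_eq_mul, Complex.add_re, Complex.sub_re, Complex.re_ofReal_mul,
      ← Matrix.mul_assoc]
    rw [hs]; ring
  have herr : (Q * lossMap ((1 - δ) ^ 2) X).trace.re - (Q * lin).trace.re
      ≤ (L : ℝ) ^ 6 * cEl L * δ ^ 2 := by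
    rw [← Complex.sub_re, ← Matrix.trace_sub, ← Matrix.mul_sub]
    refine (Complex.re_le_norm _).trans ?_
    have hent : ∀ m m' : Fin L, ‖(lossMap ((1 - δ) ^ 2) X - lin) m m'‖
        ≤ (L : ℝ) ^ 3 * cEl L * δ ^ 2 := by
      intro m m'
      have hd : (lossMap ((1 - δ) ^ 2) X - lin) m m' = ∑ i : Fin L, ∑ i' : Fin L,
          ((lossEl ((1 - δ) ^ 2) i i' m m' - linEl δ i i' m m' : ℝ) : ℂ) * X i i' := by
        change lossMap ((1 - δ) ^ 2) X m m' - lin m m' = _
        simp [lossMap, hlin, sub_mul, Finset.sum_sub_distrib]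
      rw [hd]
      refine (norm_sum_le _ _).trans ((Finset.sum_le_sum fun i _ => (norm_sum_le _ _).trans
        (Finset.sum_le_sum fun i' _ => ?_)).trans_eq
          (show ∑ _i : Fin L, ∑ _i' : Fin L, cEl L * δ ^ 2 * L = (L : ℝ) ^ 3 * cEl L * δ ^ 2 by
            simp; ring))
      rw [norm_mul, Complex.norm_real, Real.norm_eq_abs]
      exact mul_le_mul (abs_lossEl_sub_linEl h0 h1 i.isLt i'.isLt) (norm_entry_le hX hX1 i i')
        (norm_nonneg _) (by unfold cEl; positivity)
    simp only [Matrix.trace, Matrix.diag_apply, Matrix.mul_apply]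
    refine (norm_sum_le _ _).trans ((Finset.sum_le_sum fun a _ => (norm_sum_le _ _).trans
      (Finset.sum_le_sum fun b _ => ?_)).trans_eq
        (show ∑ _a : Fin L, ∑ _b : Fin L, (L : ℝ) * ((L : ℝ) ^ 3 * cEl L * δ ^ 2)
          = (L : ℝ) ^ 6 * cEl L * δ ^ 2 by simp; ring))
    rw [norm_mul]
    exact mul_le_mul (norm_entry_le hQ hQ1 a b) (hent b a) (norm_nonneg _) (Nat.cast_nonneg L)
  linarith

/-- Fock optimality of one short step, up to second order. -/
theorem loss_step {δ : ℝ} (h0 : 0 ≤ δ) (h1 : δ ≤ 1) {Q X : Matrix (Fin L) (Fin L) ℂ}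
    (hQ : Q.PosSemidef) (hQ1 : (1 - Q).PosSemidef) (hX : X.PosSemidef) (hX1 : (1 - X).PosSemidef)
    {r k : ℕ} (hk : Q.trace.re ≤ k) (hr : X.trace.re ≤ r) :
    (Q * lossMap ((1 - δ) ^ 2) X).trace.re
      ≤ rect (lossK ((1 - δ) ^ 2)) r k + cStep L * δ ^ 2 := by
  have hu : 0 ≤ (1 - δ) ^ 2 := sq_nonneg _
  have hu1 : (1 - δ) ^ 2 ≤ 1 := pow_le_one₀ (sub_nonneg.2 h1) (by linarith)
  refine le_trans ?_ (add_le_add_left (rect_mono (lossK_nonneg hu hu1) (min_le_left r L)
    (min_le_left k L)) _)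
  have hk' : Q.trace.re ≤ ((min k L : ℕ) : ℝ) := by
    push_cast; exact le_min hk (re_trace_le_card hQ1)
  have hr' : X.trace.re ≤ ((min r L : ℕ) : ℝ) := by
    push_cast; exact le_min hr (re_trace_le_card hX1)
  have hkL : ((min k L : ℕ) : ℝ) ≤ L := by exact_mod_cast min_le_right k L
  generalize min k L = k' at hk' hkL ⊢
  generalize min r L = r' at hr' ⊢
  refine (re_trace_loss_step h0 h1 hQ hQ1 hX hX1).trans ?_
  set N := numL L with hN
  set A := annL L with hA
  have hd2 := sq_nonneg δ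
  have hL2 : (0 : ℝ) ≤ (L : ℝ) ^ 2 * δ ^ 2 := mul_nonneg (sq_nonneg _) hd2
  rcases le_or_gt r' k' with hle | hlt
  · rw [rect_loss_eq _ hle]
    have hb : (Q * (A * X * Aᴴ)).trace.re ≤ (N * X).trace.re := by
      refine (re_trace_mul_le' hQ1 (hX.mul_mul_conjTranspose_same A)).trans ?_
      rw [Matrix.trace_mul_cycle, hA, annL_gram]
    have hP1 : (1 - (1 - Q)).PosSemidef := by rwa [sub_sub_cancel]
    have hg := re_trace_num_le hQ1 hP1 hX hX1 δ
    simp only [Matrix.sub_mul, Matrix.one_mul, Matrix.trace_sub, Complex.sub_re, ← hN] at hg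
    have hb' := mul_le_mul_of_nonneg_left (sub_le_sub_right hb (Q * N * X).trace.re)
      (show 0 ≤ 2 * δ by linarith)
    unfold cStep
    nlinarith
  · refine le_trans ?_ (add_le_add_left (rect_mono (lossK_nonneg hu hu1) hlt (le_refl k')) _)
    rw [rect_loss_gt, ← pow_mul]
    have hb : (Q * (A * X * Aᴴ)).trace.re ≤ (Q * N).trace.re + Q.trace.re := by
      rw [← Matrix.mul_assoc, Matrix.trace_mul_comm, ← Matrix.mul_assoc, ← Matrix.mul_assoc]
      refine (re_trace_mul_le (hQ.conjTranspose_mul_mul_same A) hX1).trans ?_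
      rw [Matrix.trace_mul_cycle, Matrix.trace_mul_comm]
      have := re_trace_mul_nonneg hQ (annL_gram' L)
      simp only [Matrix.mul_sub, Matrix.mul_add, Matrix.mul_one, Matrix.trace_sub,
        Matrix.trace_add, Complex.sub_re, Complex.add_re, ← hN, ← hA] at this
      linarith
    have hP1 : (1 - (1 - X)).PosSemidef := by rwa [sub_sub_cancel]
    have hg := re_trace_num_le hQ hQ1 hX1 hP1 δ
    simp only [Matrix.mul_sub, Matrix.mul_one, Matrix.trace_sub, Complex.sub_re, ← hN] at hg
    have hb' := mul_le_mul_of_nonneg_left (sub_le_sub_right hb (Q * N * X).trace.re)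
      (show 0 ≤ 2 * δ by linarith)
    have hq := mul_le_mul_of_nonneg_left hk' (show 0 ≤ 2 * δ by linarith)
    have hp := (one_sub_pow_bounds h0 h1 (2 * k')).2
    push_cast at hp
    have hk2 : (k' : ℝ) ^ 2 * δ ^ 2 ≤ (L : ℝ) ^ 2 * δ ^ 2 :=
      mul_le_mul_of_nonneg_right (pow_le_pow_left₀ (Nat.cast_nonneg _) hkL 2) hd2
    unfold cStep
    nlinarith

/-! ### Composition of steps -/

lemma lossK_comp (s t : ℝ) : ∀ i m : ℕ, ∀ n, i < n →
    ∑ l ∈ range n, lossK s i l * lossK t l m = lossK (s * t) i m := by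
  intro i
  induction i with
  | zero =>
    intro m n hn
    rw [Finset.sum_eq_single 0]
    · cases m <;> simp [lossK]
    · intro l _ hl; rw [lossK_of_lt (Nat.pos_of_ne_zero hl), zero_mul]
    · intro h; exact absurd (Finset.mem_range.2 hn) h
  | succ i ih =>
    intro m n hn
    obtain ⟨n, rfl⟩ : ∃ n', n = n' + 1 := ⟨n - 1, by omega⟩
    have hin : i < n := by omega
    rw [Finset.sum_range_succ']
    cases m with
    | zero =>
      have e0 := ih 0 (n + 1) (by omega)
      rw [Finset.sum_range_succ'] at e0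
      have e1 := ih 0 n hin
      simp only [lossK, add_mul, mul_assoc, Finset.sum_add_distrib, ← Finset.mul_sum] at e0 ⊢
      have e2 : ∑ x ∈ range n, lossK s i x * ((1 - t) * lossK t x 0)
          = (1 - t) * ∑ x ∈ range n, lossK s i x * lossK t x 0 := by
        rw [Finset.mul_sum]; exact Finset.sum_congr rfl fun x _ => by ring
      rw [e2, e1]
      linear_combination (1 - s) * e0
    | succ m =>
      have e0 := ih (m + 1) (n + 1) (by omega)
      rw [Finset.sum_range_succ'] at e0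
      have e1 := ih (m + 1) n hin
      have e2 := ih m n hin
      simp only [lossK, add_mul, mul_add, mul_assoc, Finset.sum_add_distrib, ← Finset.mul_sum]
        at e0 ⊢
      have e3 : ∀ (c : ℝ) (j : ℕ), ∑ x ∈ range n, lossK s i x * (c * lossK t x j)
          = c * ∑ x ∈ range n, lossK s i x * lossK t x j := by
        intro c j; rw [Finset.mul_sum]; exact Finset.sum_congr rfl fun x _ => by ring
      simp only [e3, e1, e2] at e0 ⊢
      linear_combination (1 - s) * e0

lemma loss_prefix_antitone {p : ℝ} (h0 : 0 ≤ p) (h1 : p ≤ 1) (k : ℕ) :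
    Antitone fun i => ∑ l ∈ range k, lossK p i l := by
  refine antitone_nat_of_succ_le fun i => ?_
  cases k with
  | zero => simp
  | succ k =>
    simp only [Finset.sum_range_succ' _ k, lossK, Finset.sum_add_distrib, ← Finset.mul_sum]
    have h2 : ∑ l ∈ range k, lossK p i l
        ≤ ∑ l ∈ range k, lossK p i (l + 1) + lossK p i 0 := by
      rw [← Finset.sum_range_succ']
      exact Finset.sum_le_sum_of_subset_of_nonneg (Finset.range_subset_range.2 (Nat.le_succ k))
        fun l _ _ => lossK_nonneg h0 h1 i l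
    nlinarith [mul_le_mul_of_nonneg_left h2 h0]

/-- Error after `j` steps. -/
def errL (L : ℕ) (ε : ℝ) (j : ℕ) : ℝ := (L : ℝ) * ((1 + ε) ^ j - 1)

lemma loss_iter {δ : ℝ} (h0 : 0 ≤ δ) (h1 : δ ≤ 1) : ∀ j : ℕ,
    ∀ {Q X : Matrix (Fin L) (Fin L) ℂ}, Q.PosSemidef → (1 - Q).PosSemidef → X.PosSemidef →
      (1 - X).PosSemidef → ∀ {r k : ℕ}, Q.trace.re ≤ k → X.trace.re ≤ r →
        (Q * lossMap (((1 - δ) ^ 2) ^ j) X).trace.re
          ≤ rect (lossK (((1 - δ) ^ 2) ^ j)) r k + errL L (cStep L * δ ^ 2) j := by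
  intro j
  induction j with
  | zero =>
    intro Q X hQ hQ1 hX hX1 r k hk hr
    simp only [pow_zero, errL, sub_self, mul_zero, add_zero, lossMap_one]
    rcases le_or_gt r k with h | h
    · rw [rect_loss_eq _ h]; exact (re_trace_mul_le' hQ1 hX).trans hr
    · refine le_trans ?_ (rect_mono (lossK_nonneg zero_le_one le_rfl) h.le (le_refl k))
      rw [rect_loss_eq _ (le_refl k)]; exact (re_trace_mul_le hQ hX1).trans hk
  | succ j ih =>
    intro Q X hQ hQ1 hX hX1 r k hk hr
    set t := (1 - δ) ^ 2 with ht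
    set ε := cStep L * δ ^ 2 with hε
    have ht0 : 0 ≤ t := sq_nonneg _
    have ht1 : t ≤ 1 := pow_le_one₀ (sub_nonneg.2 h1) (by linarith)
    have hs0 : 0 ≤ t ^ j := pow_nonneg ht0 j
    have hs1 : t ^ j ≤ 1 := pow_le_one₀ ht0 ht1
    have hε0 : 0 ≤ ε := by rw [hε]; unfold cStep cEl; positivity
    have he0 : 0 ≤ errL L ε j :=
      mul_nonneg (Nat.cast_nonneg _) (sub_nonneg.2 (one_le_pow₀ (by linarith)))
    have hp0 : 0 ≤ t ^ (j + 1) := pow_nonneg ht0 _
    have hp1 : t ^ (j + 1) ≤ 1 := pow_le_one₀ ht0 ht1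
    rcases Nat.eq_zero_or_pos L with hL0 | hL
    · subst hL0
      have : (Q * lossMap (t ^ (j + 1)) X).trace.re = 0 := by simp [Matrix.trace]
      rw [this]
      exact add_nonneg
        (Finset.sum_nonneg fun i _ => Finset.sum_nonneg fun l _ => lossK_nonneg hp0 hp1 i l)
        (by simp [errL])
    have hr' : X.trace.re ≤ ((min r L : ℕ) : ℝ) := by
      push_cast; exact le_min hr (re_trace_le_card hX1)
    set c : ℕ → ℝ := fun l => ∑ i ∈ range (min r L), lossK (t ^ j) i l with hc
    set b : ℕ → ℝ := fun l => ∑ x ∈ range k, lossK t l x with hb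
    have hone : ∀ n : ℕ, ∑ x ∈ range n, lossK t 0 x ≤ 1 := fun n => by
      rcases Nat.eq_zero_or_pos n with h | h
      · simp [h]
      · rw [sum_lossK_of_lt t h]
    have hsum0 : ∀ {n : ℕ} (e : ℝ), 0 < n → ∑ l ∈ range n, (if l = 0 then e else 0) = e := by
      intro n e hn
      rw [Finset.sum_ite_eq', if_pos (Finset.mem_range.2 hn)]
    have key := psd_pair_le (lossPair t Q) (lossMap_posSemidef (t ^ j) hX)
      (u' := fun l => c l + if l = 0 then errL L ε j else 0)
      (v' := fun l => b l + if l = 0 then ε else 0)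
      (antitone_nat_of_succ_le fun l => by
        simp only [Nat.succ_ne_zero, if_false, add_zero]
        exact (loss_prefix_antitone ht0 ht1 k (Nat.le_succ l)).trans
          (le_add_of_nonneg_right (by split_ifs <;> first | exact hε0 | exact le_rfl)))
      (fun l => add_nonneg (Finset.sum_nonneg fun x _ => lossK_nonneg ht0 ht1 l x)
        (by split_ifs <;> first | exact hε0 | exact le_rfl))
      (fun P hP hP1 n hn => by
        rcases Nat.eq_zero_or_pos n with h | h
        · subst h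
          have h2 := re_trace_mul_le hP (sub_self (1 : Matrix (Fin L) (Fin L) ℂ) ▸ Matrix.PosSemidef.zero
            : (1 - (1 : Matrix (Fin L) (Fin L) ℂ)).PosSemidef)
          have hz : P = 0 := by
            refine hP.trace_eq_zero_iff.1 (Complex.ext (by simpa using hn) ?_)
            simpa using ((Complex.nonneg_iff.1 hP.trace_nonneg).2).symm
          simp [hz]
        refine (ih hP hP1 hX hX1 hn.le hr').trans_eq ?_
        rw [rect, Finset.sum_comm, Finset.sum_add_distrib, hsum0 _ h])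
      (fun P hP hP1 n hn => by
        rcases Nat.eq_zero_or_pos n with h | h
        · subst h
          have hz : P = 0 := by
            refine hP.trace_eq_zero_iff.1 (Complex.ext (by simpa using hn) ?_)
            simpa using ((Complex.nonneg_iff.1 hP.trace_nonneg).2).symm
          simp [hz]
        refine (loss_step h0 h1 hQ hQ1 hP hP1 hk hn.le).trans_eq ?_
        rw [rect, Finset.sum_add_distrib, hsum0 _ h])
    have hcomp : lossMap (t ^ (j + 1)) X = lossMap t (lossMap (t ^ j) X) := by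
      rw [lossMap_comp ht0 ht1 hs0 hs1, pow_succ']
    rw [hcomp]
    refine key.trans ?_
    simp only [add_mul, mul_add, Finset.sum_add_distrib, ite_mul, zero_mul, mul_ite, mul_zero,
      Finset.sum_ite_eq', Finset.mem_range, hL, if_true]
    have hb0 : b 0 ≤ 1 := hone k
    have hc0 : c 0 ≤ L := by
      refine (Finset.sum_le_sum fun i _ => show lossK (t ^ j) i 0 ≤ 1 from ?_).trans ?_
      · rw [← sum_lossK (t ^ j) i]
        exact Finset.single_le_sum (fun l _ => lossK_nonneg hs0 hs1 i l)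
          (Finset.mem_range.2 (Nat.succ_pos i))
      · simp only [Finset.sum_const, Finset.card_range, nsmul_eq_mul, mul_one]
        exact_mod_cast min_le_right r L
    have hmain : ∑ l ∈ range L, c l * b l ≤ rect (lossK (t ^ (j + 1))) r k := by
      refine le_trans (le_of_eq ?_) (rect_mono (lossK_nonneg hp0 hp1) (min_le_left r L) (le_refl k))
      have e : ∀ i ∈ range (min r L), ∀ x : ℕ,
          lossK (t ^ (j + 1)) i x = ∑ l ∈ range L, lossK (t ^ j) i l * lossK t l x := fun i hi x => by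
        rw [lossK_comp _ _ i x L (lt_of_lt_of_le (Finset.mem_range.1 hi) (min_le_right r L)),
          ← pow_succ]
      rw [rect, Finset.sum_congr rfl fun i hi => Finset.sum_congr rfl fun x _ => e i hi x]
      simp only [hc, hb, Finset.sum_mul, Finset.mul_sum]
      rw [Finset.sum_comm_cycle]
      exact Finset.sum_congr rfl fun i _ => Finset.sum_comm
    have he : errL L ε (j + 1) = errL L ε j * (1 + ε) + L * ε := by
      simp only [errL, pow_succ]; ring
    rw [he]
    nlinarith [mul_le_mul_of_nonneg_left hb0 he0, mul_le_mul_of_nonneg_right hc0 hε0]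

lemma continuous_lossK : ∀ i l : ℕ, Continuous fun p => lossK p i l := by
  intro i
  induction i with
  | zero => intro l; cases l <;> simp only [lossK] <;> exact continuous_const
  | succ i ih =>
    intro l
    cases l with
    | zero => simp only [lossK]; exact (continuous_const.sub continuous_id).mul (ih 0)
    | succ l =>
      simp only [lossK]
      exact ((continuous_const.sub continuous_id).mul (ih _)).add (continuous_id.mul (ih l))

lemma continuous_lossEl (i i' m m' : ℕ) : Continuous fun s => lossEl s i i' m m' := by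
  have hA : ∀ a b : ℕ, Continuous fun s => lossA s a b := fun a b => by
    unfold lossA
    split_ifs
    · exact (continuous_const.mul (Real.continuous_sqrt.pow b)).mul
        ((Real.continuous_sqrt.comp (continuous_const.sub continuous_id)).pow _)
    · exact continuous_const
  unfold lossEl
  split_ifs
  · exact (hA i m).mul (hA i' m')
  · exact continuous_const

lemma loss_fan_pos {s : ℝ} (hs : 0 < s) (hs1 : s ≤ 1) {Q X : Matrix (Fin L) (Fin L) ℂ}
    (hQ : Q.PosSemidef) (hQ1 : (1 - Q).PosSemidef) (hX : X.PosSemidef) (hX1 : (1 - X).PosSemidef)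
    {r k : ℕ} (hk : Q.trace.re ≤ k) (hr : X.trace.re ≤ r) :
    (Q * lossMap s X).trace.re ≤ rect (lossK s) r k := by
  set a := -Real.log s with ha
  have ha0 : 0 ≤ a := neg_nonneg.2 (Real.log_nonpos hs.le hs1)
  set K := cStep L * a ^ 2 with hK
  have hC : 0 ≤ cStep L := by unfold cStep cEl; positivity
  have hbound : ∀ n : ℕ, 1 ≤ n → (Q * lossMap s X).trace.re
      ≤ rect (lossK s) r k + (L : ℝ) * (Real.exp (K / n) - 1) := by
    intro n hn
    have hn0 : (0 : ℝ) < n := by exact_mod_cast hn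
    set u := Real.exp (-a / (2 * n)) with hu
    have hu1 : u ≤ 1 := Real.exp_le_one_iff.2 (div_nonpos_of_nonpos_of_nonneg (by linarith) (by positivity))
    have hu0 : 0 < u := Real.exp_pos _
    have hpow : ((1 - (1 - u)) ^ 2) ^ n = s := by
      rw [sub_sub_cancel, ← pow_mul, hu, ← Real.exp_nat_mul]
      push_cast
      rw [show (2 : ℝ) * n * (-a / (2 * n)) = -a by field_simp, ha, neg_neg, Real.exp_log hs]
    have hδ : 1 - u ≤ a / (2 * n) := by
      have := Real.add_one_le_exp (-a / (2 * n))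
      rw [neg_div] at this
      rw [hu, neg_div]
      linarith
    have h := loss_iter (sub_nonneg.2 hu1) (by linarith) n hQ hQ1 hX hX1 hk hr
    rw [hpow] at h
    refine h.trans (add_le_add_right (mul_le_mul_of_nonneg_left (sub_le_sub_right ?_ 1)
      (Nat.cast_nonneg L)) _)
    calc (1 + cStep L * (1 - u) ^ 2) ^ n ≤ Real.exp (cStep L * (1 - u) ^ 2) ^ n :=
          pow_le_pow_left₀ (by positivity) (by linarith [Real.add_one_le_exp (cStep L * (1 - u) ^ 2)]) n
      _ = Real.exp (n * (cStep L * (1 - u) ^ 2)) := (Real.exp_nat_mul _ n).symm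
      _ ≤ Real.exp (K / n) := by
          refine Real.exp_le_exp.2 ?_
          have h2 := pow_le_pow_left₀ (sub_nonneg.2 hu1) hδ 2
          calc (n : ℝ) * (cStep L * (1 - u) ^ 2) ≤ n * (cStep L * (a / (2 * n)) ^ 2) :=
                mul_le_mul_of_nonneg_left (mul_le_mul_of_nonneg_left h2 hC) hn0.le
            _ = K / (4 * n) := by rw [hK]; field_simp; ring
            _ ≤ K / n := div_le_div_of_nonneg_left (by positivity) hn0 (by linarith)
  have h0 : Tendsto (fun n : ℕ => rect (lossK s) r k + (L : ℝ) * (Real.exp (K / n) - 1)) atTop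
      (𝓝 (rect (lossK s) r k + (L : ℝ) * (Real.exp 0 - 1))) :=
    tendsto_const_nhds.add (tendsto_const_nhds.mul
      (((Real.continuous_exp.tendsto 0).comp (tendsto_const_div_atTop_nhds_zero_nat K)).sub_const 1))
  rw [Real.exp_zero, sub_self, mul_zero, add_zero] at h0
  exact ge_of_tendsto h0 ((eventually_ge_atTop 1).mono hbound)

/-- **Pure loss is Fock-optimal.** -/
theorem loss_fan {s : ℝ} (hs : 0 ≤ s) (hs1 : s ≤ 1) {Q X : Matrix (Fin L) (Fin L) ℂ}
    (hQ : Q.PosSemidef) (hQ1 : (1 - Q).PosSemidef) (hX : X.PosSemidef) (hX1 : (1 - X).PosSemidef)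
    {r k : ℕ} (hk : Q.trace.re ≤ k) (hr : X.trace.re ≤ r) :
    (Q * lossMap s X).trace.re ≤ rect (lossK s) r k := by
  rcases hs.lt_or_eq with h | h
  · exact loss_fan_pos h hs1 hQ hQ1 hX hX1 hk hr
  subst h
  have hc1 : Continuous fun p => (Q * lossMap p X).trace.re := by
    simp only [Matrix.trace, Matrix.diag_apply, Matrix.mul_apply, lossMap, Complex.re_sum,
      Finset.mul_sum]
    exact continuous_finsetSum _ fun a _ => continuous_finsetSum _ fun b _ =>
      continuous_finsetSum _ fun i _ => continuous_finsetSum _ fun i' _ =>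
      Complex.continuous_re.comp (continuous_const.mul
        ((Complex.continuous_ofReal.comp (continuous_lossEl _ _ _ _)).mul continuous_const))
  have hc2 : Continuous fun p => rect (lossK p) r k :=
    continuous_finsetSum _ fun i _ => continuous_finsetSum _ fun l _ => continuous_lossK i l
  have hlim : Tendsto (fun n : ℕ => 1 / ((n : ℝ) + 1)) atTop (𝓝 0) :=
    tendsto_one_div_add_atTop_nhds_zero_nat
  refine le_of_tendsto_of_tendsto' ((hc1.tendsto 0).comp hlim) ((hc2.tendsto 0).comp hlim) fun n => ?_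
  exact loss_fan_pos (by positivity)
    ((div_le_one (by positivity)).2 (by linarith [(Nat.cast_nonneg n : (0 : ℝ) ≤ n)]))
    hQ hQ1 hX hX1 hk hr

/-! ### Loss followed by amplification -/

lemma ampK_eq_lossK (c : ℝ) : ∀ m l : ℕ, ampK c l m = (1 - c) * lossK (1 - c) m l := by
  intro m
  induction m with
  | zero => intro l; cases l <;> simp [ampK, lossK]
  | succ m ih =>
    intro l
    cases l with
    | zero => simp only [ampK, lossK, ih]; ring
    | succ l => simp only [ampK, lossK, ih]; ring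

lemma lossEl_swap (s : ℝ) (i i' m m' : ℕ) : lossEl s i i' m m' = lossEl s i' i m' m := by
  unfold lossEl
  split_ifs <;> first | omega | ring

lemma lossEl_eq_zero_of_lt (s : ℝ) {i i' m m' : ℕ} (h : i < m ∨ i' < m') :
    lossEl s i i' m m' = 0 := by
  unfold lossEl
  rcases h with h | h <;> simp [lossA_of_lt s h]

lemma sum_range_eq_of_zero {f : ℕ → ℝ} {a b : ℕ} (ha : ∀ l, a ≤ l → f l = 0)
    (hb : ∀ l, b ≤ l → f l = 0) : ∑ l ∈ range a, f l = ∑ l ∈ range b, f l := by
  rcases le_total a b with h | h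
  · exact Finset.sum_subset (Finset.range_subset_range.2 h) fun l _ hl => ha l (by simpa using hl)
  · exact (Finset.sum_subset (Finset.range_subset_range.2 h) fun l _ hl =>
      hb l (by simpa using hl)).symm

/-- A matrix `0 ≤ P ≤ 1` on the first `K` levels, padded to `N` levels. -/
lemma exists_pad {K N : ℕ} (h : K ≤ N) {P : Matrix (Fin K) (Fin K) ℂ} (hP : P.PosSemidef)
    (hP1 : (1 - P).PosSemidef) :
    ∃ P' : Matrix (Fin N) (Fin N) ℂ, P'.PosSemidef ∧ (1 - P').PosSemidef ∧
      P'.trace = P.trace ∧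
      ∀ A : Matrix (Fin N) (Fin N) ℂ,
        (P' * A).trace = (P * A.submatrix (Fin.castLE h) (Fin.castLE h)).trace := by
  set E : Matrix (Fin N) (Fin K) ℂ := (1 : Matrix (Fin N) (Fin N) ℂ).submatrix id (Fin.castLE h)
    with hE
  have hEA : ∀ A : Matrix (Fin N) (Fin N) ℂ,
      Eᴴ * A * E = A.submatrix (Fin.castLE h) (Fin.castLE h) := fun A => by
    ext a b
    simp [hE, Matrix.mul_apply, Matrix.one_apply]
  have hEE : Eᴴ * E = 1 := by
    have := hEA 1
    rw [Matrix.mul_one, Matrix.submatrix_one _ (Fin.castLE_injective h)] at this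
    exact this
  refine ⟨E * P * Eᴴ, hP.mul_mul_conjTranspose_same E, ?_, ?_, fun A => ?_⟩
  · have hD : E * Eᴴ = diagonal fun i : Fin N => ((if (i : ℕ) < K then 1 else 0 : ℝ) : ℂ) := by
      ext i j
      simp only [hE, Matrix.mul_apply, Matrix.conjTranspose_apply, Matrix.submatrix_apply, id_eq,
        Matrix.one_apply, Matrix.diagonal_apply]
      by_cases hi : (i : ℕ) < K
      · rw [Finset.sum_eq_single (⟨i, hi⟩ : Fin K)]
        · have hci : i = Fin.castLE h ⟨i, hi⟩ := Fin.ext rfl
          rw [if_pos hci, if_pos hi]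
          by_cases hij : i = j
          · subst hij
            rw [if_pos rfl, if_pos hci]; simp
          · rw [if_neg hij, if_neg fun hh => hij (hci.trans hh.symm)]; simp
        · intro a _ ha
          rw [if_neg (show i ≠ Fin.castLE h a from fun hh =>
            ha (Fin.ext (Fin.ext_iff.1 hh).symm)), zero_mul]
        · simp
      · rw [Finset.sum_eq_zero fun a _ => by
          rw [if_neg fun hh => hi ((Fin.ext_iff.1 hh).symm ▸ a.isLt), zero_mul], if_neg hi]
        simp
    have e : (1 : Matrix (Fin N) (Fin N) ℂ) - E * P * Eᴴ = (1 - E * Eᴴ) + E * (1 - P) * Eᴴ := by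
      rw [Matrix.mul_sub, Matrix.sub_mul, Matrix.mul_one]
      abel
    rw [e]
    refine Matrix.PosSemidef.add ?_ (hP1.mul_mul_conjTranspose_same E)
    rw [hD, ← Matrix.diagonal_one, Matrix.diagonal_sub]
    refine Matrix.PosSemidef.diagonal fun i => ?_
    simp only [Pi.zero_apply]
    split_ifs <;> simp
  · rw [Matrix.trace_mul_cycle, hEE, Matrix.one_mul]
  · rw [← hEA, Matrix.mul_assoc, Matrix.mul_assoc, Matrix.trace_mul_comm]
    simp only [Matrix.mul_assoc]

/-- **Loss followed by amplification is Fock-optimal.** -/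
theorem comp_fan {N M : ℕ} {p c : ℝ} (hp : 0 ≤ p) (hp1 : p ≤ 1) (hc : 0 ≤ c) (hc1 : c ≤ 1)
    {X : Matrix (Fin N) (Fin N) ℂ} {Q : Matrix (Fin M) (Fin M) ℂ} (hQ : Q.PosSemidef)
    (hQ1 : (1 - Q).PosSemidef) (hX : X.PosSemidef) (hX1 : (1 - X).PosSemidef) {r k : ℕ}
    (hk : Q.trace.re ≤ k) (hr : X.trace.re ≤ r) :
    (∑ i : Fin N, ∑ i' : Fin N, ∑ m : Fin M, ∑ m' : Fin M,
      X i i' * Q m' m * (compEl p c i i' m m' : ℂ)).re ≤ rect (compK p c) r k := by
  set K := min N M with hK
  have hKN : K ≤ N := min_le_left N M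
  have hKM : K ≤ M := min_le_right N M
  have hc0 : 0 ≤ 1 - c := sub_nonneg.2 hc1
  have hc2 : 1 - c ≤ 1 := sub_le_self 1 hc
  set Y := (lossMap p X).submatrix (Fin.castLE hKN) (Fin.castLE hKN) with hY
  set Z := (lossMap (1 - c) Q).submatrix (Fin.castLE hKM) (Fin.castLE hKM) with hZ
  let F : Matrix (Fin K) (Fin K) ℂ →ₗ[ℝ] ℝ :=
    { toFun := fun W => (1 - c) * (W * Z).trace.re
      map_add' := fun a b => by simp [Matrix.add_mul, Matrix.trace_add, mul_add]
      map_smul' := fun a b => by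
        simp [Matrix.trace_smul]
        ring }
  have hval : (∑ i : Fin N, ∑ i' : Fin N, ∑ m : Fin M, ∑ m' : Fin M,
      X i i' * Q m' m * (compEl p c i i' m m' : ℂ)).re = F Y := by
    have hcomp : ∀ (i i' : Fin N) (m m' : Fin M), compEl p c i i' m m'
        = ∑ l : Fin K, ∑ l' : Fin K,
          lossEl p i i' l l' * ((1 - c) * lossEl (1 - c) m m' l l') := by
      intro i i' m m'
      unfold compEl
      rw [Fin.sum_univ_eq_sum_range (fun l : ℕ => ∑ l' : Fin K,
        lossEl p i i' l l' * ((1 - c) * lossEl (1 - c) m m' l l')) K]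
      simp only [fun l : ℕ => Fin.sum_univ_eq_sum_range (fun l' : ℕ =>
        lossEl p i i' l l' * ((1 - c) * lossEl (1 - c) m m' l l')) K]
      have hi := i.isLt
      have hi' := i'.isLt
      have hm := m.isLt
      have hm' := m'.isLt
      refine (sum_range_eq_of_zero (fun l hl => ?_) (fun l hl => ?_)).trans
        (Finset.sum_congr rfl fun l _ => sum_range_eq_of_zero (fun l' hl => ?_) fun l' hl => ?_)
      · simp [lossEl_eq_zero_of_lt p (i := i) (i' := i') (m := l) (Or.inl hl)]
      · refine Finset.sum_eq_zero fun l' _ => ?_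
        rcases le_total N M with h | h
        · simp [lossEl_eq_zero_of_lt p (i := i) (i' := i') (m := l) (m' := l') (Or.inl (by omega))]
        · simp [lossEl_eq_zero_of_lt (1 - c) (i := m) (i' := m') (m := l) (m' := l') (Or.inl (by omega))]
      · simp [lossEl_eq_zero_of_lt p (i := i) (i' := i') (m := l) (m' := l') (Or.inr hl)]
      · rcases le_total N M with h | h
        · simp [lossEl_eq_zero_of_lt p (i := i) (i' := i') (m := l) (m' := l') (Or.inr (by omega))]
        · simp [lossEl_eq_zero_of_lt (1 - c) (i := m) (i' := m') (m := l) (m' := l') (Or.inr (by omega))]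
    show _ = (1 - c) * (Y * Z).trace.re
    rw [← Complex.re_ofReal_mul]
    congr 1
    have comm4 : ∀ {α β γ δ : Type} [Fintype α] [Fintype β] [Fintype γ] [Fintype δ]
        (g : α → β → γ → δ → ℂ), ∑ a, ∑ b, ∑ l, ∑ l', g a b l l' = ∑ l, ∑ l', ∑ a, ∑ b, g a b l l' := by
      intro α β γ δ _ _ _ _ g
      refine (Finset.sum_congr rfl fun a _ =>
        Finset.sum_comm.trans (Finset.sum_congr rfl fun l _ => Finset.sum_comm)).trans ?_
      exact Finset.sum_comm.trans (Finset.sum_congr rfl fun l _ => Finset.sum_comm)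
    have hterm : ((1 - c : ℝ) : ℂ) * (Y * Z).trace = ∑ l : Fin K, ∑ l' : Fin K, ∑ i : Fin N,
        ∑ i' : Fin N, ∑ m : Fin M, ∑ m' : Fin M, X i i' * Q m' m *
          ((lossEl p i i' l l' * ((1 - c) * lossEl (1 - c) m m' l l') : ℝ) : ℂ) := by
      simp only [Matrix.trace, Matrix.diag_apply, Matrix.mul_apply, hY, hZ,
        Matrix.submatrix_apply, lossMap, Fin.val_castLE, Finset.mul_sum, Finset.sum_mul]
      refine Finset.sum_congr rfl fun l _ => Finset.sum_congr rfl fun l' _ => ?_
      refine (comm4 _).trans (Finset.sum_congr rfl fun i _ => Finset.sum_congr rfl fun i' _ =>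
        Finset.sum_comm.trans (Finset.sum_congr rfl fun m _ => Finset.sum_congr rfl fun m' _ => ?_))
      rw [lossEl_swap (1 - c) m m' l l']
      push_cast
      ring
    rw [hterm]
    simp only [hcomp, Complex.ofReal_sum, Finset.mul_sum]
    refine (Finset.sum_congr rfl fun i _ => Finset.sum_congr rfl fun i' _ => comm4 _).trans ?_
    exact comm4 _
  rw [hval]
  refine (psd_pair_le F ((lossMap_posSemidef p hX).submatrix _)
    (u' := fun l => ∑ i ∈ range r, lossK p i l) (v' := fun l => ∑ m ∈ range k, ampK c l m)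
    (amp_prefix_antitone hc hc1 k)
    (fun l => Finset.sum_nonneg fun m _ => ampK_nonneg hc hc1 l m) ?_ ?_).trans ?_
  · intro P hP hP1 j hj
    obtain ⟨P', h1, h2, h3, h4⟩ := exists_pad hKN hP hP1
    rw [← h4]
    refine (loss_fan hp hp1 h1 h2 hX hX1 (k := j) (by rw [h3, hj]) hr).trans_eq ?_
    rw [rect, Finset.sum_comm]
  · intro P hP hP1 j hj
    obtain ⟨P', h1, h2, h3, h4⟩ := exists_pad hKM hP hP1
    show (1 - c) * (P * Z).trace.re ≤ _
    rw [hZ, ← h4]
    refine (mul_le_mul_of_nonneg_left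
      (loss_fan hc0 hc2 h1 h2 hQ hQ1 (k := j) (by rw [h3, hj]) hk) hc0).trans_eq ?_
    simp only [rect, Finset.mul_sum, ampK_eq_lossK]
    rw [Finset.sum_comm]
  · simp only [rect, Finset.sum_mul_sum]
    rw [Finset.sum_comm]
    refine Finset.sum_le_sum fun i _ => ?_
    rw [Finset.sum_comm]
    refine Finset.sum_le_sum fun m _ => ?_
    rw [compK_eq i m (show i < K + (i + 1) by omega)]
    exact Finset.sum_le_sum_of_subset_of_nonneg (Finset.range_subset_range.2 (Nat.le_add_right K _))
      fun l _ _ => mul_nonneg (lossK_nonneg hp hp1 i l) (ampK_nonneg hc hc1 l m)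

end Vale.Agent.P369
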