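import Vale.Agent.P369.Limit
import Vale.Agent.P369.QLoss
import Vale.Agent.P369.QKernel
import Vale.Agent.P369.QEntropy

/-! One-mode EPnI for an arbitrary first input and a mixture of thermal states. -/

open Finset Matrix
open scoped ComplexOrder

noncomputable section

namespace Vale.Agent.P369

variable {N : ℕ} {ι : Type*} {s : Finset ι} {μ zz : ι → ℝ} {η : ℝ}

lemma geo_nonneg' {z : ℝ} (hz : 0 ≤ z) (hz1 : z < 1) (l : ℕ) : 0 ≤ geo z l :=
  mul_nonneg (by linarith) (pow_nonneg hz l)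

lemma passiveInf_geo_mix (hz : ∀ t ∈ s, 0 ≤ zz t ∧ zz t < 1) (hμ : ∀ t ∈ s, 0 ≤ μ t)
    (hμ1 : ∑ t ∈ s, μ t = 1) {q : ℕ → ℝ} (hq : ∀ l, q l = ∑ t ∈ s, μ t * geo (zz t) l) :
    PassiveInf q where
  nonneg l := by
    rw [hq]
    exact Finset.sum_nonneg fun t ht => mul_nonneg (hμ t ht) (geo_nonneg' (hz t ht).1 (hz t ht).2 l)
  anti l := by
    rw [hq, hq]
    refine Finset.sum_le_sum fun t ht => mul_le_mul_of_nonneg_left ?_ (hμ t ht)
    exact mul_le_mul_of_nonneg_left (pow_le_pow_of_le_one (hz t ht).1 (hz t ht).2.le (Nat.le_succ l))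
      (by linarith [(hz t ht).2])
  total := by
    have h := hasSum_sum (s := s) fun t ht => ((hasSum_geometric_of_lt_one (hz t ht).1
      (hz t ht).2).mul_left (1 - zz t)).mul_left (μ t)
    have e : ∑ t ∈ s, μ t * ((1 - zz t) * (1 - zz t)⁻¹) = 1 := by
      rw [← hμ1]
      refine Finset.sum_congr rfl fun t ht => ?_
      rw [mul_inv_cancel₀ (by linarith [(hz t ht).2]), mul_one]
    rw [e] at h
    exact h.congr_fun fun l => hq l
  mean := by
    have h := summable_sum (s := s) fun t ht => ((summable_pow_mul_geometric_of_norm_lt_one 1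
      (R := ℝ) (r := zz t) (by rw [Real.norm_of_nonneg (hz t ht).1]; exact (hz t ht).2)).mul_left
        (1 - zz t)).mul_left (μ t)
    refine h.congr fun l => ?_
    rw [hq, Finset.mul_sum]
    exact Finset.sum_congr rfl fun t _ => by simp only [geo, pow_one]; ring

lemma envEl_mix (h0 : 0 ≤ η) (h1 : η ≤ 1) (hz : ∀ t ∈ s, 0 ≤ zz t ∧ zz t < 1) {q : ℕ → ℝ}
    (hq : ∀ l, q l = ∑ t ∈ s, μ t * geo (zz t) l) (i i' m m' : ℕ) :
    envEl η q i i' m m'
      = ∑ t ∈ s, μ t * compEl (etaLoss η (zz t)) (cAmp η (zz t)) i i' m m' := by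
  have h := hasSum_sum (s := s) fun t ht =>
    ((envEl_geo_summable h0 h1 (hz t ht).1 (hz t ht).2 i i' m m').hasSum).mul_left (μ t)
  calc envEl η q i i' m m'
      = ∑ t ∈ s, μ t * envEl η (geo (zz t)) i i' m m' := by
        refine (h.congr_fun fun le => ?_).tsum_eq
        rw [hq, Finset.sum_mul]
        exact Finset.sum_congr rfl fun t _ => by ring
    _ = _ := Finset.sum_congr rfl fun t ht => by rw [envEl_geo h0 h1 (hz t ht).1 (hz t ht).2]

/-- A linear functional bounded by a concave `B` on the matrix intervals is bounded on a positive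
matrix by the pairing of its sorted spectrum with the increments of `B`. -/
lemma layer_le (F : Matrix (Fin N) (Fin N) ℂ →ₗ[ℝ] ℝ) {X : Matrix (Fin N) (Fin N) ℂ}
    (hX : X.PosSemidef) {P v' : ℕ → ℝ} (σ : Equiv.Perm (Fin N))
    (hσ : ∀ i : Fin N, P i = hX.isHermitian.eigenvalues (σ i)) (hP : Antitone P)
    (hv : Antitone v') (hv0 : ∀ k, 0 ≤ v' k)
    (hF : ∀ W : Matrix (Fin N) (Fin N) ℂ, W.PosSemidef → (1 - W).PosSemidef →
      ∀ r : ℕ, W.trace.re = r → F W ≤ ∑ k ∈ range r, v' k) :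
    F X ≤ ∑ k ∈ range N, P k * v' k := by
  set U : Matrix (Fin N) (Fin N) ℂ := (hX.1.eigenvectorUnitary : Matrix (Fin N) (Fin N) ℂ) with hUd
  have hUU : Uᴴ * U = 1 := Unitary.coe_star_mul_self hX.1.eigenvectorUnitary
  have hUU' : U * Uᴴ = 1 := Unitary.coe_mul_star_self hX.1.eigenvectorUnitary
  set ev := hX.1.eigenvalues with hev
  let W : (Fin N → ℝ) →ₗ[ℝ] Matrix (Fin N) (Fin N) ℂ :=
    { toFun := fun w => U * diagonal (fun i => (w i : ℂ)) * Uᴴ
      map_add' := fun a b => by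
        rw [← Matrix.add_mul, ← Matrix.mul_add, Matrix.diagonal_add]
        simp
      map_smul' := fun c a => by
        simp only [RingHom.id_apply]
        rw [← Matrix.smul_mul, ← Matrix.mul_smul, ← Matrix.diagonal_smul]
        congr 2
        ext i j
        simp [Matrix.diagonal_apply, Complex.real_smul] }
  have hW : ∀ w, W w = U * diagonal (fun i => (w i : ℂ)) * Uᴴ := fun _ => rfl
  have hX' : X = W ev := by
    have := hX.1.spectral_theorem
    rw [Unitary.conjStarAlgAut_apply] at this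
    exact this
  have hpsd : ∀ w : Fin N → ℝ, (∀ i, 0 ≤ w i) → (W w).PosSemidef := fun w hw => by
    rw [hW]
    exact (Matrix.PosSemidef.diagonal fun i => Complex.zero_le_real.2 (hw i)).mul_mul_conjTranspose_same U
  have hone : W 1 = 1 := by
    rw [hW]
    simp [hUU']
  have htr : ∀ w, (W w).trace.re = ∑ i, w i := fun w => by
    rw [hW, Matrix.trace_mul_cycle, hUU, Matrix.one_mul, Matrix.trace_diagonal, Complex.re_sum]
    simp
  set u : ℕ → ℝ := fun k => if h : k < N then ev ⟨k, h⟩ else 0 with hu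
  set v : ℕ → ℝ := fun k => if h : k < N then F (W (Pi.single ⟨k, h⟩ 1)) else 0 with hv'
  have hlin : ∀ w : Fin N → ℝ, F (W w) = ∑ i, w i * v i := fun w => by
    have e : w = ∑ i, w i • (Pi.single i 1 : Fin N → ℝ) := by
      ext j
      simp [Finset.sum_apply, Pi.single_apply]
    conv_lhs => rw [e]
    simp only [map_sum, map_smul, smul_eq_mul, hv', Fin.is_lt, dite_true, Fin.eta]
  have hmain : F X = ∑ k ∈ range N, u k * v k := by
    rw [hX', hlin, ← Fin.sum_univ_eq_sum_range (fun k => u k * v k)]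
    simp [hu]
  rw [hmain]
  refine sum_mul_le_majorant (fun k hk => ?_) hv hv0 (fun S hS => ?_) fun S hS => ?_
  · simp only [hu, dif_pos hk]
    exact hX.eigenvalues_nonneg _
  · exact sum_le_rearr σ (fun i => by simp only [hu, Fin.is_lt, dite_true, Fin.eta]; exact hσ i) hP hS
  · set w : Fin N → ℝ := fun i => if (i : ℕ) ∈ S then 1 else 0 with hw
    have hsum : ∀ g : ℕ → ℝ, ∑ i : Fin N, w i * g i = ∑ k ∈ S, g k := fun g => by
      simp only [hw, ite_mul, one_mul, zero_mul]
      rw [Fin.sum_univ_eq_sum_range (fun k => if k ∈ S then g k else 0), Finset.sum_ite_mem,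
        Finset.inter_eq_right.2 hS]
    have h0 : ∀ i, 0 ≤ w i := fun i => by simp only [hw]; split_ifs <;> norm_num
    have h1 : ∀ i, 0 ≤ (1 - w) i := fun i => by
      simp only [hw, Pi.sub_apply, Pi.one_apply]; split_ifs <;> norm_num
    have hW1 : (1 - W w).PosSemidef := by
      rw [← hone, ← map_sub]; exact hpsd _ h1
    have hT : (W w).trace.re = S.card := by
      rw [htr]; simpa using hsum fun _ => 1
    have := hF _ (hpsd _ h0) hW1 _ hT
    rw [hlin] at this
    rwa [← hsum v]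

/-- The pairing of a matrix with a kernel, as a linear functional. -/
def kerPair {M : ℕ} (E : ℕ → ℕ → ℕ → ℕ → ℝ) (Q : Matrix (Fin M) (Fin M) ℂ) :
    Matrix (Fin N) (Fin N) ℂ →ₗ[ℝ] ℝ where
  toFun W := (∑ i : Fin N, ∑ i' : Fin N, ∑ m : Fin M, ∑ m' : Fin M,
    W i i' * Q m' m * (E i i' m m' : ℂ)).re
  map_add' W W' := by
    simp only [Matrix.add_apply, add_mul, Finset.sum_add_distrib, Complex.add_re]
  map_smul' a W := by
    simp only [Matrix.smul_apply, RingHom.id_apply, smul_eq_mul, Complex.real_smul, mul_assoc,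
      ← Finset.mul_sum, Complex.re_ofReal_mul]

lemma env_pair_le (h0 : 0 ≤ η) (h1 : η ≤ 1) (hz : ∀ t ∈ s, 0 ≤ zz t ∧ zz t < 1)
    (hμ : ∀ t ∈ s, 0 ≤ μ t) {q : ℕ → ℝ} (hq : ∀ l, q l = ∑ t ∈ s, μ t * geo (zz t) l)
    {X : Matrix (Fin N) (Fin N) ℂ} (hX : X.PosSemidef) {P : ℕ → ℝ} (σ : Equiv.Perm (Fin N))
    (hσ : ∀ i : Fin N, P i = hX.isHermitian.eigenvalues (σ i)) (hP : Antitone P)
    {M : ℕ} {Q : Matrix (Fin M) (Fin M) ℂ} (hQ : Q.PosSemidef) (hQ1 : (1 - Q).PosSemidef)
    {k : ℕ} (hk : Q.trace.re ≤ k) :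
    (∑ i : Fin N, ∑ i' : Fin N, ∑ m : Fin M, ∑ m' : Fin M,
        X i i' * Q m' m * (envEl η q i i' m m' : ℂ)).re
      ≤ ∑ m ∈ range k, mixOut s μ zz η N P m := by
  have hone : ∀ t ∈ s,
      kerPair (compEl (etaLoss η (zz t)) (cAmp η (zz t))) Q X
        ≤ ∑ i ∈ range N, P i * ∑ m ∈ range k, compK (etaLoss η (zz t)) (cAmp η (zz t)) i m := by
    intro t ht
    have hp0 := etaLoss_nonneg h0 h1 (hz t ht).1 (hz t ht).2
    have hp1 := etaLoss_le_one h1 (hz t ht).1 (hz t ht).2
    have hc0 := cAmp_nonneg h1 (hz t ht).1 (hz t ht).2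
    have hc1 := cAmp_lt_one h1 (hz t ht).1 (hz t ht).2
    exact layer_le (kerPair (compEl (etaLoss η (zz t)) (cAmp η (zz t))) Q) hX σ hσ hP
      (compK_prefix_antitone hp0 hp1 hc0 hc1.le k)
      (fun i => Finset.sum_nonneg fun m _ => compK_nonneg hp0 hp1 hc0 hc1.le i m)
      fun W hW hW1 r hr => comp_fan hp0 hp1 hc0 hc1.le hQ hQ1 hW hW1 hk hr.le
  have e1 : (∑ i : Fin N, ∑ i' : Fin N, ∑ m : Fin M, ∑ m' : Fin M,
        X i i' * Q m' m * (envEl η q i i' m m' : ℂ)).re
      = ∑ t ∈ s, μ t * kerPair (compEl (etaLoss η (zz t)) (cAmp η (zz t))) Q X := by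
    simp only [envEl_mix h0 h1 hz hq, kerPair, LinearMap.coe_mk, AddHom.coe_mk,
      ← Complex.re_ofReal_mul, ← Complex.re_sum, Complex.ofReal_sum, Complex.ofReal_mul,
      Finset.mul_sum]
    congr 1
    rw [Finset.sum_comm (s := s)]
    refine Finset.sum_congr rfl fun i _ => ?_
    rw [Finset.sum_comm (s := s)]
    refine Finset.sum_congr rfl fun i' _ => ?_
    rw [Finset.sum_comm (s := s)]
    refine Finset.sum_congr rfl fun m _ => ?_
    rw [Finset.sum_comm (s := s)]
    exact Finset.sum_congr rfl fun m' _ => Finset.sum_congr rfl fun t _ => by ring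
  rw [e1]
  refine (Finset.sum_le_sum fun t ht => mul_le_mul_of_nonneg_left (hone t ht) (hμ t ht)).trans_eq ?_
  simp only [mixOut, Finset.mul_sum]
  rw [Finset.sum_comm, Finset.sum_comm (s := range k)]
  refine Finset.sum_congr rfl fun i _ => ?_
  rw [Finset.sum_comm]
  exact Finset.sum_congr rfl fun m _ => Finset.sum_congr rfl fun t _ => by ring

/-- **EPnI for an arbitrary one-mode first input and a mixture of thermal states.** -/
theorem epni_arbitrary {N : ℕ} {ι : Type*} {s : Finset ι} {μ zz : ι → ℝ} {η : ℝ}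
    (h0 : 0 ≤ η) (h1 : η ≤ 1) (hz : ∀ t ∈ s, 0 ≤ zz t ∧ zz t < 1) (hμ : ∀ t ∈ s, 0 ≤ μ t)
    (hμ1 : ∑ t ∈ s, μ t = 1) {q : ℕ → ℝ} (hq : ∀ l, q l = ∑ t ∈ s, μ t * geo (zz t) l)
    (X : Matrix (Fin N) (Fin N) ℂ) (hX : X.PosSemidef) (hX1 : X.trace = 1)
    (e : HilbertBasis ℕ ℂ (lp (fun _ : ℕ => ℂ) 2))
    (hs : Summable fun k => Real.negMulLog (outForm η q X (e k))) :
    η * ginv (∑ i, Real.negMulLog (hX.isHermitian.eigenvalues i)) + (1 - η) * ginv (entInf q)
      ≤ ginv (∑' k, Real.negMulLog (outForm η q X (e k))) := by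
  set ev := hX.isHermitian.eigenvalues with hev
  set a : ℕ → ℝ := fun k => if h : k < N then ev ⟨k, h⟩ else 0 with ha
  have hav : ∀ i : Fin N, a i = ev i := fun i => by simp [ha]
  have ha0 : ∀ k, 0 ≤ a k := fun k => by
    simp only [ha]; split
    · exact hX.eigenvalues_nonneg _
    · exact le_rfl
  have htrace : X.trace.re = 1 := by rw [hX1, Complex.one_re]
  have ha1 : ∑ k ∈ range N, a k = 1 := by
    have h := hX.isHermitian.trace_eq_sum_eigenvalues
    rw [hX1] at h
    have h2 := congrArg Complex.re h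
    simp [Complex.re_sum] at h2
    rw [← Fin.sum_univ_eq_sum_range, h2]
    exact Finset.sum_congr rfl fun i _ => hav i
  obtain ⟨σ, P, hP, hσ, hent⟩ := exists_passive_rearr (N := N) (a := a) ha0 ha1
  have hσ' : ∀ i : Fin N, P i = ev (σ i) := fun i => by rw [hσ i, hav]
  have hentA : ∑ i, Real.negMulLog (ev i) = ent N P := by
    rw [hent, ent, ← Fin.sum_univ_eq_sum_range (fun k => Real.negMulLog (a k))]
    simp only [hav]
  have hPI : PassiveInf P :=
    ⟨hP.nonneg, hP.anti, by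
      rw [← hP.total]
      exact hasSum_sum_of_ne_finset_zero fun k hk => hP.supp k (by simpa using hk), by
      exact summable_of_ne_finset_zero (s := range N) fun k hk => by
        rw [hP.supp k (by simpa using hk), mul_zero]⟩
  have hentP : entInf P = ent N P :=
    tsum_eq_sum fun k hk => by rw [hP.supp k (by simpa using hk), Real.negMulLog_zero]
  have hqP := passiveInf_geo_mix hz hμ hμ1 hq
  obtain ⟨hDsum, hDent, -, -, -⟩ := epni_passive_inf hPI hqP h0 h1
  have hD : ∀ m, pCinf η P q m = mixOut s μ zz η N P m := fun m =>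
    tsum_pair_mix h0 h1 (fun t ht => (hz t ht).1) (fun t ht => (hz t ht).2) hq hP.supp m
  have hC0 : ∀ k, 0 ≤ outForm η q X (e k) := fun k => outForm_nonneg hqP.nonneg hX _
  have hC : HasSum (fun k => outForm η q X (e k)) 1 := by
    have := hasSum_outForm_basis h0 h1 hqP.nonneg hqP.total hX e
    rwa [htrace] at this
  have hmaj : ∀ K : Finset ℕ,
      ∑ k ∈ K, outForm η q X (e k) ≤ ∑ m ∈ range K.card, pCinf η P q m := by
    intro K
    simp only [hD]
    exact outForm_sets (K := K) e.orthonormal h0 h1 hqP.nonneg hqP.total hX fun L Q hQ hQ1 hk =>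
      env_pair_le h0 h1 hz hμ hq hX σ hσ' hP.antitone hQ hQ1 hk
  have hle := entropy_le_of_majorized' hC0 (fun m => pCinf_nonneg hPI hqP m) hC hDsum hs hDent hmaj
  have hbase := epn_passive_inf hPI hqP h0 h1
  rw [hentP, ← hentA] at hbase
  refine hbase.trans ?_
  have hDn : 0 ≤ entInf (pCinf η P q) := tsum_nonneg fun m => Real.negMulLog_nonneg
    (pCinf_nonneg hPI hqP m) (le_hasSum hDsum m fun j _ => pCinf_nonneg hPI hqP j)
  have hle' : entInf (pCinf η P q) ≤ ∑' k, Real.negMulLog (outForm η q X (e k)) := hle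
  have hC2 : 0 ≤ ∑' k, Real.negMulLog (outForm η q X (e k)) := hDn.trans hle'
  by_contra hcon
  push Not at hcon
  have h2 := strictMonoOn_gFun (ginv_nonneg hC2) (ginv_nonneg hDn) hcon
  rw [gFun_ginv hDn, gFun_ginv hC2] at h2
  exact absurd h2 (not_lt.2 hle')

end Vale.Agent.P369
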