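import Vale.Agent.P369.Arbitrary

/-! One-mode EPnI for every first input with finite mean photon number, given by a spectral
decomposition, and a mixture of thermal states. -/

open Finset Matrix Filter Topology
open scoped ComplexOrder

noncomputable section

namespace Vale.Agent.P369

variable {ι : Type*} {s : Finset ι} {μ zz : ι → ℝ} {η : ℝ} {q lam : ℕ → ℝ}
  {u : ℕ → lp (fun _ : ℕ => ℂ) 2}

/-- The vector `m ↦ ⟨m, d| U_η |u, l⟩`. -/
def kvec (η : ℝ) (u : ℕ → ℂ) (l d m : ℕ) : ℂ := ∑' i : ℕ, u i * (bsMat η m d i l : ℂ)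

/-- The amplitude `⟨v, d| U_η |u, l⟩`. -/
def kamp (η : ℝ) (u v : ℕ → ℂ) (l d : ℕ) : ℂ := ∑' m : ℕ, (starRingEnd ℂ) (v m) * kvec η u l d m

/-- `⟨v| tr_b U_η (ρ ⊗ ∑ q_l |l⟩⟨l|) U_η† |v⟩` for `ρ = ∑ lam_j |u_j⟩⟨u_j|`. -/
def outFormInf (η : ℝ) (q lam : ℕ → ℝ) (u : ℕ → ℕ → ℂ) (v : ℕ → ℂ) : ℝ :=
  ∑' x : ℕ × ℕ × ℕ, lam x.1 * q x.2.1 * ‖kamp η (u x.1) v x.2.1 x.2.2‖ ^ 2

lemma kvec_eq (η : ℝ) (u : ℕ → ℂ) (l d m : ℕ) :
    kvec η u l d m = u (m + d - l) * (bsMat η m d (m + d - l) l : ℂ) :=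
  tsum_eq_single _ fun i hi => by
    rw [bsMat, if_neg (by omega)]; simp

lemma hasSum_shift {E : Type*} [AddCommGroup E] [TopologicalSpace E] [IsTopologicalAddGroup E]
    {F G : ℕ → E} {a : E} (l d : ℕ) (hG : ∀ m, G m = if l ≤ m + d then F (m + d - l) else 0)
    (hF : ∀ i, i + l < d → F i = 0) : HasSum G a ↔ HasSum F a := by
  rcases le_or_gt l d with h | h
  · have e : G = fun m => F (m + (d - l)) := funext fun m => by
      rw [hG, if_pos (by omega), show m + d - l = m + (d - l) by omega]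
    rw [e, hasSum_nat_add_iff, Finset.sum_eq_zero fun i hi => hF i (by
      rw [Finset.mem_range] at hi; omega), add_zero]
  · have e : F = fun i => G (i + (l - d)) := funext fun i => by
      rw [hG, if_pos (by omega), show i + (l - d) + d - l = i by omega]
    rw [e, hasSum_nat_add_iff, Finset.sum_eq_zero fun m hm => by
      rw [Finset.mem_range] at hm
      rw [hG, if_neg (by omega)], add_zero]

lemma bsMat_sq_le (h0 : 0 ≤ η) (h1 : η ≤ 1) (m d i l : ℕ) : bsMat η m d i l ^ 2 ≤ 1 := by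
  unfold bsMat; split_ifs
  · exact bsProb_le_one h0 h1 i l m
  · norm_num

lemma bsMat_low (η : ℝ) {m d i l : ℕ} (h : m + d < l) : bsMat η m d i l = 0 := if_neg (by omega)

lemma hasSum_norm_sq (w : lp (fun _ : ℕ => ℂ) 2) :
    HasSum (fun m => ‖w m‖ ^ 2) (‖w‖ ^ 2) := by
  have h := lp.hasSum_norm (p := 2) (by norm_num) w
  simpa [ENNReal.toReal_ofNat, Real.rpow_two] using h

lemma hasSum_kvec_sq (h0 : 0 ≤ η) (h1 : η ≤ 1) (w : lp (fun _ : ℕ => ℂ) 2) (l d : ℕ) :
    HasSum (fun m => ‖kvec η w l d m‖ ^ 2)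
      (∑' i : ℕ, ‖w i‖ ^ 2 * bsMat η (i + l - d) d i l ^ 2) := by
  have hsum : Summable fun i : ℕ => ‖w i‖ ^ 2 * bsMat η (i + l - d) d i l ^ 2 :=
    (hasSum_norm_sq w).summable.of_nonneg_of_le (fun i => by positivity)
      fun i => mul_le_of_le_one_right (sq_nonneg _) (bsMat_sq_le h0 h1 _ _ _ _)
  refine (hasSum_shift l d (fun m => ?_) fun i hi => ?_).2 hsum.hasSum
  · rw [kvec_eq, norm_mul, Complex.norm_real, mul_pow, Real.norm_eq_abs, sq_abs]
    split_ifs with h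
    · rw [show m + d - l + l - d = m by omega]
    · rw [bsMat_low η (by omega)]; ring
  · rw [bsMat, if_neg (by omega)]; ring

/-- `kvec` as a vector of `ℓ²`. -/
def kvecLp (h0 : 0 ≤ η) (h1 : η ≤ 1) (w : lp (fun _ : ℕ => ℂ) 2) (l d : ℕ) :
    lp (fun _ : ℕ => ℂ) 2 :=
  ⟨kvec η w l d, memℓp_gen (by
    simpa [ENNReal.toReal_ofNat, Real.rpow_two] using (hasSum_kvec_sq h0 h1 w l d).summable)⟩

lemma kvecLp_coe (h0 : 0 ≤ η) (h1 : η ≤ 1) (w : lp (fun _ : ℕ => ℂ) 2) (l d : ℕ) :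
    ⇑(kvecLp h0 h1 w l d) = kvec η w l d := rfl

lemma kamp_eq_inner (h0 : 0 ≤ η) (h1 : η ≤ 1) (w v : lp (fun _ : ℕ => ℂ) 2) (l d : ℕ) :
    HasSum (fun m => (starRingEnd ℂ) (v m) * kvec η w l d m) (inner ℂ v (kvecLp h0 h1 w l d))
      ∧ kamp η w v l d = inner ℂ v (kvecLp h0 h1 w l d) := by
  have h : HasSum (fun m => (starRingEnd ℂ) (v m) * kvec η w l d m)
      (inner ℂ v (kvecLp h0 h1 w l d)) := by
    refine (lp.hasSum_inner v (kvecLp h0 h1 w l d)).congr_fun fun m => ?_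
    simp [kvecLp_coe, RCLike.inner_apply, mul_comm]
  exact ⟨h, h.tsum_eq⟩

/-- Truncating the input vector. -/
lemma tendsto_kamp (h0 : 0 ≤ η) (h1 : η ≤ 1) (w v : lp (fun _ : ℕ => ℂ) 2) (l d : ℕ) :
    Tendsto (fun N => ∑ i : Fin N, w i * envAmp η v i l d) atTop (𝓝 (kamp η w v l d)) := by
  obtain ⟨h, e⟩ := kamp_eq_inner h0 h1 w v l d
  rw [e]
  have h2 : HasSum (fun i : ℕ => w i * envAmp η v i l d) (inner ℂ v (kvecLp h0 h1 w l d)) := by
    refine (hasSum_shift l d (fun m => ?_) fun i hi => ?_).1 h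
    · rw [kvec_eq, envAmp_eq]
      split_ifs with hm
      · rw [show m + d - l + l - d = m by omega]; ring
      · rw [bsMat_low η (by omega)]; simp
    · rw [envAmp_eq, bsMat, if_neg (by omega)]; simp
  simpa [Fin.sum_univ_eq_sum_range (fun i => w i * envAmp η v i l d)] using h2.tendsto_sum_nat

/-- The truncated first input. -/
def cutX (lam : ℕ → ℝ) (u : ℕ → lp (fun _ : ℕ => ℂ) 2) (R N : ℕ) : Matrix (Fin N) (Fin N) ℂ :=
  ∑ j ∈ range R, (lam j : ℂ) • gramQ {j} u N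

lemma cutX_posSemidef (hl0 : ∀ j, 0 ≤ lam j) (R N : ℕ) : (cutX lam u R N).PosSemidef :=
  Matrix.posSemidef_sum _ fun j _ => gramQ_posSemidef.smul (Complex.zero_le_real.2 (hl0 j))

lemma gramQ_range_sum (u : ℕ → lp (fun _ : ℕ => ℂ) 2) (r N : ℕ) :
    ∑ j ∈ range r, gramQ {j} u N = gramQ (range r) u N := by
  ext a b
  simp [Matrix.sum_apply, gramQ]

lemma envTerm_cutX (v : ℕ → ℂ) (R N : ℕ) (le : ℕ × ℕ) :
    envTerm η q (cutX lam u R N) v le
      = ∑ j ∈ range R, lam j * q le.1 * ‖∑ i : Fin N, u j i * envAmp η v i le.1 le.2‖ ^ 2 := by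
  have e : ∑ i : Fin N, ∑ i' : Fin N, cutX lam u R N i i' * envAmp η v i le.1 le.2 *
      (starRingEnd ℂ) (envAmp η v i' le.1 le.2)
      = ∑ j ∈ range R, (lam j : ℂ) * ((∑ i : Fin N, u j i * envAmp η v i le.1 le.2) *
          (starRingEnd ℂ) (∑ i : Fin N, u j i * envAmp η v i le.1 le.2)) := by
    simp only [cutX, Matrix.sum_apply, Matrix.smul_apply, gramQ, Finset.sum_singleton, smul_eq_mul,
      map_sum, map_mul, Finset.sum_mul, Finset.mul_sum]
    rw [Finset.sum_comm (s := (Finset.univ : Finset (Fin N))) (t := (Finset.univ : Finset (Fin N)))]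
    rw [Finset.sum_comm (s := range R)]
    refine Finset.sum_congr rfl fun i _ => ?_
    rw [Finset.sum_comm]
    exact Finset.sum_congr rfl fun i' _ => Finset.sum_congr rfl fun j _ => by ring
  rw [envTerm, e, Complex.re_sum, Finset.mul_sum]
  refine Finset.sum_congr rfl fun j _ => ?_
  rw [Complex.re_ofReal_mul, Complex.mul_conj, Complex.ofReal_re, Complex.normSq_eq_norm_sq]
  ring

/-- Majorant for the truncated input. -/
lemma cut_pair_le (h0 : 0 ≤ η) (h1 : η ≤ 1) (hz : ∀ t ∈ s, 0 ≤ zz t ∧ zz t < 1)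
    (hμ : ∀ t ∈ s, 0 ≤ μ t) (hq : ∀ l, q l = ∑ t ∈ s, μ t * geo (zz t) l)
    (hl0 : ∀ j, 0 ≤ lam j) (hla : ∀ j, lam (j + 1) ≤ lam j) (hu : Orthonormal ℂ u) (R N : ℕ)
    {M : ℕ} {Q : Matrix (Fin M) (Fin M) ℂ} (hQ : Q.PosSemidef) (hQ1 : (1 - Q).PosSemidef)
    {k : ℕ} (hk : Q.trace.re ≤ k) :
    (∑ i : Fin N, ∑ i' : Fin N, ∑ m : Fin M, ∑ m' : Fin M,
        cutX lam u R N i i' * Q m' m * (envEl η q i i' m m' : ℂ)).re
      ≤ ∑ m ∈ range k, mixOut s μ zz η R lam m := by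
  have hone : ∀ t ∈ s,
      kerPair (compEl (etaLoss η (zz t)) (cAmp η (zz t))) Q (cutX lam u R N)
        ≤ ∑ j ∈ range R, lam j * ∑ m ∈ range k, compK (etaLoss η (zz t)) (cAmp η (zz t)) j m := by
    intro t ht
    set F : Matrix (Fin N) (Fin N) ℂ →ₗ[ℝ] ℝ :=
      kerPair (compEl (etaLoss η (zz t)) (cAmp η (zz t))) Q with hF
    have e : F (cutX lam u R N) = ∑ j ∈ range R, lam j * F (gramQ {j} u N) := by
      have e1 : cutX lam u R N = ∑ j ∈ range R, lam j • gramQ {j} u N := by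
        refine Finset.sum_congr rfl fun j _ => ?_
        ext a b
        simp [Matrix.smul_apply, Complex.real_smul]
      rw [e1, map_sum]
      simp only [map_smul, smul_eq_mul]
    rw [e]
    refine abel_le (fun j _ => hla j) hl0 fun r _ => ?_
    rw [← map_sum, gramQ_range_sum]
    exact comp_fan (etaLoss_nonneg h0 h1 (hz t ht).1 (hz t ht).2)
      (etaLoss_le_one h1 (hz t ht).1 (hz t ht).2) (cAmp_nonneg h1 (hz t ht).1 (hz t ht).2)
      (cAmp_lt_one h1 (hz t ht).1 (hz t ht).2).le hQ hQ1 gramQ_posSemidef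
      (one_sub_gramQ_posSemidef hu) hk ((gramQ_trace_le hu).trans_eq (by simp))
  have e1 : (∑ i : Fin N, ∑ i' : Fin N, ∑ m : Fin M, ∑ m' : Fin M,
        cutX lam u R N i i' * Q m' m * (envEl η q i i' m m' : ℂ)).re
      = ∑ t ∈ s, μ t * kerPair (compEl (etaLoss η (zz t)) (cAmp η (zz t))) Q (cutX lam u R N) := by
    simp only [envEl_mix h0 h1 hz hq, kerPair, LinearMap.coe_mk, AddHom.coe_mk,
      ← Complex.re_ofReal_mul, ← Complex.re_sum, Complex.ofReal_sum, Complex.ofReal_mul,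
      Finset.mul_sum]
    congr 1
    rw [Finset.sum_comm (s := s)]
    refine Finset.sum_congr rfl fun i _ => ?_
    rw [Finset.sum_comm (s := s)]
    refine Finset.sum_congr rfl fun i' _ => ?_
    rw [Finset.sum_comm (s := s)]
    refine Finset.sum_congr rfl fun m _ => ?_
    rw [Finset.sum_comm (s := s)]
    exact Finset.sum_congr rfl fun m' _ => Finset.sum_congr rfl fun t _ => by ring
  rw [e1]
  refine (Finset.sum_le_sum fun t ht => mul_le_mul_of_nonneg_left (hone t ht) (hμ t ht)).trans_eq ?_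
  simp only [mixOut, Finset.mul_sum]
  rw [Finset.sum_comm, Finset.sum_comm (s := range k)]
  refine Finset.sum_congr rfl fun i _ => ?_
  rw [Finset.sum_comm]
  exact Finset.sum_congr rfl fun m _ => Finset.sum_congr rfl fun t _ => by ring

lemma mixOut_le_pCinf (h0 : 0 ≤ η) (h1 : η ≤ 1) (hz : ∀ t ∈ s, 0 ≤ zz t ∧ zz t < 1)
    (hq : ∀ l, q l = ∑ t ∈ s, μ t * geo (zz t) l) (hP : PassiveInf lam) (hQ : PassiveInf q)
    (R m : ℕ) : mixOut s μ zz η R lam m ≤ pCinf η lam q m := by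
  set a : ℕ → ℝ := fun j => if j < R then lam j else 0 with ha
  have e : mixOut s μ zz η R lam m = mixOut s μ zz η R a m :=
    Finset.sum_congr rfl fun j hj => by simp [ha, Finset.mem_range.1 hj]
  rw [e, ← tsum_pair_mix h0 h1 (fun t ht => (hz t ht).1) (fun t ht => (hz t ht).2) hq
    (fun j hj => if_neg (by omega)) m]
  have ha1 : ∀ j, 0 ≤ a j ∧ a j ≤ lam j := fun j => by
    simp only [ha]; split_ifs
    · exact ⟨hP.nonneg j, le_rfl⟩
    · exact ⟨le_rfl, hP.nonneg j⟩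
  have hle : ∀ ij : ℕ × ℕ, a ij.1 * q ij.2 * bsProb η ij.1 ij.2 m
      ≤ lam ij.1 * q ij.2 * bsProb η ij.1 ij.2 m := fun ij =>
    mul_le_mul_of_nonneg_right (mul_le_mul_of_nonneg_right (ha1 _).2 (hQ.nonneg _))
      (bsProb_nonneg _ _ _ _)
  exact Summable.tsum_le_tsum hle ((summable_pCinf hP hQ h0 h1 m).of_nonneg_of_le
    (fun ij => mul_nonneg (mul_nonneg (ha1 _).1 (hQ.nonneg _)) (bsProb_nonneg _ _ _ _)) hle)
    (summable_pCinf hP hQ h0 h1 m)

/-- Set sums of the output diagonal are dominated by the passive output. -/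
lemma outFormInf_sets (h0 : 0 ≤ η) (h1 : η ≤ 1) (hz : ∀ t ∈ s, 0 ≤ zz t ∧ zz t < 1)
    (hμ : ∀ t ∈ s, 0 ≤ μ t) (hq : ∀ l, q l = ∑ t ∈ s, μ t * geo (zz t) l) (hP : PassiveInf lam)
    (hQ : PassiveInf q) (hu : Orthonormal ℂ u) {v : ℕ → lp (fun _ : ℕ => ℂ) 2}
    (hv : Orthonormal ℂ v) (K : Finset ℕ) :
    ∑ k ∈ K, outFormInf η q lam (fun j => u j) (v k) ≤ ∑ m ∈ range K.card, pCinf η lam q m := by
  set B := ∑ m ∈ range K.card, pCinf η lam q m
  set G : ℕ → ℕ × ℕ × ℕ → ℝ :=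
    fun k x => lam x.1 * q x.2.1 * ‖kamp η (u x.1) (v k) x.2.1 x.2.2‖ ^ 2 with hG
  have hG0 : ∀ k x, 0 ≤ G k x := fun k x =>
    mul_nonneg (mul_nonneg (hP.nonneg _) (hQ.nonneg _)) (sq_nonneg _)
  have key : ∀ S : Finset (ℕ × ℕ × ℕ), ∑ x ∈ S, ∑ k ∈ K, G k x ≤ B := by
    intro S
    set R := S.sup (fun x => x.1) + 1
    set T := S.image Prod.snd
    have hsub : S ⊆ range R ×ˢ T := fun x hx => Finset.mem_product.2
      ⟨Finset.mem_range.2 (Nat.lt_succ_of_le (Finset.le_sup (f := fun x : ℕ × ℕ × ℕ => x.1) hx)),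
        Finset.mem_image_of_mem _ hx⟩
    refine (Finset.sum_le_sum_of_subset_of_nonneg hsub fun x _ _ =>
      Finset.sum_nonneg fun k _ => hG0 k x).trans ?_
    rw [Finset.sum_comm]
    have hlim : Tendsto (fun N => ∑ k ∈ K, ∑ le ∈ T, envTerm η q (cutX lam u R N) (v k) le) atTop
        (𝓝 (∑ k ∈ K, ∑ x ∈ range R ×ˢ T, G k x)) := by
      refine tendsto_finsetSum _ fun k _ => ?_
      simp only [envTerm_cutX, Finset.sum_product]
      rw [Finset.sum_comm]
      refine tendsto_finsetSum _ fun le _ => tendsto_finsetSum _ fun j _ => ?_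
      exact (((tendsto_kamp h0 h1 (u j) (v k) le.1 le.2).norm).pow 2).const_mul _
    refine le_of_tendsto hlim (Eventually.of_forall fun N => ?_)
    have hX := cutX_posSemidef (u := u) hP.nonneg R N
    have hb : ∀ (L : ℕ) (Q : Matrix (Fin L) (Fin L) ℂ), Q.PosSemidef → (1 - Q).PosSemidef →
        Q.trace.re ≤ K.card → (∑ i : Fin N, ∑ i' : Fin N, ∑ m : Fin L, ∑ m' : Fin L,
          cutX lam u R N i i' * Q m' m * (envEl η q i i' m m' : ℂ)).re ≤ B :=
      fun L Q a b c => (cut_pair_le h0 h1 hz hμ hq hP.nonneg hP.anti hu R N a b c).trans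
        (Finset.sum_le_sum fun m _ => mixOut_le_pCinf h0 h1 hz hq hP hQ R m)
    refine le_trans (Finset.sum_le_sum fun k hk => ?_)
      (outForm_sets (K := K) hv h0 h1 hQ.nonneg hQ.total hX hb)
    have hs : Summable (envTerm η q (cutX lam u R N) (v k)) := by
      refine summable_of_sum_le (envTerm_nonneg hQ.nonneg hX _) (c := B) fun S => ?_
      set L : ℕ := N + S.sup (fun le => le.1) with hL
      refine le_trans (Finset.sum_le_sum fun le _ => Finset.single_le_sum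
        (fun j _ => envTerm_nonneg hQ.nonneg hX (v j) le) hk) (le_trans (le_of_eq ?_)
        ((sum_le_hasSum S (fun le _ => Finset.sum_nonneg fun j _ => envTerm_nonneg hQ.nonneg hX _ _)
          (hasSum_envTerm_cut (K := K) (L := L) (v := v) h0 h1 hQ.nonneg hQ.total.summable
            (cutX lam u R N))).trans
          (hb L _ gramQ_posSemidef (one_sub_gramQ_posSemidef hv) (gramQ_trace_le hv))))
      refine Finset.sum_congr rfl fun le hle => Finset.sum_congr rfl fun j _ => ?_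
      have hlt : ∀ i : Fin N, (i : ℕ) + le.1 - le.2 < L := fun i => by
        have := Finset.le_sup (f := fun le : ℕ × ℕ => le.1) hle
        have := i.isLt
        simp only at *
        omega
      simp only [envTerm, envAmp_eq, hlt, if_true]
    rw [outForm_eq_tsum]
    exact hs.sum_le_tsum T fun le _ => envTerm_nonneg hQ.nonneg hX _ _
  have hsk : ∀ k ∈ K, Summable (G k) := fun k hk =>
    summable_of_sum_le (hG0 k) fun S =>
      le_trans (Finset.sum_le_sum fun x _ => Finset.single_le_sum (fun j _ => hG0 j x) hk) (key S)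
  change ∑ k ∈ K, ∑' x, G k x ≤ B
  rw [← Summable.tsum_finsetSum hsk]
  exact Real.tsum_le_of_sum_le (fun x => Finset.sum_nonneg fun k _ => hG0 k x) key

lemma outFormInf_nonneg (hP : PassiveInf lam) (hQ : PassiveInf q) (w : ℕ → ℕ → ℂ) (v : ℕ → ℂ) :
    0 ≤ outFormInf η q lam w v :=
  tsum_nonneg fun _ => mul_nonneg (mul_nonneg (hP.nonneg _) (hQ.nonneg _)) (sq_nonneg _)

/-- The output diagonal in any Hilbert basis is a probability distribution. -/
theorem hasSum_outFormInf (h0 : 0 ≤ η) (h1 : η ≤ 1) (hP : PassiveInf lam) (hQ : PassiveInf q)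
    (hu : Orthonormal ℂ u) (e : HilbertBasis ℕ ℂ (lp (fun _ : ℕ => ℂ) 2)) :
    HasSum (fun k => outFormInf η q lam (fun j => u j) (e k)) 1 := by
  set g : ℕ × ℕ × ℕ → ℝ := fun x => lam x.1 * q x.2.1 *
    ∑' i : ℕ, ‖u x.1 i‖ ^ 2 * bsMat η (i + x.2.1 - x.2.2) x.2.2 i x.2.1 ^ 2 with hg
  set G : (ℕ × ℕ × ℕ) × ℕ → ℝ := fun x =>
    lam x.1.1 * q x.1.2.1 * ‖kamp η (u x.1.1) (e x.2) x.1.2.1 x.1.2.2‖ ^ 2 with hG
  have hfib : ∀ x : ℕ × ℕ × ℕ, HasSum (fun k => G (x, k)) (g x) := by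
    intro x
    set z := kvecLp h0 h1 (u x.1) x.2.1 x.2.2 with hz
    have hn : ‖z‖ ^ 2 = ∑' i : ℕ, ‖u x.1 i‖ ^ 2 * bsMat η (i + x.2.1 - x.2.2) x.2.2 i x.2.1 ^ 2 :=
      (hasSum_norm_sq z).unique (hasSum_kvec_sq h0 h1 (u x.1) x.2.1 x.2.2)
    have h := Complex.hasSum_re (e.hasSum_inner_mul_inner z z)
    rw [inner_self_eq_norm_sq_to_K (𝕜 := ℂ)] at h
    have h' : HasSum (fun k => ‖kamp η (u x.1) (e k) x.2.1 x.2.2‖ ^ 2) (‖z‖ ^ 2) := by
      have e1 : ((‖z‖ : ℂ) ^ 2).re = ‖z‖ ^ 2 := by norm_cast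
      rw [← e1]
      refine h.congr_fun fun k => ?_
      rw [(kamp_eq_inner h0 h1 (u x.1) (e k) x.2.1 x.2.2).2, ← hz, ← inner_conj_symm z (e k),
        ← Complex.normSq_eq_conj_mul_self, Complex.ofReal_re, Complex.normSq_eq_norm_sq]
    simp only [hg, hG]
    rw [← hn]
    exact h'.mul_left _
  have hg0 : ∀ x, 0 ≤ g x := fun x => mul_nonneg (mul_nonneg (hP.nonneg _) (hQ.nonneg _))
    (tsum_nonneg fun i => by positivity)
  have hrow : ∀ j l, HasSum (fun d => g (j, l, d)) (lam j * q l) := by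
    intro j l
    set H : ℕ × ℕ → ℝ := fun y => ‖u j y.1‖ ^ 2 * bsMat η (y.1 + l - y.2) y.2 y.1 l ^ 2 with hH
    have hi : ∀ i, HasSum (fun d => H (i, d)) (‖u j i‖ ^ 2) := fun i => by
      simpa [hH] using (hasSum_bsMat_sq h0 h1 i l).mul_left (‖u j i‖ ^ 2)
    have hone : HasSum (fun i : ℕ => ‖u j i‖ ^ 2) 1 := by
      simpa [hu.1 j] using hasSum_norm_sq (u j)
    have hHs : Summable H := (summable_prod_of_nonneg fun y => by positivity).2
      ⟨fun i => (hi i).summable, hone.summable.congr fun i => (hi i).tsum_eq.symm⟩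
    have hHt : HasSum H 1 := by
      have : ∑' y, H y = 1 := by
        rw [hHs.tsum_prod, tsum_congr fun i => (hi i).tsum_eq, hone.tsum_eq]
      exact this ▸ hHs.hasSum
    have hsw : HasSum (H ∘ Equiv.prodComm ℕ ℕ) 1 := (Equiv.hasSum_iff _).2 hHt
    have := (hsw.prod_fiberwise fun d => (hsw.summable.prod_factor d).hasSum).mul_left (lam j * q l)
    simpa [hg, hH] using this
  have hcol : ∀ j, HasSum (fun y : ℕ × ℕ => g (j, y)) (lam j) := by
    intro j
    have h := (hQ.total.mul_left (lam j))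
    rw [mul_one] at h
    have hs : Summable fun y : ℕ × ℕ => g (j, y) := (summable_prod_of_nonneg fun y => hg0 _).2
      ⟨fun l => (hrow j l).summable, h.summable.congr fun l => (hrow j l).tsum_eq.symm⟩
    have : ∑' y : ℕ × ℕ, g (j, y) = lam j := by
      rw [hs.tsum_prod, tsum_congr fun l => (hrow j l).tsum_eq, h.tsum_eq]
    exact this ▸ hs.hasSum
  have hgs : Summable g := (summable_prod_of_nonneg hg0).2
    ⟨fun j => (hcol j).summable, hP.total.summable.congr fun j => (hcol j).tsum_eq.symm⟩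
  have hgt : ∑' x, g x = 1 := by
    rw [hgs.tsum_prod, tsum_congr fun j => (hcol j).tsum_eq, hP.total.tsum_eq]
  have hG0 : ∀ x, 0 ≤ G x := fun x =>
    mul_nonneg (mul_nonneg (hP.nonneg _) (hQ.nonneg _)) (sq_nonneg _)
  have hGs : Summable G := (summable_prod_of_nonneg hG0).2
    ⟨fun x => (hfib x).summable, hgs.congr fun x => (hfib x).tsum_eq.symm⟩
  have hGt : HasSum G 1 := by
    have : ∑' x, G x = 1 := by rw [hGs.tsum_prod, tsum_congr fun x => (hfib x).tsum_eq, hgt]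
    exact this ▸ hGs.hasSum
  have hsw : HasSum (G ∘ Equiv.prodComm ℕ (ℕ × ℕ × ℕ)) 1 := (Equiv.hasSum_iff _).2 hGt
  exact hsw.prod_fiberwise fun k => (hsw.summable.prod_factor k).hasSum

/-- The finite mean photon number bounds `∑ j lam_j` for the decreasingly ordered spectrum. -/
lemma passiveInf_spectrum (hl0 : ∀ j, 0 ≤ lam j) (hla : ∀ j, lam (j + 1) ≤ lam j)
    (hl1 : HasSum lam 1) (hu : Orthonormal ℂ u)
    (hmean : Summable fun x : ℕ × ℕ => lam x.1 * ((x.2 : ℝ) * ‖u x.1 x.2‖ ^ 2)) :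
    PassiveInf lam := by
  refine ⟨hl0, hla, hl1, summable_of_sum_range_le (fun j => mul_nonneg (Nat.cast_nonneg j) (hl0 j))
    (c := ∑' x : ℕ × ℕ, lam x.1 * ((x.2 : ℝ) * ‖u x.1 x.2‖ ^ 2)) fun R => ?_⟩
  set a : ℕ → ℝ := fun j => ∑' m : ℕ, ((min m R : ℕ) : ℝ) * ‖u j m‖ ^ 2 with ha
  have hone : ∀ j, HasSum (fun m : ℕ => ‖u j m‖ ^ 2) 1 := fun j => by
    simpa [hu.1 j] using hasSum_norm_sq (u j)
  have has : ∀ j, Summable fun m : ℕ => ((min m R : ℕ) : ℝ) * ‖u j m‖ ^ 2 := fun j =>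
    ((hone j).summable.mul_left (R : ℝ)).of_nonneg_of_le (fun m => by positivity)
      fun m => mul_le_mul_of_nonneg_right (Nat.cast_le.2 (min_le_right m R)) (sq_nonneg _)
  have hpre : ∀ r, r ≤ R → ∑ j ∈ range r, (j : ℝ) ≤ ∑ j ∈ range r, a j := by
    intro r hr
    set c : ℕ → ℝ := fun m => ∑ j ∈ range r, ‖u j m‖ ^ 2 with hc
    have hc0 : ∀ m, 0 ≤ c m := fun m => Finset.sum_nonneg fun j _ => sq_nonneg _
    have hc1 : ∀ m, c m ≤ 1 := fun m => by
      have h := hu.sum_inner_products_le (s := range r) (lp.single 2 m (1 : ℂ))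
      simpa [hc, lp.inner_single_right, lp.norm_single] using h
    have h1 : HasSum (fun m : ℕ => ((min m R : ℕ) : ℝ) * c m) (∑ j ∈ range r, a j) := by
      refine (hasSum_sum fun j _ => (has j).hasSum).congr_fun fun m => ?_
      rw [hc, Finset.mul_sum]
    have h2 : HasSum c (r : ℝ) := by
      have := hasSum_sum (s := range r) fun j _ => hone j
      simpa [hc] using this
    have h3 : HasSum (fun m : ℕ => if m < r then (r : ℝ) - m else 0)
        ((r : ℝ) * r - ∑ j ∈ range r, (j : ℝ)) := by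
      have := hasSum_sum_of_ne_finset_zero (L := SummationFilter.unconditional ℕ) (s := range r)
        (f := fun m : ℕ => if m < r then (r : ℝ) - m else 0)
        (fun m hm => if_neg (by simpa using hm))
      rwa [Finset.sum_congr rfl fun m hm => if_pos (Finset.mem_range.1 hm), Finset.sum_sub_distrib,
        Finset.sum_const, Finset.card_range, nsmul_eq_mul] at this
    have h4 := hasSum_le (fun m => ?_) (h2.mul_left (r : ℝ)) (h1.add h3)
    · linarith
    · split_ifs with hm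
      · rw [min_eq_left (by omega)]
        have : (m : ℝ) ≤ r := by exact_mod_cast hm.le
        nlinarith [hc1 m, hc0 m]
      · rw [add_zero]
        refine mul_le_mul_of_nonneg_right ?_ (hc0 m)
        exact_mod_cast le_min (by omega) hr
  calc ∑ j ∈ range R, (j : ℝ) * lam j = ∑ j ∈ range R, lam j * (j : ℝ) :=
        Finset.sum_congr rfl fun j _ => mul_comm _ _
    _ ≤ ∑ j ∈ range R, lam j * a j := abel_le (fun j _ => hla j) hl0 hpre
    _ ≤ ∑ j ∈ range R, ∑' m : ℕ, lam j * ((m : ℝ) * ‖u j m‖ ^ 2) := by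
        refine Finset.sum_le_sum fun j _ => ?_
        rw [ha, ← tsum_mul_left]
        exact Summable.tsum_le_tsum (fun m => mul_le_mul_of_nonneg_left
          (mul_le_mul_of_nonneg_right (Nat.cast_le.2 (min_le_left m R)) (sq_nonneg _)) (hl0 j))
          ((has j).mul_left _) (hmean.prod_factor j)
    _ ≤ _ := by
        rw [hmean.tsum_prod]
        exact ((summable_prod_of_nonneg fun x => mul_nonneg (hl0 _)
          (mul_nonneg (Nat.cast_nonneg _) (sq_nonneg _))).1 hmean).2.sum_le_tsum _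
          fun j _ => tsum_nonneg fun m => mul_nonneg (hl0 _) (by positivity)

/-- **EPnI for every one-mode state with finite mean photon number and a mixture of thermal
states.** -/
theorem epni_arbitrary_inf (h0 : 0 ≤ η) (h1 : η ≤ 1) (hz : ∀ t ∈ s, 0 ≤ zz t ∧ zz t < 1)
    (hμ : ∀ t ∈ s, 0 ≤ μ t) (hμ1 : ∑ t ∈ s, μ t = 1)
    (hq : ∀ l, q l = ∑ t ∈ s, μ t * geo (zz t) l)
    (hl0 : ∀ j, 0 ≤ lam j) (hla : ∀ j, lam (j + 1) ≤ lam j) (hl1 : HasSum lam 1)
    (hu : Orthonormal ℂ u)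
    (hmean : Summable fun x : ℕ × ℕ => lam x.1 * ((x.2 : ℝ) * ‖u x.1 x.2‖ ^ 2))
    (e : HilbertBasis ℕ ℂ (lp (fun _ : ℕ => ℂ) 2))
    (hs : Summable fun k => Real.negMulLog (outFormInf η q lam (fun j => u j) (e k))) :
    η * ginv (entInf lam) + (1 - η) * ginv (entInf q)
      ≤ ginv (∑' k, Real.negMulLog (outFormInf η q lam (fun j => u j) (e k))) := by
  have hP := passiveInf_spectrum hl0 hla hl1 hu hmean
  have hQ := passiveInf_geo_mix hz hμ hμ1 hq
  obtain ⟨hDsum, hDent, -, -, -⟩ := epni_passive_inf hP hQ h0 h1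
  have hle : entInf (pCinf η lam q)
      ≤ ∑' k, Real.negMulLog (outFormInf η q lam (fun j => u j) (e k)) :=
    entropy_le_of_majorized' (fun k => outFormInf_nonneg hP hQ _ _)
      (fun m => pCinf_nonneg hP hQ m) (hasSum_outFormInf h0 h1 hP hQ hu e) hDsum hs hDent
      (outFormInf_sets h0 h1 hz hμ hq hP hQ hu e.orthonormal)
  refine (epn_passive_inf hP hQ h0 h1).trans ?_
  have hDn : 0 ≤ entInf (pCinf η lam q) := tsum_nonneg fun m => Real.negMulLog_nonneg
    (pCinf_nonneg hP hQ m) (le_hasSum hDsum m fun j _ => pCinf_nonneg hP hQ j)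
  by_contra hcon
  push Not at hcon
  have h2 := strictMonoOn_gFun (ginv_nonneg (hDn.trans hle)) (ginv_nonneg hDn) hcon
  rw [gFun_ginv hDn, gFun_ginv (hDn.trans hle)] at h2
  exact absurd h2 (not_lt.2 hle)

end Vale.Agent.P369
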