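import Vale.Agent.P369.Defs

open PowerSeries Finset Filter

noncomputable section

namespace Vale.Agent.P369

variable {N : ℕ} {η : ℝ} {p q : ℕ → ℝ}

lemma bsPoly_swap (η : ℝ) : ∀ i j m, (bsPoly (1 - η) j i).coeff m
      = (-1 : ℝ) ^ (i + j + m) * (bsPoly η i j).coeff m := by
  intro i
  induction i with
  | zero =>
    intro j
    induction j with
    | zero => intro m; cases m <;> simp [bsPoly, Polynomial.coeff_one]
    | succ j ihj =>
      intro m
      rw [bsPoly_succ_left, bsPoly_succ_right, show (1 : ℝ) - (1 - η) = η by ring]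
      cases m with
      | zero => rw [coeff_lin_zero, coeff_lin_zero, ihj 0]; simp only [pow_succ, pow_add]; ring
      | succ m =>
        rw [coeff_lin_succ, coeff_lin_succ, ihj m, ihj (m + 1)]
        simp only [pow_succ, pow_add]; ring
  | succ i ih =>
    intro j m
    rw [bsPoly_succ_left, bsPoly_succ_right, show (1 : ℝ) - (1 - η) = η by ring]
    cases m with
    | zero => rw [coeff_lin_zero, coeff_lin_zero, ih j 0]; simp only [pow_succ, pow_add]; ring
    | succ m =>
      rw [coeff_lin_succ, coeff_lin_succ, ih j m, ih j (m + 1)]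
      simp only [pow_succ, pow_add]; ring

lemma bsProb_swap (η : ℝ) (i j m : ℕ) : bsProb (1 - η) j i m = bsProb η i j m := by
  rw [bsProb_eq, bsProb_eq, bsPoly_swap, add_comm j i, mul_comm ((j.factorial : ℝ))]
  congr 1
  rw [mul_pow, ← pow_mul, mul_comm (i + j + m) 2, pow_mul, neg_one_sq, one_pow, one_mul]

lemma pC_swap (N : ℕ) (η : ℝ) (p q : ℕ → ℝ) (m : ℕ) : pC N (1 - η) q p m = pC N η p q m := by
  unfold pC
  rw [Finset.sum_comm]
  exact Finset.sum_congr rfl fun i _ => Finset.sum_congr rfl fun j _ => by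
    rw [bsProb_swap]; ring

/-- Coefficientwise derivative. -/
def HD (φ : ℝ → BS) (φ' : BS) (x : ℝ) : Prop :=
  ∀ k l, HasDerivAt (fun y => cf k l (φ y)) (cf k l φ') x

lemma HD.mul {φ ψ : ℝ → BS} {φ' ψ' : BS} {x : ℝ} (h1 : HD φ φ' x) (h2 : HD ψ ψ' x) :
    HD (fun y => φ y * ψ y) (φ' * ψ x + φ x * ψ') x := by
  intro k l
  simp only [cf_add, cf_mul, ← Finset.sum_add_distrib]
  exact HasDerivAt.fun_sum fun a _ => HasDerivAt.fun_sum fun b _ =>
    (h1 a.1 b.1).mul (h2 a.2 b.2)

lemma HD.unique {φ : ℝ → BS} {a b : BS} {x : ℝ} (h1 : HD φ a x) (h2 : HD φ b x) : a = b :=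
  bsExt fun k l => (h1 k l).unique (h2 k l)

lemma HD.congr {φ ψ : ℝ → BS} {a : BS} {x : ℝ} (h1 : HD φ a x) (h : ψ =ᶠ[nhds x] φ) :
    HD ψ a x := fun k l => (h1 k l).congr_of_eventuallyEq (h.mono fun y hy => by simp only [hy])

lemma HD.pow {φ : ℝ → BS} {φ' : BS} {x : ℝ} (h : HD φ φ' x) :
    ∀ n : ℕ, HD (fun y => φ y ^ (n + 1)) (((n : BS) + 1) * φ x ^ n * φ') x := by
  intro n
  induction n with
  | zero => simpa using h
  | succ n ih =>
    have := ih.mul h
    simp only [pow_succ] at this ⊢
    refine fun k l => ((this k l).congr_deriv ?_)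
    congr 1
    push_cast; ring

lemma HD_alpha (x : ℝ) : HD alpha (sX - tX) x := by
  intro k l
  have e : ∀ y, cf k l (alpha y) = cf k l 1 - (1 - y) * cf k l sX - y * cf k l tX := fun y => by
    simp only [alpha, cf_sub, cf_cR_mul]
  simp only [e, cf_sub]
  have := (((hasDerivAt_id x).const_sub 1).mul_const (cf k l sX)).const_sub (cf k l 1)
  simpa using this.fun_sub ((hasDerivAt_id x).mul_const (cf k l tX))

lemma HD_beta (x : ℝ) : HD beta (sX - tX) x := by
  intro k l
  have e : ∀ y, cf k l (beta y) = y * cf k l sX + (1 - y) * cf k l tX - cf k l (sX * tX) := fun y => by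
    simp only [beta, cf_sub, cf_add, cf_cR_mul]
  simp only [e, cf_sub]
  have := ((hasDerivAt_id x).mul_const (cf k l sX)).add
    (((hasDerivAt_id x).const_sub 1).mul_const (cf k l tX))
  simpa [sub_eq_add_neg] using this.sub_const (cf k l (sX * tX))

lemma differentiableAt_coeff {x : ℝ} (h0 : 0 < x) (h1 : x < 1) :
    ∀ i j m, DifferentiableAt ℝ (fun y => (bsPoly y i j).coeff m) x := by
  have hA : DifferentiableAt ℝ (fun y : ℝ => Real.sqrt y) x :=
    (Real.hasDerivAt_sqrt h0.ne').differentiableAt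
  have hB : DifferentiableAt ℝ (fun y : ℝ => Real.sqrt (1 - y)) x :=
    (((hasDerivAt_id x).const_sub 1).sqrt (by simp only [id_eq]; linarith)).differentiableAt
  intro i
  induction i with
  | zero =>
    intro j m
    simp only [bsPoly_coeff_left_zero]
    fun_prop
  | succ i ih =>
    intro j m
    simp only [bsPoly_succ_left]
    cases m with
    | zero => simp only [coeff_lin_zero]; exact hB.neg.mul (ih j 0)
    | succ m => simp only [coeff_lin_succ]; exact (hA.mul (ih j m)).add (hB.neg.mul (ih j (m + 1)))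

/-- Derivative of `G_m` in `η`. -/
def GD (η : ℝ) (m : ℕ) : BS :=
  (sX - tX) * ((m : BS) * beta η ^ (m - 1) * GS η 0 ^ (m + 1)
    - ((m : BS) + 1) * beta η ^ m * GS η 0 ^ (m + 2))

lemma HD_GS {x : ℝ} (h0 : 0 < x) (h1 : x < 1) (m : ℕ) : HD (fun y => GS y m) (GD x m) x := by
  have hnb : Set.Ioo (0:ℝ) 1 ∈ nhds x := Ioo_mem_nhds h0 h1
  let D0 : BS := PowerSeries.mk fun k => PowerSeries.mk fun l =>
    deriv (fun y => bsProb y k l 0) x
  have hD0 : HD (fun y => GS y 0) D0 x := by
    intro k l
    simp only [cf_GS]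
    have e : cf k l D0 = deriv (fun y => bsProb y k l 0) x := by simp [cf, D0]
    rw [e]
    refine DifferentiableAt.hasDerivAt ?_
    simp only [bsProb_eq]
    exact (differentiableAt_const _).mul ((differentiableAt_coeff h0 h1 k l 0).pow 2)
  have hone : HD (fun y => alpha y * GS y 0) 0 x := by
    have : HD (fun _ : ℝ => (1 : BS)) 0 x := fun k l => by
      simpa [cf] using hasDerivAt_const x (cf k l (1 : BS))
    exact this.congr (Filter.eventually_of_mem hnb fun y hy => alpha_mul_GS_zero hy.1.le hy.2.le)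
  have hu := ((HD_alpha x).mul hD0).unique hone
  have hα := alpha_mul_GS_zero h0.le h1.le
  have hD : D0 = -(sX - tX) * GS x 0 ^ 2 := by linear_combination GS x 0 * hu - D0 * hα
  rw [hD] at hD0
  cases m with
  | zero =>
    refine fun k l => (hD0 k l).congr_deriv ?_
    congr 1
    unfold GD
    push_cast; ring
  | succ m =>
    have := ((HD_beta x).pow m).mul (hD0.pow (m + 1))
    refine fun k l => ((this.congr (Filter.eventually_of_mem hnb fun y hy =>
      GS_eq hy.1.le hy.2.le (m + 1))) k l).congr_deriv ?_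
    congr 1
    unfold GD
    simp only [Nat.add_sub_cancel]
    push_cast; ring

lemma ps_derivative_mul {R : Type*} [CommSemiring R] (a b : R⟦X⟧) :
    PowerSeries.derivative R (a * b) =
      a * PowerSeries.derivative R b + b * PowerSeries.derivative R a :=
  Derivation.leibniz _ a b

/-- `s ∂_s`. -/
def Ds (φ : BS) : BS := sX * PowerSeries.derivative (PowerSeries ℝ) φ

lemma cf_Ds (k l : ℕ) (φ : BS) : cf k l (Ds φ) = (k : ℝ) * cf k l φ := by
  cases k with
  | zero => unfold Ds; rw [cf_sX_zero]; simp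
  | succ k =>
    unfold Ds
    rw [cf_sX_succ]
    unfold cf
    rw [PowerSeries.coeff_derivative, mul_comm]
    rw [show ((k : PowerSeries ℝ) + 1) = PowerSeries.C ((k : ℝ) + 1) by simp, coeff_C_mul]
    push_cast; ring

lemma derivative_cR (a : ℝ) : PowerSeries.derivative (PowerSeries ℝ) (cR a) = 0 :=
  PowerSeries.derivative_C

lemma pair_gen (N : ℕ) (p q : ℕ → ℝ) (hp : ∀ i, N ≤ i → p i = 0) (φ : BS) :
    pair N (gen p) q φ = pair N p q (Ds ((sX - 1) * φ)) := by
  have e : ∀ ψ, pair N p q (Ds ψ) = pair N (fun i => (i : ℝ) * p i) q ψ := fun ψ => by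
    simp only [pair, cf_Ds]
    exact Finset.sum_congr rfl fun i _ => Finset.sum_congr rfl fun j _ => by ring
  rw [e, sub_mul, one_mul, pair_sub, pair_sX N _ q (fun i hi => by simp [hp i hi])]
  simp only [pair, gen, shf, sub_mul, Finset.sum_sub_distrib]
  push_cast
  rfl

lemma flow_series {η : ℝ} (h0 : 0 ≤ η) (h1 : η ≤ 1) (m : ℕ) :
    Ds ((sX - 1) * GS η m) = cR η * (cR ((m : ℝ) + 1) * GS η (m + 1) - cR (m : ℝ) * GS η m)
      - cR η * (cR (1 - η) * GD η m) := by
  have hα := alpha_mul_GS_zero h0 h1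
  have hc : cR (1 - η) = 1 - cR η := by simp [cR, map_sub]
  have dα : PowerSeries.derivative (PowerSeries ℝ) (alpha η) = -cR (1 - η) := by
    simp [alpha, sX, tX, derivative_cR, ps_derivative_mul, PowerSeries.derivative_X,
      PowerSeries.derivative_C]
  have dβ : PowerSeries.derivative (PowerSeries ℝ) (beta η) = cR η - tX := by
    simp [beta, sX, tX, derivative_cR, ps_derivative_mul, PowerSeries.derivative_X,
      PowerSeries.derivative_C]
  have ds : PowerSeries.derivative (PowerSeries ℝ) (sX - 1) = 1 := by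
    simp [sX, PowerSeries.derivative_X]
  have dG : PowerSeries.derivative (PowerSeries ℝ) (GS η 0) = cR (1 - η) * GS η 0 ^ 2 := by
    have h := congrArg (PowerSeries.derivative (PowerSeries ℝ)) hα
    rw [ps_derivative_mul, dα, PowerSeries.derivative_one] at h
    linear_combination GS η 0 * h - PowerSeries.derivative (PowerSeries ℝ) (GS η 0) * hα
  have hm : cR (m : ℝ) = (m : BS) := cR_natCast m
  have hm1 : cR ((m : ℝ) + 1) = (m : BS) + 1 := by
    rw [← Nat.cast_add_one, cR_natCast, Nat.cast_add_one]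
  rw [hm, hm1, Ds, ps_derivative_mul, ds, GS_eq h0 h1 m, GS_eq h0 h1 (m + 1), ps_derivative_mul,
    PowerSeries.derivative_pow, PowerSeries.derivative_pow, dβ, dG]
  simp only [GD]
  rw [hc]
  rcases m with _ | n
  · simp only [Nat.cast_zero, pow_zero, zero_mul, mul_zero]
    have ha : alpha η = 1 - (1 - cR η) * sX - cR η * tX := by rw [alpha, hc]
    rw [ha] at hα
    simp only [beta, hc]
    push_cast
    linear_combination (-sX * GS η 0) * hα
  · simp only [Nat.add_sub_cancel]
    have ha : alpha η = 1 - (1 - cR η) * sX - cR η * tX := by rw [alpha, hc]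
    rw [ha] at hα
    have hb : beta η = cR η * sX + (1 - cR η) * tX - sX * tX := by rw [beta, hc]
    push_cast
    generalize hP : beta η ^ n = P
    simp only [pow_succ, pow_zero, one_mul] at *
    rw [hP]
    rw [hb]
    linear_combination (-(((n : BS) + 2) * sX * (cR η * sX + (1 - cR η) * tX - sX * tX) * P
      * GS η 0 ^ (n + 2))) * hα

lemma pC_hasDerivAt {x : ℝ} (h0 : 0 < x) (h1 : x < 1) (N : ℕ) (p q : ℕ → ℝ) (m : ℕ) :
    HasDerivAt (fun y => pC N y p q m) (pair N p q (GD x m)) x := by
  unfold pC pair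
  refine HasDerivAt.fun_sum fun i _ => HasDerivAt.fun_sum fun j _ => ?_
  have := (HD_GS h0 h1 m i j).const_mul (p i * q j)
  simpa [cf_GS] using this

/-- Loss on the first input. -/
lemma pair_gen_left (h0 : 0 ≤ η) (h1 : η ≤ 1) (hp : ∀ i, N ≤ i → p i = 0) (m : ℕ) :
    pC N η (gen p) q m = η * gen (pC N η p q) m - η * (1 - η) * pair N p q (GD η m) := by
  rw [pC_eq_pair, pair_gen N p q hp, flow_series h0 h1, pair_sub, pair_cR_mul, pair_cR_mul,
    pair_cR_mul, pair_sub, pair_cR_mul, pair_cR_mul]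
  simp only [gen, pC_eq_pair]
  ring

/-- Loss on the second input. -/
lemma pair_gen_right (h0 : 0 < η) (h1 : η < 1) (hq : ∀ j, N ≤ j → q j = 0) (m : ℕ) :
    pC N η p (gen q) m = (1 - η) * gen (pC N η p q) m + η * (1 - η) * pair N p q (GD η m) := by
  have hd : pair N q p (GD (1 - η) m) = -pair N p q (GD η m) := by
    have a := (pC_hasDerivAt (x := 1 - η) (by linarith) (by linarith) N q p m).comp η
      ((hasDerivAt_id η).const_sub 1)
    simp only [Function.comp_def, id_eq, pC_swap] at a
    have := a.unique (pC_hasDerivAt h0 h1 N p q m)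
    linarith
  have e : pC N η p q = pC N (1 - η) q p := funext fun m => (pC_swap N η p q m).symm
  rw [← pC_swap, pair_gen_left (by linarith) (by linarith) hq, hd, e]
  ring

end Vale.Agent.P369
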