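import Vale.Agent.P369.Ent

open Finset

noncomputable section

namespace Vale.Agent.P369

variable {N : ℕ} {η : ℝ} {p q : ℕ → ℝ}

lemma pair_nonneg (u v : ℕ → ℝ) (φ : BS) (hu : ∀ i, 0 ≤ u i) (hv : ∀ j, 0 ≤ v j)
    (hφ : ∀ i j, 0 ≤ cf i j φ) : 0 ≤ pair N u v φ :=
  Finset.sum_nonneg fun i _ => Finset.sum_nonneg fun j _ =>
    mul_nonneg (mul_nonneg (hu i) (hv j)) (hφ i j)

lemma out_passive (h0 : 0 < η) (h1 : η < 1) (hp : Passive N p) (hq : Passive N q) :
    Passive (2 * N) (pC N η p q) where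
  nonneg m := Finset.sum_nonneg fun i _ => Finset.sum_nonneg fun j _ =>
    mul_nonneg (mul_nonneg (hp.nonneg i) (hq.nonneg j)) (bsProb_nonneg _ _ _ _)
  anti m := by
    have h := pair_nonneg (N := N) (dlt p) (dlt q) (WS η m) hp.dlt_nonneg hq.dlt_nonneg
      fun i j => cf_WS_nonneg h0.le h1.le i j m
    rw [← out_diff h0.le h1.le hp.supp hq.supp m] at h
    exact sub_nonneg.1 (nonneg_of_mul_nonneg_right h (by positivity))
  supp m hm := Finset.sum_eq_zero fun i hi => Finset.sum_eq_zero fun j hj => by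
    rw [Finset.mem_range] at hi hj
    rw [bsProb_of_lt η (show i + j < m by omega), mul_zero]
  total := by
    unfold pC
    rw [Finset.sum_comm]
    calc ∑ i ∈ range N, ∑ m ∈ range (2 * N), ∑ j ∈ range N, p i * q j * bsProb η i j m
        = ∑ i ∈ range N, ∑ j ∈ range N, p i * q j := by
          refine Finset.sum_congr rfl fun i hi => ?_
          rw [Finset.sum_comm]
          refine Finset.sum_congr rfl fun j hj => ?_
          rw [Finset.mem_range] at hi hj
          rw [← Finset.mul_sum, show 2 * N = (2 * N - 1) + 1 by omega,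
            sum_bsProb h0.le h1.le i j (2 * N - 1) (by omega), mul_one]
      _ = 1 := by rw [← Finset.sum_mul_sum, hp.total, hq.total, one_mul]

lemma pers_smul {t u c : ℝ} (ht : 0 ≤ t) (hu : 0 ≤ u) (hc : 0 ≤ c) :
    pers (t * u) (t * c) = t * pers u c := by
  rcases ht.eq_or_lt with rfl | ht
  · simp [pers]
  rcases hu.eq_or_lt with rfl | hu
  · simp [pers]
  unfold pers
  rw [← mul_add, Real.log_mul ht.ne' (by linarith), Real.log_mul ht.ne' hu.ne']
  ring

lemma pers_nonneg {u c : ℝ} (hu : 0 ≤ u) (hc : 0 ≤ c) : 0 ≤ pers u c := by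
  rw [pers_eq_mul_fFun hu hc]
  exact mul_nonneg hc (fFun_nonneg (div_nonneg hu hc))

lemma pers_tangent {u c U C : ℝ} (hu : 0 ≤ u) (hc : 0 ≤ c) (hU : 0 < U) (hC : 0 ≤ C) :
    pers u c ≤ u * (Real.log (U + C) - Real.log U - C / (U + C)) + c * (U / (U + C)) := by
  rcases hu.eq_or_lt with rfl | hu
  · have h : 0 ≤ c * (U / (U + C)) := by positivity
    simpa [pers] using h
  have hs : 0 < u + c := by linarith
  have hS : 0 < U + C := by linarith
  have hl := Real.log_le_sub_one_of_pos (div_pos (mul_pos hs hU) (mul_pos hu hS))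
  rw [Real.log_div (mul_pos hs hU).ne' (mul_pos hu hS).ne', Real.log_mul hs.ne' hU.ne',
    Real.log_mul hu.ne' hS.ne'] at hl
  have e : u * ((u + c) * U / (u * (U + C)) - 1) = c * (U / (U + C)) - u * (C / (U + C)) := by
    field_simp
    ring
  have hm := mul_le_mul_of_nonneg_left hl hu.le
  rw [e] at hm
  unfold pers
  linarith

lemma sum_pers_le {ι : Type*} (s : Finset ι) (u c : ι → ℝ) (hu : ∀ i ∈ s, 0 ≤ u i)
    (hc : ∀ i ∈ s, 0 ≤ c i) :
    ∑ i ∈ s, pers (u i) (c i) ≤ pers (∑ i ∈ s, u i) (∑ i ∈ s, c i) := by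
  rcases (Finset.sum_nonneg hu).eq_or_lt with hU | hU
  · rw [← hU]
    have hz := (Finset.sum_eq_zero_iff_of_nonneg hu).1 hU.symm
    rw [Finset.sum_eq_zero fun i hi => by rw [hz i hi]; simp [pers]]
    simp [pers]
  · have hC := Finset.sum_nonneg hc
    set U := ∑ i ∈ s, u i
    set C := ∑ i ∈ s, c i
    calc ∑ i ∈ s, pers (u i) (c i)
        ≤ ∑ i ∈ s, (u i * (Real.log (U + C) - Real.log U - C / (U + C)) + c i * (U / (U + C))) :=
          Finset.sum_le_sum fun i hi => pers_tangent (hu i hi) (hc i hi) hU hC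
      _ = pers U C := by
          rw [Finset.sum_add_distrib, ← Finset.sum_mul, ← Finset.sum_mul]
          unfold pers
          have : U + C ≠ 0 := by linarith
          field_simp
          ring

lemma sum_cf_WS_two (h0 : 0 ≤ η) (h1 : η ≤ 1) {i j : ℕ} (hi : i < N) (hj : j < N) :
    ∑ m ∈ range (2 * N), cf i j (WS η m) = ((i : ℝ) + 1) * ((j : ℝ) + 1) := by
  rw [show 2 * N = (2 * N - 1) + 1 by omega, sum_cf_WS h0 h1 i j (2 * N - 1) (by omega)]

lemma node_term (h0 : 0 < η) (h1 : η < 1) (hp : Passive N p) (hq : Passive N q) (i j : ℕ) :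
    ((i : ℝ) + 1) * ((j : ℝ) + 1) *
      pers (η * (shf p i * dlt q j) + (1 - η) * (dlt p i * shf q j)) (dlt p i * dlt q j)
    = wt p i * (wt q j * fFun (η * nod p i + (1 - η) * nod q j)) := by
  have hi : (0:ℝ) < (i : ℝ) + 1 := by positivity
  have hj : (0:ℝ) < (j : ℝ) + 1 := by positivity
  rcases (hp.dlt_nonneg i).eq_or_lt with hd | hd
  · simp [wt, ← hd, pers]
  rcases (hq.dlt_nonneg j).eq_or_lt with he | he
  · simp [wt, ← he, pers]
  have h1' : 0 ≤ 1 - η := by linarith
  have hA : 0 ≤ η * (shf p i * dlt q j) + (1 - η) * (dlt p i * shf q j) :=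
    add_nonneg (mul_nonneg h0.le (mul_nonneg (hp.nonneg _) he.le))
      (mul_nonneg h1' (mul_nonneg hd.le (hq.nonneg _)))
  have hx : (η * (shf p i * dlt q j) + (1 - η) * (dlt p i * shf q j)) / (dlt p i * dlt q j)
      = η * nod p i + (1 - η) * nod q j := by
    unfold nod wt
    field_simp
  rw [pers_eq_mul_fFun hA (mul_pos hd he).le, hx]
  unfold wt
  ring

/-- The output rate dominates the double mean over the input nodes. -/
lemma sum_node_le_Qf_out (h0 : 0 < η) (h1 : η < 1) (hp : Passive N p) (hq : Passive N q) :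
    ∑ i ∈ range N, ∑ j ∈ range N, wt p i * (wt q j * fFun (η * nod p i + (1 - η) * nod q j))
      ≤ Qf (2 * N) (pC N η p q) := by
  have h1' : 0 ≤ 1 - η := by linarith
  set A : ℕ → ℕ → ℝ := fun i j => η * (shf p i * dlt q j) + (1 - η) * (dlt p i * shf q j) with hA
  set B : ℕ → ℕ → ℝ := fun i j => dlt p i * dlt q j with hB
  have hA0 : ∀ i j, 0 ≤ A i j := fun i j =>
    add_nonneg (mul_nonneg h0.le (mul_nonneg (hp.nonneg _) (hq.dlt_nonneg j)))
      (mul_nonneg h1' (mul_nonneg (hp.dlt_nonneg i) (hq.nonneg _)))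
  have hB0 : ∀ i j, 0 ≤ B i j := fun i j => mul_nonneg (hp.dlt_nonneg i) (hq.dlt_nonneg j)
  have hW : ∀ i j m, 0 ≤ cf i j (WS η m) := fun i j m => cf_WS_nonneg h0.le h1.le i j m
  have hm : ∀ m, ∑ i ∈ range N, ∑ j ∈ range N, cf i j (WS η m) * pers (A i j) (B i j)
      ≤ pers (((m : ℝ) + 1) * shf (pC N η p q) m) (((m : ℝ) + 1) * dlt (pC N η p q) m) := by
    intro m
    have eA : ((m : ℝ) + 1) * shf (pC N η p q) m
        = ∑ i ∈ range N, ∑ j ∈ range N, cf i j (WS η m) * A i j := by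
      rw [shf, out_shift h0.le h1.le hp.supp hq.supp]
      simp only [pair, Finset.mul_sum, ← Finset.sum_add_distrib, hA]
      exact Finset.sum_congr rfl fun i _ => Finset.sum_congr rfl fun j _ => by ring
    have eB : ((m : ℝ) + 1) * dlt (pC N η p q) m
        = ∑ i ∈ range N, ∑ j ∈ range N, cf i j (WS η m) * B i j := by
      rw [dlt, out_diff h0.le h1.le hp.supp hq.supp]
      simp only [pair, hB]
      exact Finset.sum_congr rfl fun i _ => Finset.sum_congr rfl fun j _ => by ring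
    rw [eA, eB]
    refine le_trans (Finset.sum_le_sum fun i _ => ?_) (sum_pers_le _ _ _
      (fun i _ => Finset.sum_nonneg fun j _ => mul_nonneg (hW i j m) (hA0 i j))
      (fun i _ => Finset.sum_nonneg fun j _ => mul_nonneg (hW i j m) (hB0 i j)))
    refine le_trans (le_of_eq (Finset.sum_congr rfl fun j _ => ?_)) (sum_pers_le _ _ _
      (fun j _ => mul_nonneg (hW i j m) (hA0 i j)) (fun j _ => mul_nonneg (hW i j m) (hB0 i j)))
    exact (pers_smul (hW i j m) (hA0 i j) (hB0 i j)).symm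
  refine le_trans (le_of_eq ?_) (Finset.sum_le_sum fun m (_ : m ∈ range (2 * N)) => hm m)
  rw [Finset.sum_comm (s := range (2 * N))]
  refine Finset.sum_congr rfl fun i hi => ?_
  rw [Finset.sum_comm (s := range (2 * N))]
  refine Finset.sum_congr rfl fun j hj => ?_
  rw [← Finset.sum_mul, sum_cf_WS_two h0.le h1.le (Finset.mem_range.1 hi) (Finset.mem_range.1 hj)]
  exact (node_term h0 h1 hp hq i j).symm

lemma Qf_out_ge (h0 : 0 < η) (h1 : η < 1) (hp : Passive N p) (hq : Passive N q) {a b : ℝ}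
    (ha : 0 ≤ a) (hb : 0 ≤ b) (hfa : fFun a = Qf N p) (hfb : fFun b = Qf N q) :
    fFun (η * a + (1 - η) * b) ≤ Qf (2 * N) (pC N η p q) := by
  refine le_trans ?_ (sum_node_le_Qf_out h0 h1 hp hq)
  rw [Finset.sum_comm]
  have h1' : 0 < 1 - η := by linarith
  calc fFun (η * a + (1 - η) * b) = fFun ((1 - η) * b + η * a) := by rw [add_comm]
    _ ≤ ∑ j ∈ range N, wt q j * fFun ((1 - η) * nod q j + η * a) :=
        shift_mean _ _ _ h1' (by linarith) (mul_nonneg h0.le ha) hb (fun j _ => hq.wt_nonneg j)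
          hq.sum_wt (fun j _ => hq.nod_nonneg j) (by rw [← Qf_eq_mean hq, hfb])
    _ ≤ ∑ j ∈ range N, ∑ i ∈ range N,
          wt p i * (wt q j * fFun (η * nod p i + (1 - η) * nod q j)) := by
        refine Finset.sum_le_sum fun j _ => ?_
        rw [add_comm ((1 - η) * nod q j)]
        simp only [mul_left_comm (wt p _) (wt q j), ← Finset.mul_sum]
        exact mul_le_mul_of_nonneg_left
          (shift_mean _ _ _ h0 h1.le (mul_nonneg h1'.le (hq.nod_nonneg j)) ha
            (fun i _ => hp.wt_nonneg i) hp.sum_wt (fun i _ => hp.nod_nonneg i)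
            (by rw [← Qf_eq_mean hp, hfa])) (hq.wt_nonneg j)

end Vale.Agent.P369
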