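import Vale.Agent.P369.Scalar

open Real Set Filter

noncomputable section

namespace Vale.Agent.P369

/-- Derivative of `fFun`. -/
def fD (a : ℝ) : ℝ := FF a / (1 + a)

lemma phi_eq_FF {a : ℝ} (ha : 0 < a) : phi a = (FF a + 1) / (1 + a) := by
  unfold FF; field_simp; ring

lemma fFun_eq_FF {a : ℝ} (ha : 0 < a) : fFun a = a * (FF a + 1) / (1 + a) := by
  unfold fFun; rw [phi_eq_FF ha]; ring

lemma hasDerivAt_gFun {a : ℝ} (ha : 0 < a) : HasDerivAt gFun (phi a) a := by
  have h1 : HasDerivAt (fun t : ℝ => Real.log (t + 1)) (1 / (a + 1)) a :=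
    ((hasDerivAt_id a).add_const 1).log (by simp only [id_eq]; linarith)
  have h : HasDerivAt gFun (1 * Real.log (a + 1) + (a + 1) * (1 / (a + 1)) -
      (1 * Real.log a + a * a⁻¹)) a :=
    (((hasDerivAt_id a).add_const 1).mul h1).sub
      ((hasDerivAt_id a).mul (Real.hasDerivAt_log ha.ne'))
  refine h.congr_deriv ?_
  unfold phi
  field_simp
  ring

lemma hasDerivAt_fFun {a : ℝ} (ha : 0 < a) : HasDerivAt fFun (fD a) a := by
  have h : HasDerivAt fFun (1 * phi a + a * (-1 / (a * (a + 1)))) a :=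
    (hasDerivAt_id a).mul (hasDerivAt_phi ha)
  refine h.congr_deriv ?_
  unfold fD FF
  field_simp
  ring

lemma hasDerivAt_fD {a : ℝ} (ha : 0 < a) : HasDerivAt fD (-1 / (a * (1 + a) ^ 2)) a := by
  refine ((hasDerivAt_FF ha).div ((hasDerivAt_id a).const_add 1) (by simp; linarith)).congr_deriv ?_
  simp only [id_eq]
  field_simp
  ring

lemma fD_pos {a : ℝ} (ha : 0 < a) : 0 < fD a := div_pos (FF_pos' ha) (by linarith)

lemma continuousOn_gFun : ContinuousOn gFun (Ici 0) := by
  have h : ∀ t, gFun t = (t + 1) * Real.log (t + 1) - t * Real.log t := fun _ => rfl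
  refine ContinuousOn.congr ?_ (fun t _ => h t)
  exact ((Real.continuous_mul_log.comp (continuous_id.add continuous_const)).sub
    Real.continuous_mul_log).continuousOn

lemma continuousOn_fFun : ContinuousOn fFun (Ici 0) := by
  have h : ∀ t, fFun t = t * Real.log (t + 1) - t * Real.log t := fun t => by
    unfold fFun phi; ring
  refine ContinuousOn.congr ?_ (fun t _ => h t)
  refine ContinuousOn.sub ?_ Real.continuous_mul_log.continuousOn
  exact continuousOn_id.mul ((continuousOn_id.add continuousOn_const).log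
    (fun t ht => by have : (0:ℝ) ≤ t := ht; simp only [id_eq, Pi.add_apply]; linarith))

lemma fFun_zero : fFun 0 = 0 := by simp [fFun]

lemma gFun_zero : gFun 0 = 0 := by simp [gFun]

lemma strictMonoOn_gFun : StrictMonoOn gFun (Ici 0) := by
  apply strictMonoOn_of_deriv_pos (convex_Ici 0) continuousOn_gFun
  intro x hx
  rw [interior_Ici] at hx
  rw [(hasDerivAt_gFun hx).deriv]
  exact phi_pos hx

lemma strictMonoOn_fFun : StrictMonoOn fFun (Ici 0) := by
  apply strictMonoOn_of_deriv_pos (convex_Ici 0) continuousOn_fFun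
  intro x hx
  rw [interior_Ici] at hx
  rw [(hasDerivAt_fFun hx).deriv]
  exact fD_pos hx

lemma fFun_nonneg {a : ℝ} (ha : 0 ≤ a) : 0 ≤ fFun a := by
  rw [← fFun_zero]; exact strictMonoOn_fFun.monotoneOn self_mem_Ici ha ha

lemma fFun_lt_one {a : ℝ} (ha : 0 ≤ a) : fFun a < 1 := by
  rcases ha.eq_or_lt with rfl | ha
  · simp [fFun_zero]
  rw [fFun_eq_FF ha, div_lt_one (by linarith)]
  nlinarith [aF_lt ha]

lemma antitoneOn_ratio : AntitoneOn (fun x => (1 + x) * phi x) (Ioi 0) := by
  apply antitoneOn_of_deriv_nonpos (convex_Ioi 0)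
  · intro x hx
    exact (((hasDerivAt_id x).const_add 1).mul (hasDerivAt_phi hx)).continuousAt.continuousWithinAt
  · intro x hx
    rw [interior_Ioi] at hx
    exact (((hasDerivAt_id x).const_add 1).mul
      (hasDerivAt_phi hx)).differentiableAt.differentiableWithinAt
  · intro x hx
    rw [interior_Ioi] at hx
    have hx' : (0:ℝ) < x := hx
    have h : HasDerivAt (fun x => (1 + x) * phi x) (1 * phi x + (1 + x) * (-1 / (x * (x + 1)))) x :=
      ((hasDerivAt_id x).const_add 1).mul (hasDerivAt_phi hx')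
    rw [h.deriv, phi_eq_FF hx']
    have e : 1 * ((FF x + 1) / (1 + x)) + (1 + x) * (-1 / (x * (x + 1)))
        = (x * FF x - 1) / (x * (1 + x)) := by field_simp; ring
    rw [e]
    exact (div_neg_of_neg_of_pos (by linarith [aF_lt hx']) (by positivity)).le

/-- Slope of `fFun` as a function of `gFun`. -/
def slopeFG (X : ℝ) : ℝ := fD X / phi X

lemma slopeFG_pos {X : ℝ} (hX : 0 < X) : 0 < slopeFG X := div_pos (fD_pos hX) (phi_pos hX)

lemma slopeFG_antitone {x y : ℝ} (hx : 0 < x) (hxy : x ≤ y) : slopeFG y ≤ slopeFG x := by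
  have hy : 0 < y := lt_of_lt_of_le hx hxy
  have e : ∀ z, 0 < z → slopeFG z = 1 - 1 / ((1 + z) * phi z) := by
    intro z hz
    have := phi_pos hz
    unfold slopeFG fD FF
    field_simp
  rw [e x hx, e y hy]
  have h1 : 0 < (1 + y) * phi y := mul_pos (by linarith) (phi_pos hy)
  have h2 := one_div_le_one_div_of_le h1 (antitoneOn_ratio hx hy hxy)
  linarith

lemma tangent_fg {X z : ℝ} (hX : 0 < X) (hz : 0 ≤ z) :
    fFun z - slopeFG X * gFun z ≤ fFun X - slopeFG X * gFun X := by
  have hc : ContinuousOn (fun z => fFun z - slopeFG X * gFun z) (Ici 0) :=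
    continuousOn_fFun.sub (continuousOn_const.mul continuousOn_gFun)
  have hd : ∀ x, 0 < x → HasDerivAt (fun z => fFun z - slopeFG X * gFun z)
      (phi x * (slopeFG x - slopeFG X)) x := fun x hx => by
    refine ((hasDerivAt_fFun hx).sub ((hasDerivAt_gFun hx).const_mul (slopeFG X))).congr_deriv ?_
    unfold slopeFG
    have := phi_pos hx
    field_simp
  rcases le_total z X with h | h
  · refine monotoneOn_of_deriv_nonneg (convex_Icc 0 X) (hc.mono (fun x hx => hx.1)) ?_ ?_
      ⟨hz, h⟩ ⟨hX.le, le_rfl⟩ h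
    · intro x hx; rw [interior_Icc] at hx
      exact (hd x hx.1).differentiableAt.differentiableWithinAt
    · intro x hx; rw [interior_Icc] at hx
      rw [(hd x hx.1).deriv]
      exact mul_nonneg (phi_pos hx.1).le (sub_nonneg.2 (slopeFG_antitone hx.1 hx.2.le))
  · refine antitoneOn_of_deriv_nonpos (convex_Ici X)
      (hc.mono (fun x hx => le_trans hX.le hx)) ?_ ?_ self_mem_Ici h h
    · intro x hx; rw [interior_Ici] at hx
      exact (hd x (hX.trans hx)).differentiableAt.differentiableWithinAt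
    · intro x hx; rw [interior_Ici] at hx
      rw [(hd x (hX.trans hx)).deriv]
      exact mul_nonpos_of_nonneg_of_nonpos (phi_pos (hX.trans hx)).le
        (sub_nonpos.2 (slopeFG_antitone hX (le_of_lt hx)))

/-- `T = -f'/f''`. -/
def TT (a : ℝ) : ℝ := a * (1 + a) * FF a

lemma TT_pos {a : ℝ} (ha : 0 < a) : 0 < TT a :=
  mul_pos (mul_pos ha (by linarith)) (FF_pos' ha)

lemma hasDerivAt_TT {a : ℝ} (ha : 0 < a) : HasDerivAt TT ((1 + 3 * a) * FF a - 1) a := by
  refine (((hasDerivAt_id a).mul ((hasDerivAt_id a).const_add 1)).mul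
    (hasDerivAt_FF ha)).congr_deriv ?_
  simp only [id_eq, Pi.mul_apply]
  field_simp
  ring

lemma TT_mono {x y : ℝ} (hx : 0 < x) (hxy : x ≤ y) : TT x ≤ TT y := by
  refine monotoneOn_of_deriv_nonneg (convex_Ioi 0) ?_ ?_ ?_ hx (lt_of_lt_of_le hx hxy) hxy
  · exact fun z hz => (hasDerivAt_TT hz).continuousAt.continuousWithinAt
  · intro z hz; rw [interior_Ioi] at hz
    exact (hasDerivAt_TT hz).differentiableAt.differentiableWithinAt
  · intro z hz; rw [interior_Ioi] at hz
    rw [(hasDerivAt_TT hz).deriv]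
    have := K_pos hz
    linarith

lemma TT_scale {η z : ℝ} (hη : 0 < η) (hη1 : η ≤ 1) (hz : 0 < z) : η * TT z ≤ TT (η * z) := by
  have hd : ∀ x : ℝ, 0 < x → HasDerivAt (fun x => (1 + x) * FF x)
      ((2 * x * FF x - 1) / x) x := fun x hx => by
    refine (((hasDerivAt_id x).const_add 1).mul (hasDerivAt_FF hx)).congr_deriv ?_
    simp only [id_eq]
    field_simp
    ring
  have hz' : 0 < η * z := mul_pos hη hz
  have h : (1 + z) * FF z ≤ (1 + η * z) * FF (η * z) := by
    refine (antitoneOn_of_deriv_nonpos (f := fun x => (1 + x) * FF x) (convex_Ioi 0) ?_ ?_ ?_) hz' hz (by nlinarith)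
    · exact fun x hx => (hd x hx).continuousAt.continuousWithinAt
    · intro x hx; rw [interior_Ioi] at hx
      exact (hd x hx).differentiableAt.differentiableWithinAt
    · intro x hx; rw [interior_Ioi] at hx
      rw [(hd x hx).deriv]
      exact (div_neg_of_neg_of_pos (by linarith [two_aF_lt hx]) hx).le
  have := mul_le_mul_of_nonneg_left h hz'.le
  unfold TT
  nlinarith

lemma ratio_mono {η c x y : ℝ} (hη : 0 < η) (hη1 : η ≤ 1) (hc : 0 ≤ c) (hx : 0 < x) (hxy : x ≤ y) :
    fD (η * x + c) / fD x ≤ fD (η * y + c) / fD y := by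
  have hw : ∀ z, 0 < z → 0 < η * z + c := fun z hz => by
    have := mul_pos hη hz; linarith
  have hd : ∀ z, 0 < z → HasDerivAt (fun z => fD (η * z + c) / fD z)
      (fD (η * z + c) / fD z * (1 / TT z - η / TT (η * z + c))) z := by
    intro z hz
    have h1 : HasDerivAt (fun z => η * z + c) η z := by
      simpa using ((hasDerivAt_id z).const_mul η).add_const c
    have h2 := ((hasDerivAt_fD (hw z hz)).comp z h1).div (hasDerivAt_fD hz) (fD_pos hz).ne'
    refine h2.congr_deriv ?_
    have := hw z hz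
    have := FF_pos' hz
    have := FF_pos' (hw z hz)
    have : 0 < 1 + (η * z + c) := by linarith
    simp only [Function.comp_apply]
    unfold TT fD
    field_simp
    ring
  refine (monotoneOn_of_deriv_nonneg (f := fun z => fD (η * z + c) / fD z) (convex_Ioi 0) ?_ ?_ ?_) hx (lt_of_lt_of_le hx hxy) hxy
  · exact fun z hz => (hd z hz).continuousAt.continuousWithinAt
  · intro z hz; rw [interior_Ioi] at hz
    exact (hd z hz).differentiableAt.differentiableWithinAt
  · intro z hz; rw [interior_Ioi] at hz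
    have hz' : (0:ℝ) < z := hz
    rw [(hd z hz).deriv]
    refine mul_nonneg (div_pos (fD_pos (hw z hz)) (fD_pos hz)).le (sub_nonneg.2 ?_)
    rw [div_le_div_iff₀ (TT_pos (hw z hz)) (TT_pos hz'), one_mul]
    exact (TT_scale hη hη1 hz').trans (TT_mono (mul_pos hη hz') (by linarith))

lemma shift_tangent {η c a z : ℝ} (hη : 0 < η) (hη1 : η ≤ 1) (hc : 0 ≤ c) (ha : 0 < a)
    (hz : 0 ≤ z) :
    fFun (η * a + c) + η * fD (η * a + c) / fD a * (fFun z - fFun a) ≤ fFun (η * z + c) := by
  set ρ := η * fD (η * a + c) / fD a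
  have hw : ∀ z, 0 < z → 0 < η * z + c := fun z hz => by
    have := mul_pos hη hz; linarith
  have hcont : ContinuousOn (fun z => fFun (η * z + c) - ρ * fFun z) (Ici 0) := by
    refine (continuousOn_fFun.comp ((continuousOn_const.mul continuousOn_id).add
      continuousOn_const) ?_).sub (continuousOn_const.mul continuousOn_fFun)
    intro x hx
    have : (0:ℝ) ≤ x := hx
    simp only [mem_Ici, id_eq, Pi.add_apply, Pi.mul_apply]
    positivity
  have hd : ∀ x, 0 < x → HasDerivAt (fun z => fFun (η * z + c) - ρ * fFun z)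
      (η * fD x * (fD (η * x + c) / fD x - fD (η * a + c) / fD a)) x := by
    intro x hx
    have h1 : HasDerivAt (fun z => η * z + c) η x := by
      simpa using ((hasDerivAt_id x).const_mul η).add_const c
    refine (((hasDerivAt_fFun (hw x hx)).comp x h1).sub
      ((hasDerivAt_fFun hx).const_mul ρ)).congr_deriv ?_
    have := (fD_pos hx).ne'
    simp only [ρ]
    field_simp
  suffices fFun (η * a + c) - ρ * fFun a ≤ fFun (η * z + c) - ρ * fFun z by linarith
  rcases le_total z a with h | h
  · refine antitoneOn_of_deriv_nonpos (convex_Icc 0 a) (hcont.mono (fun x hx => hx.1)) ?_ ?_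
      ⟨hz, h⟩ ⟨ha.le, le_rfl⟩ h
    · intro x hx; rw [interior_Icc] at hx
      exact (hd x hx.1).differentiableAt.differentiableWithinAt
    · intro x hx; rw [interior_Icc] at hx
      rw [(hd x hx.1).deriv]
      exact mul_nonpos_of_nonneg_of_nonpos (mul_pos hη (fD_pos hx.1)).le
        (sub_nonpos.2 (ratio_mono hη hη1 hc hx.1 hx.2.le))
  · refine monotoneOn_of_deriv_nonneg (convex_Ici a)
      (hcont.mono (fun x hx => le_trans ha.le hx)) ?_ ?_ self_mem_Ici h h
    · intro x hx; rw [interior_Ici] at hx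
      exact (hd x (ha.trans hx)).differentiableAt.differentiableWithinAt
    · intro x hx; rw [interior_Ici] at hx
      rw [(hd x (ha.trans hx)).deriv]
      exact mul_nonneg (mul_pos hη (fD_pos (ha.trans hx))).le
        (sub_nonneg.2 (ratio_mono hη hη1 hc ha (le_of_lt hx)))

/-- Weighted shift inequality: if the weighted mean of `f` is `f a`, then the weighted mean of
`f (η x + c)` is at least `f (η a + c)`. -/
lemma shift_mean {ι : Type*} (s : Finset ι) (w x : ι → ℝ) {η c a : ℝ} (hη : 0 < η) (hη1 : η ≤ 1)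
    (hc : 0 ≤ c) (ha : 0 ≤ a) (hw : ∀ i ∈ s, 0 ≤ w i) (hw1 : ∑ i ∈ s, w i = 1)
    (hx : ∀ i ∈ s, 0 ≤ x i) (hm : ∑ i ∈ s, w i * fFun (x i) = fFun a) :
    fFun (η * a + c) ≤ ∑ i ∈ s, w i * fFun (η * x i + c) := by
  rcases ha.eq_or_lt with rfl | ha
  · calc fFun (η * 0 + c) = ∑ i ∈ s, w i * fFun (η * 0 + c) := by
          rw [← Finset.sum_mul, hw1, one_mul]
      _ ≤ _ := Finset.sum_le_sum fun i hi => mul_le_mul_of_nonneg_left
          (strictMonoOn_fFun.monotoneOn (mem_Ici.2 (by linarith))
            (mem_Ici.2 (by have := hx i hi; positivity))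
            (by nlinarith [hx i hi])) (hw i hi)
  · calc fFun (η * a + c) = ∑ i ∈ s, w i *
          (fFun (η * a + c) + η * fD (η * a + c) / fD a * (fFun (x i) - fFun a)) := by
          have e : ∀ i ∈ s, w i *
              (fFun (η * a + c) + η * fD (η * a + c) / fD a * (fFun (x i) - fFun a)) =
              w i * (fFun (η * a + c) - η * fD (η * a + c) / fD a * fFun a)
              + η * fD (η * a + c) / fD a * (w i * fFun (x i)) := fun i _ => by ring
          rw [Finset.sum_congr rfl e, Finset.sum_add_distrib, ← Finset.sum_mul, hw1,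
            ← Finset.mul_sum, hm]
          ring
      _ ≤ _ := Finset.sum_le_sum fun i hi =>
          mul_le_mul_of_nonneg_left (shift_tangent hη hη1 hc ha (hx i hi)) (hw i hi)

end Vale.Agent.P369
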