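import Vale.Agent.P369.Convexity

open Real Set Filter

noncomputable section

namespace Vale.Agent.P369

/-- `psi = 1/phi`. -/
def psi (A : ℝ) : ℝ := 1 / phi A

/-- First derivative of `psi`. -/
def psi1 (A : ℝ) : ℝ := 1 / (A * (1 + A) * phi A ^ 2)

/-- Second derivative of `psi`. -/
def psi2 (A : ℝ) : ℝ := -((2 * A + 1) * phi A - 2) / (A ^ 2 * (1 + A) ^ 2 * phi A ^ 3)

lemma hasDerivAt_psi {A : ℝ} (hA : 0 < A) : HasDerivAt psi (psi1 A) A := by
  have hp := phi_pos hA
  have h : HasDerivAt psi ((0 * phi A - 1 * (-1 / (A * (A + 1)))) / phi A ^ 2) A :=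
    (hasDerivAt_const A (1:ℝ)).div (hasDerivAt_phi hA) hp.ne'
  refine h.congr_deriv ?_
  unfold psi1
  field_simp
  ring

lemma hasDerivAt_psi1 {A : ℝ} (hA : 0 < A) : HasDerivAt psi1 (psi2 A) A := by
  have hp := phi_pos hA
  have h1 : HasDerivAt (fun t : ℝ => t * (1 + t) * phi t ^ 2)
      ((1 * (1 + A) + A * 1) * phi A ^ 2 + A * (1 + A) * (2 * phi A ^ 1 * (-1 / (A * (A + 1))))) A :=
    (((hasDerivAt_id A).mul ((hasDerivAt_id A).const_add 1))).mul ((hasDerivAt_phi hA).pow 2)
  have h : HasDerivAt psi1 _ A := (hasDerivAt_const A (1:ℝ)).div h1 (by positivity)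
  refine h.congr_deriv ?_
  unfold psi2
  field_simp
  ring

lemma psi2_neg {A : ℝ} (hA : 0 < A) : psi2 A < 0 := by
  have hp := phi_pos hA
  have h := phi_lower hA
  rw [div_lt_iff₀ (by positivity)] at h
  unfold psi2
  apply div_neg_of_neg_of_pos _ (by positivity)
  linarith

lemma psi1_lt {x y : ℝ} (hx : 0 < x) (hxy : x < y) : psi1 y < psi1 x := by
  refine strictAntiOn_of_deriv_neg (convex_Ioi 0) ?_ ?_ hx (hx.trans hxy) hxy
  · exact fun z hz => (hasDerivAt_psi1 hz).continuousAt.continuousWithinAt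
  · intro z hz; rw [interior_Ioi] at hz
    rw [(hasDerivAt_psi1 hz).deriv]; exact psi2_neg hz

lemma psi1_eq {A : ℝ} (hA : 0 < A) : psi1 A = (1 + A) / (A * (FF A + 1) ^ 2) := by
  have := FF_pos' hA
  unfold psi1; rw [phi_eq_FF hA]; field_simp

lemma one_lt_psi1 {A : ℝ} (hA : 0 < A) : 1 < psi1 A := by
  have := FF_pos' hA
  rw [psi1_eq hA, one_lt_div (by positivity)]
  nlinarith [aFF_sq_lt hA]

/-- `R = -f''/f'^2`. -/
def RR (a : ℝ) : ℝ := 1 / (a * FF a ^ 2)

/-- Derivative of `RR`. -/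
def RR1 (a : ℝ) : ℝ := (2 - (1 + 3 * a) * FF a) / (a ^ 2 * (1 + a) * FF a ^ 3)

lemma hasDerivAt_RR {a : ℝ} (ha : 0 < a) : HasDerivAt RR (RR1 a) a := by
  have hF := FF_pos' ha
  have h1 : HasDerivAt (fun t : ℝ => t * FF t ^ 2)
      (1 * FF a ^ 2 + a * (2 * FF a ^ 1 * ((a * FF a - 1) / (a * (1 + a))))) a :=
    (hasDerivAt_id a).mul ((hasDerivAt_FF ha).pow 2)
  have h : HasDerivAt RR _ a := (hasDerivAt_const a (1:ℝ)).div h1 (by positivity)
  refine h.congr_deriv ?_
  unfold RR1
  field_simp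
  ring

/-- The expression controlling monotonicity of the level-set curvature. -/
def EE (a c : ℝ) : ℝ :=
  fD a * (RR a * (1 - c ^ 2 * fFun a ^ 2) - 2 * c) - RR1 a * fFun a * (1 - c * fFun a) ^ 2

lemma EE_one_pos {a : ℝ} (ha : 0 < a) : 0 < EE a 1 := by
  have hF := FF_pos' ha
  have haF := aF_lt ha
  have e : EE a 1 = FF a / (1 + a) * (-(2 * a * (1 + a) * FF a ^ 2 + a * FF a - 1)
        / (a * (1 + a) * FF a ^ 2))
      + (a * (FF a + 1) / (1 + a)) * ((1 - a * FF a) / (1 + a)) *
        (-(2 * a ^ 2 * FF a ^ 2 - (1 + 5 * a) * FF a + 2) / (a ^ 2 * (1 + a) ^ 2 * FF a ^ 3)) := by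
    unfold EE fD RR RR1
    rw [fFun_eq_FF ha]
    field_simp
    ring
  rw [e]
  have h1 := G1_neg ha
  have h2 := G2_neg ha
  refine add_pos (mul_pos (by positivity) (div_pos (by linarith) (by positivity))) ?_
  refine mul_pos (mul_pos (by positivity) (div_pos (by linarith) (by linarith)))
    (div_pos (by linarith) (by positivity))

lemma EE_psi1_pos {a : ℝ} (ha : 0 < a) : 0 < EE a (psi1 a) := by
  have hF := FF_pos' ha
  have e : EE a (psi1 a) = -(2 * a ^ 2 * FF a ^ 2 - (1 + 5 * a) * FF a + 2)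
      / (a * (1 + a) ^ 2 * (FF a + 1) ^ 2 * FF a) := by
    unfold EE fD RR RR1
    rw [fFun_eq_FF ha, psi1_eq ha]
    field_simp
    ring
  rw [e]
  exact div_pos (by linarith [G2_neg ha]) (by positivity)

lemma EE_pos {a c : ℝ} (ha : 0 < a) (hc : 1 < c) (hc2 : c < psi1 a) : 0 < EE a c := by
  have hF := FF_pos' ha
  have h1 := EE_one_pos ha
  have h2 := EE_psi1_pos ha
  have hq : 0 < fD a * RR a + fFun a * RR1 a := by
    have e : fD a * RR a + fFun a * RR1 a =
        (2 + (1 - 3 * a) * FF a - 2 * a * FF a ^ 2) / (a * (1 + a) ^ 2 * FF a ^ 3) := by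
      unfold fD RR RR1
      rw [fFun_eq_FF ha]
      field_simp
      ring
    rw [e]
    exact div_pos (G3_pos ha) (by positivity)
  set cm := psi1 a
  have e : EE a c = (cm - c) / (cm - 1) * EE a 1 + (c - 1) / (cm - 1) * EE a cm
      + fFun a ^ 2 * (fD a * RR a + fFun a * RR1 a) * ((c - 1) * (cm - c)) := by
    have : cm - 1 ≠ 0 := by linarith
    unfold EE
    field_simp
    ring
  rw [e]
  have t1 : 0 < (cm - c) / (cm - 1) * EE a 1 :=
    mul_pos (div_pos (by linarith) (by linarith)) h1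
  have t2 : 0 < (c - 1) / (cm - 1) * EE a cm :=
    mul_pos (div_pos (by linarith) (by linarith)) h2
  have t3 : 0 ≤ fFun a ^ 2 * (fD a * RR a + fFun a * RR1 a) * ((c - 1) * (cm - c)) :=
    mul_nonneg (mul_nonneg (sq_nonneg _) hq.le) (mul_nonneg (by linarith) (by linarith))
  linarith

lemma fFun_pos {a : ℝ} (ha : 0 < a) : 0 < fFun a := mul_pos ha (phi_pos ha)

/-- Level-set convexity: the bordered Hessian of `A - f a / phi A` is positive for `a < A`. -/
lemma core {a A : ℝ} (ha : 0 < a) (haA : a < A) :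
    0 < RR a * (1 - fFun a * psi1 A) ^ 2 - 2 * psi1 A * (1 - fFun a * psi1 A)
      + fFun a * (-(psi A * psi2 A)) := by
  have hA : 0 < A := ha.trans haA
  set c := psi1 A with hc
  let Hh : ℝ → ℝ := fun x => (2 * c * (1 - c * fFun x) - RR x * (1 - c * fFun x) ^ 2) / fFun x
  have hH : ∀ x, 0 < x → HasDerivAt Hh (EE x c / fFun x ^ 2) x := by
    intro x hx
    have h1 : HasDerivAt (fun x => 1 - c * fFun x) (-(c * fD x)) x :=
      ((hasDerivAt_fFun hx).const_mul c).const_sub 1
    have h2 := ((h1.const_mul (2 * c)).sub ((hasDerivAt_RR hx).mul (h1.pow 2))).div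
      (hasDerivAt_fFun hx) (fFun_pos hx).ne'
    refine HasDerivAt.congr_deriv h2 ?_
    simp only [Pi.sub_apply, Pi.mul_apply, Pi.pow_apply]
    unfold EE
    congr 1
    push_cast
    ring
  have hmono : Hh a < Hh A := by
    refine strictMonoOn_of_deriv_pos (convex_Icc a A) ?_ ?_
      (left_mem_Icc.2 haA.le) (right_mem_Icc.2 haA.le) haA
    · exact fun x hx => (hH x (lt_of_lt_of_le ha hx.1)).continuousAt.continuousWithinAt
    · intro x hx; rw [interior_Icc] at hx
      have hx0 : 0 < x := ha.trans hx.1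
      rw [(hH x hx0).deriv]
      exact div_pos (EE_pos hx0 (one_lt_psi1 hA) (psi1_lt hx0 hx.2)) (pow_pos (fFun_pos hx0) 2)
  have hHA : Hh A = -(psi A * psi2 A) := by
    have := FF_pos' hA
    simp only [Hh, hc]
    unfold psi psi2 RR
    rw [psi1_eq hA, phi_eq_FF hA, fFun_eq_FF hA]
    field_simp
    ring
  have hfa := fFun_pos ha
  have : Hh a * fFun a = 2 * c * (1 - c * fFun a) - RR a * (1 - c * fFun a) ^ 2 :=
    div_mul_cancel₀ _ hfa.ne'
  have h3 : Hh a * fFun a < -(psi A * psi2 A) * fFun a := by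
    rw [← hHA]; exact mul_lt_mul_of_pos_right hmono hfa
  have e : c * fFun a = fFun a * c := mul_comm _ _
  rw [e] at this
  linarith

/-- The deficit. -/
def defect (a A : ℝ) : ℝ := A - fFun a / phi A

lemma defect_nonneg {a A : ℝ} (ha : 0 ≤ a) (haA : a ≤ A) : 0 ≤ defect a A := by
  rcases (ha.trans haA).eq_or_lt with h | hA
  · have : a = 0 := le_antisymm (h ▸ haA) ha
    simp [defect, this, fFun_zero, ← h]
  · unfold defect
    rw [sub_nonneg, div_le_iff₀ (phi_pos hA)]
    exact strictMonoOn_fFun.monotoneOn ha hA.le haA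

lemma defect_le {a A : ℝ} (ha : 0 ≤ a) (haA : a ≤ A) : defect a A ≤ A := by
  rcases (ha.trans haA).eq_or_lt with h | hA
  · have : a = 0 := le_antisymm (h ▸ haA) ha
    simp [defect, this, fFun_zero]
  · unfold defect
    have := div_nonneg (fFun_nonneg ha) (phi_pos hA).le
    linarith

lemma defect_quasi_pos {a₀ a₁ A₀ A₁ : ℝ} (ha₀ : 0 ≤ a₀) (ha₁ : 0 ≤ a₁) (h₀ : a₀ ≤ A₀)
    (h₁ : a₁ ≤ A₁) (hA₀ : 0 < A₀) (hA₁ : 0 < A₁) {s : ℝ} (hs : s ∈ Icc (0:ℝ) 1) :
    defect (a₀ + s * (a₁ - a₀)) (A₀ + s * (A₁ - A₀))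
      ≤ max (defect a₀ A₀) (defect a₁ A₁) := by
  set a : ℝ → ℝ := fun s => a₀ + s * (a₁ - a₀) with hadef
  set A : ℝ → ℝ := fun s => A₀ + s * (A₁ - A₀) with hAdef
  set d : ℝ → ℝ := fun s => defect (a s) (A s) with hddef
  show d s ≤ _
  have ha' : ∀ s ∈ Icc (0:ℝ) 1, 0 ≤ a s := fun s hs => by
    simp only [hadef]; nlinarith [hs.1, hs.2]
  have haA' : ∀ s ∈ Icc (0:ℝ) 1, a s ≤ A s := fun s hs => by
    simp only [hadef, hAdef]; nlinarith [hs.1, hs.2]
  have hA' : ∀ s ∈ Icc (0:ℝ) 1, 0 < A s := fun s hs => by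
    simp only [hAdef]
    rcases hs.1.eq_or_lt with h | h
    · simp [← h, hA₀]
    · nlinarith [hs.2, mul_pos h hA₁]
  by_cases hzero : a₀ = 0 ∧ a₁ = 0
  · obtain ⟨rfl, rfl⟩ := hzero
    have e : d s = A₀ + s * (A₁ - A₀) := by
      simp [hddef, hadef, hAdef, defect, fFun_zero]
    rw [e]
    simp only [defect, fFun_zero, zero_div, sub_zero]
    rcases le_total A₀ A₁ with h | h
    · exact le_max_of_le_right (by nlinarith [hs.2])
    · exact le_max_of_le_left (by nlinarith [hs.1])
  have hapos : ∀ s ∈ Ioo (0:ℝ) 1, 0 < a s := by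
    intro s hs
    simp only [hadef]
    rcases ha₀.eq_or_lt with h | h
    · have h' : 0 < a₁ := by
        rcases ha₁.eq_or_lt with h1 | h1
        · exact absurd ⟨h.symm, h1.symm⟩ hzero
        · exact h1
      nlinarith [mul_pos hs.1 h', hs.2]
    · nlinarith [mul_pos (sub_pos.2 hs.2) h, mul_nonneg hs.1.le ha₁]
  have hcont : ContinuousOn d (Icc 0 1) := by
    have hA2 : ContinuousOn (fun s => phi (A s)) (Icc 0 1) := fun s hs =>
      ((hasDerivAt_phi (hA' s hs)).continuousAt.comp (by fun_prop)).continuousWithinAt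
    refine ContinuousOn.sub (by fun_prop) (ContinuousOn.div ?_ hA2 fun s hs => (phi_pos (hA' s hs)).ne')
    exact continuousOn_fFun.comp (by fun_prop) fun s hs => ha' s hs
  obtain ⟨m, hm, hmax⟩ := isCompact_Icc.exists_isMaxOn ⟨0, by simp⟩ hcont
  refine le_trans (hmax hs) ?_
  by_contra hbad
  push Not at hbad
  have hd0 : d 0 = defect a₀ A₀ := by simp [hddef, hadef, hAdef]
  have hd1 : d 1 = defect a₁ A₁ := by simp [hddef, hadef, hAdef]
  rw [max_lt_iff] at hbad
  have hm' : m ∈ Ioo (0:ℝ) 1 := by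
    refine ⟨lt_of_le_of_ne hm.1 ?_, lt_of_le_of_ne hm.2 ?_⟩
    · rintro rfl; linarith [hbad.1]
    · rintro rfl; linarith [hbad.2]
  have hlt : a m < A m := by
    refine lt_of_le_of_ne (haA' m hm) fun he => ?_
    have : d m = 0 := by
      simp only [hddef, defect, he, fFun]
      rw [mul_div_assoc, div_self (phi_pos (hA' m hm)).ne', mul_one, sub_self]
    linarith [hbad.1, defect_nonneg ha₀ h₀]
  have hlm : IsLocalMax d m := hmax.isLocalMax (Icc_mem_nhds hm'.1 hm'.2)
  set da := a₁ - a₀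
  set dA := A₁ - A₀
  let d1 : ℝ → ℝ := fun s => dA - (fD (a s) * da * psi (A s) + fFun (a s) * (psi1 (A s) * dA))
  have haD : ∀ s, HasDerivAt a da s := fun s => by
    simpa [hadef] using ((hasDerivAt_id s).mul_const da).const_add a₀
  have hAD : ∀ s, HasDerivAt A dA s := fun s => by
    simpa [hAdef] using ((hasDerivAt_id s).mul_const dA).const_add A₀
  have hd : ∀ s ∈ Ioo (0:ℝ) 1, HasDerivAt d (d1 s) s := by
    intro s hs
    have hs' : s ∈ Icc (0:ℝ) 1 := Ioo_subset_Icc_self hs
    have h := (hAD s).sub (((hasDerivAt_fFun (hapos s hs)).comp s (haD s)).mul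
      ((hasDerivAt_psi (hA' s hs')).comp s (hAD s)))
    refine h.congr_of_eventuallyEq (Eventually.of_forall fun t => ?_)
    simp only [hddef, defect, psi, Pi.sub_apply, Pi.mul_apply, Function.comp_apply]
    ring
  have ha0 := hapos m hm'
  have hA0 := hA' m hm
  have hd2 : HasDerivAt d1 (-(-1 / (a m * (1 + a m) ^ 2) * da * da * psi (A m)
      + fD (a m) * da * (psi1 (A m) * dA) + (fD (a m) * da * (psi1 (A m) * dA)
      + fFun (a m) * (psi2 (A m) * dA * dA)))) m := by
    exact (((((hasDerivAt_fD ha0).comp m (haD m)).mul_const da).mul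
      ((hasDerivAt_psi hA0).comp m (hAD m))).add
      (((hasDerivAt_fFun ha0).comp m (haD m)).mul
      (((hasDerivAt_psi1 hA0).comp m (hAD m)).mul_const dA))).const_sub dA
  have hcrit : d1 m = 0 := hlm.hasDerivAt_eq_zero (hd m hm')
  have hps : 0 < psi (A m) := one_div_pos.2 (phi_pos hA0)
  have hF := FF_pos' ha0
  by_cases hdA : dA = 0
  · have : da = 0 := by
      simp only [d1, hdA] at hcrit
      have h0 := fD_pos ha0
      have : fD (a m) * da * psi (A m) = 0 := by linarith
      simpa [h0.ne', hps.ne'] using this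
    have : d m = d 0 := by
      simp only [hddef, hadef, hAdef, this, hdA]
      simp
    linarith [hbad.1]
  set u := 1 - fFun (a m) * psi1 (A m) with hu
  have hda : fD (a m) * da * psi (A m) = dA * u := by
    simp only [d1] at hcrit; rw [hu]; linarith
  have hval : 0 < -(-1 / (a m * (1 + a m) ^ 2) * da * da * psi (A m)
      + fD (a m) * da * (psi1 (A m) * dA) + (fD (a m) * da * (psi1 (A m) * dA)
      + fFun (a m) * (psi2 (A m) * dA * dA))) := by
    have hfd := fD_pos ha0
    have hda' : da = dA * u / (fD (a m) * psi (A m)) := by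
      rw [eq_div_iff (mul_ne_zero hfd.ne' hps.ne')]; linarith
    have e : -(-1 / (a m * (1 + a m) ^ 2) * da * da * psi (A m)
      + fD (a m) * da * (psi1 (A m) * dA) + (fD (a m) * da * (psi1 (A m) * dA)
      + fFun (a m) * (psi2 (A m) * dA * dA))) = dA ^ 2 / psi (A m) *
        (RR (a m) * u ^ 2 - 2 * psi1 (A m) * u + fFun (a m) * (-(psi (A m) * psi2 (A m)))) := by
      rw [hda']
      unfold RR fD
      field_simp
      ring
    rw [e]
    exact mul_pos (div_pos (by positivity) hps) (core ha0 hlt)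
  have hev : deriv d =ᶠ[nhds m] d1 :=
    (Ioo_mem_nhds hm'.1 hm'.2 |> fun h => Filter.eventually_of_mem h fun s hs => (hd s hs).deriv)
  have hmin : IsLocalMin d m := by
    refine isLocalMin_of_deriv_deriv_pos ?_ (by rw [(hd m hm').deriv, hcrit]) (hd m hm').continuousAt
    rw [hev.deriv_eq, hd2.deriv]
    exact hval
  have heq : ∀ᶠ s in nhds m, d s = d m := (hlm.and hmin).mono fun s h => le_antisymm h.1 h.2
  have h0 : deriv d =ᶠ[nhds m] fun _ => 0 := by
    have : d =ᶠ[nhds m] fun _ => d m := heq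
    exact this.deriv.trans (Eventually.of_forall fun s => by simp)
  have : d1 =ᶠ[nhds m] fun _ => 0 := hev.symm.trans h0
  have := this.deriv_eq
  rw [hd2.deriv, deriv_const] at this
  linarith

/-- Quasiconvexity of the deficit on `0 ≤ a ≤ A`. -/
lemma defect_quasi {a b A B η : ℝ} (ha : 0 ≤ a) (hb : 0 ≤ b) (haA : a ≤ A) (hbB : b ≤ B)
    (hη0 : 0 ≤ η) (hη1 : η ≤ 1) :
    defect (η * a + (1 - η) * b) (η * A + (1 - η) * B) ≤ max (defect a A) (defect b B) := by
  wlog hA : A ≤ B generalizing a b A B η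
  · have := this hb ha hbB haA (η := 1 - η) (by linarith) (by linarith) (le_of_not_ge hA)
    rw [max_comm] at this
    convert this using 2 <;> ring
  rcases (ha.trans haA).eq_or_lt with h | hA0
  · subst h
    obtain rfl : a = 0 := le_antisymm haA ha
    simp only [mul_zero, zero_add]
    rcases (hb.trans hbB).eq_or_lt with h | hB0
    · subst h
      obtain rfl : b = 0 := le_antisymm hbB hb
      simp [defect, fFun_zero]
    set s := 1 - η with hs
    rcases (show 0 ≤ s by simp only [hs]; linarith).eq_or_lt with h | hspos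
    · rw [← h]; simp [defect, fFun_zero]
    refine le_of_forall_pos_le_add fun ε hε => ?_
    set δ := min s (ε / B) with hδ
    have hδ0 : 0 < δ := lt_min hspos (div_pos hε hB0)
    have hδ1 : δ ≤ s := min_le_left _ _
    have hδB : δ * B ≤ ε := by
      have : δ ≤ ε / B := min_le_right _ _
      rwa [le_div_iff₀ hB0] at this
    rcases (show δ ≤ 1 by simp only [hs] at hδ1; linarith).eq_or_lt with h | hδlt
    · have : s = 1 := le_antisymm (by simp only [hs]; linarith) (h ▸ hδ1)
      rw [this, one_mul, one_mul]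
      linarith [le_max_right (defect 0 0) (defect b B)]
    have key := defect_quasi_pos (a₀ := δ * b) (A₀ := δ * B) (mul_nonneg hδ0.le hb) hb
      (mul_le_mul_of_nonneg_left hbB hδ0.le) hbB (mul_pos hδ0 hB0) hB0
      (s := (s - δ) / (1 - δ))
      ⟨div_nonneg (by linarith) (by linarith), by
        rw [div_le_one (by linarith)]; simp only [hs]; linarith⟩
    have e1 : δ * b + (s - δ) / (1 - δ) * (b - δ * b) = s * b := by
      field_simp [(sub_pos.2 hδlt).ne']; ring
    have e2 : δ * B + (s - δ) / (1 - δ) * (B - δ * B) = s * B := by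
      field_simp [(sub_pos.2 hδlt).ne']; ring
    rw [e1, e2] at key
    refine key.trans (max_le ?_ ?_)
    · have := defect_le (mul_nonneg hδ0.le hb) (mul_le_mul_of_nonneg_left hbB hδ0.le)
      have h0 : 0 ≤ max (defect 0 0) (defect b B) :=
        le_max_of_le_left (by simp [defect, fFun_zero])
      linarith
    · have : defect b B ≤ max (defect 0 0) (defect b B) := le_max_right _ _
      linarith
  · have h := defect_quasi_pos ha hb haA hbB hA0 (lt_of_lt_of_le hA0 hA) (s := 1 - η)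
      ⟨by linarith, by linarith⟩
    convert h using 2 <;> ring

/-- The key scalar inequality. -/
lemma key_scalar {a b A B η : ℝ} (ha : 0 ≤ a) (hb : 0 ≤ b) (haA : a ≤ A) (hbB : b ≤ B)
    (hη0 : 0 ≤ η) (hη1 : η ≤ 1) :
    η * A + (1 - η) * B - max (defect a A) (defect b B)
      ≤ fFun (η * a + (1 - η) * b) / phi (η * A + (1 - η) * B) := by
  have h := defect_quasi ha hb haA hbB hη0 hη1
  have e : ∀ x y, defect x y = y - fFun x / phi y := fun _ _ => rfl
  rw [e (η * a + (1 - η) * b)] at h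
  linarith

end Vale.Agent.P369
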