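import Vale.Agent.P369.Series
import Vale.Agent.P369.Quasi

open PowerSeries Finset Filter

noncomputable section

namespace Vale.Agent.P369

/-- Backward difference of a sequence. -/
def dlt (p : ℕ → ℝ) (k : ℕ) : ℝ := p k - p (k + 1)

/-- Shifted sequence. -/
def shf (p : ℕ → ℝ) (k : ℕ) : ℝ := p (k + 1)

/-- The pure-death generator. -/
def gen (p : ℕ → ℝ) (k : ℕ) : ℝ := ((k : ℝ) + 1) * p (k + 1) - (k : ℝ) * p k

/-- The vacuum distribution. -/
def vac (k : ℕ) : ℝ := if k = 0 then 1 else 0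

/-- Pairing of two distributions with a series. -/
def pair (N : ℕ) (p q : ℕ → ℝ) (φ : BS) : ℝ :=
  ∑ i ∈ range N, ∑ j ∈ range N, p i * q j * cf i j φ

/-- Output photon-number distribution of the beam splitter for Fock-diagonal inputs. -/
def pC (N : ℕ) (η : ℝ) (p q : ℕ → ℝ) (m : ℕ) : ℝ :=
  ∑ i ∈ range N, ∑ j ∈ range N, p i * q j * bsProb η i j m

/-- A passive distribution supported below `N`. -/
structure Passive (N : ℕ) (p : ℕ → ℝ) : Prop where
  nonneg : ∀ k, 0 ≤ p k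
  anti : ∀ k, p (k + 1) ≤ p k
  supp : ∀ k, N ≤ k → p k = 0
  total : ∑ k ∈ range N, p k = 1

/-- Shannon entropy of the first `M` entries. -/
def ent (M : ℕ) (p : ℕ → ℝ) : ℝ := ∑ k ∈ range M, Real.negMulLog (p k)

/-- The perspective of `fFun`. -/
def pers (q c : ℝ) : ℝ := q * (Real.log (q + c) - Real.log q)

/-- Entropy production rate under the pure-loss semigroup. -/
def Qf (M : ℕ) (p : ℕ → ℝ) : ℝ :=
  ∑ k ∈ range M, pers (((k : ℝ) + 1) * shf p k) (((k : ℝ) + 1) * dlt p k)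

/-- Inverse of `gFun` on `[0, ∞)`. -/
def ginv (s : ℝ) : ℝ := Function.invFunOn gFun (Set.Ici 0) s

lemma pC_eq_pair (N : ℕ) (η : ℝ) (p q : ℕ → ℝ) (m : ℕ) :
    pC N η p q m = pair N p q (GS η m) := by simp [pC, pair, cf_GS]

lemma pair_sub (N : ℕ) (p q : ℕ → ℝ) (φ ψ : BS) :
    pair N p q (φ - ψ) = pair N p q φ - pair N p q ψ := by
  simp only [pair, cf_sub, mul_sub, Finset.sum_sub_distrib]

lemma pair_add (N : ℕ) (p q : ℕ → ℝ) (φ ψ : BS) :
    pair N p q (φ + ψ) = pair N p q φ + pair N p q ψ := by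
  simp only [pair, cf_add, mul_add, Finset.sum_add_distrib]

lemma pair_cR_mul (N : ℕ) (p q : ℕ → ℝ) (a : ℝ) (φ : BS) :
    pair N p q (cR a * φ) = a * pair N p q φ := by
  simp only [pair, cf_cR_mul, Finset.mul_sum]
  exact Finset.sum_congr rfl fun i _ => Finset.sum_congr rfl fun j _ => by ring

lemma sum_shift_eq (N : ℕ) (F G : ℕ → ℝ) (h0 : F 0 = 0) (hN : G N = 0)
    (hs : ∀ i, F (i + 1) = G i) (hlast : F N = 0) :
    ∑ i ∈ range N, F i = ∑ i ∈ range N, G i := by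
  have a := Finset.sum_range_succ' F N
  have b := Finset.sum_range_succ F N
  rw [b, h0, hlast, add_zero, add_zero] at a
  rw [a]; exact Finset.sum_congr rfl fun i _ => hs i

lemma pair_sX (N : ℕ) (p q : ℕ → ℝ) (hp : ∀ i, N ≤ i → p i = 0) (φ : BS) :
    pair N p q (sX * φ) = pair N (shf p) q φ := by
  unfold pair
  refine sum_shift_eq N _ _ ?_ ?_ ?_ ?_
  · simp [cf_sX_zero]
  · simp [shf, hp (N + 1) (by omega)]
  · intro i; simp [cf_sX_succ, shf]
  · simp [hp N le_rfl]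

lemma pair_tX (N : ℕ) (p q : ℕ → ℝ) (hq : ∀ j, N ≤ j → q j = 0) (φ : BS) :
    pair N p q (tX * φ) = pair N p (shf q) φ := by
  unfold pair
  refine Finset.sum_congr rfl fun i _ => ?_
  refine sum_shift_eq N _ _ ?_ ?_ ?_ ?_
  · simp [cf_tX_zero]
  · simp [shf, hq (N + 1) (by omega)]
  · intro j; simp [cf_tX_succ, shf]
  · simp [hq N le_rfl]

lemma pair_one_sub_sX (N : ℕ) (p q : ℕ → ℝ) (hp : ∀ i, N ≤ i → p i = 0) (φ : BS) :
    pair N p q ((1 - sX) * φ) = pair N (dlt p) q φ := by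
  rw [sub_mul, one_mul, pair_sub, pair_sX N p q hp]
  simp only [pair, dlt, shf, sub_mul, Finset.sum_sub_distrib]

lemma pair_one_sub_tX (N : ℕ) (p q : ℕ → ℝ) (hq : ∀ j, N ≤ j → q j = 0) (φ : BS) :
    pair N p q ((1 - tX) * φ) = pair N p (dlt q) φ := by
  rw [sub_mul, one_mul, pair_sub, pair_tX N p q hq]
  simp only [pair, dlt, shf, mul_sub, sub_mul, Finset.sum_sub_distrib]

lemma dlt_support (N : ℕ) (p : ℕ → ℝ) (hp : ∀ i, N ≤ i → p i = 0) :
    ∀ i, N ≤ i → dlt p i = 0 := fun i hi => by simp [dlt, hp i hi, hp (i + 1) (by omega)]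

variable {N : ℕ} {η : ℝ} {p q : ℕ → ℝ}

/-- The exact identity for the decrements of the output. -/
lemma out_diff (h0 : 0 ≤ η) (h1 : η ≤ 1) (hp : ∀ i, N ≤ i → p i = 0)
    (hq : ∀ j, N ≤ j → q j = 0) (m : ℕ) :
    ((m : ℝ) + 1) * (pC N η p q m - pC N η p q (m + 1))
      = pair N (dlt p) (dlt q) (WS η m) := by
  rw [pC_eq_pair, pC_eq_pair, ← pair_sub, ← pair_cR_mul, GS_diff h0 h1, mul_assoc,
    pair_one_sub_sX N p q hp, pair_one_sub_tX N (dlt p) q hq]

/-- The exact identity for the shifted output. -/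
lemma out_shift (h0 : 0 ≤ η) (h1 : η ≤ 1) (hp : ∀ i, N ≤ i → p i = 0)
    (hq : ∀ j, N ≤ j → q j = 0) (m : ℕ) :
    ((m : ℝ) + 1) * pC N η p q (m + 1)
      = η * pair N (shf p) (dlt q) (WS η m) + (1 - η) * pair N (dlt p) (shf q) (WS η m) := by
  rw [pC_eq_pair, ← pair_cR_mul, GS_shift h0 h1, pair_add, pair_cR_mul, pair_cR_mul, mul_assoc sX,
    mul_assoc tX, pair_sX N p q hp, pair_one_sub_tX N (shf p) q hq, pair_tX N p q hq,
    pair_one_sub_sX N p (shf q) hp]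

end Vale.Agent.P369
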