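import Vale.Agent.P369.RieszN

/-!
From finitely supported Fock-diagonal states to all Fock-diagonal states with finite mean photon
number, for inputs in any order.
-/

open Finset Filter Topology

noncomputable section

namespace Vale.Agent.P369

/-- An `n`-mode Fock-diagonal state with finite mean photon number (weights in any order). -/
structure DiagStateN {n : ℕ} (P : (Fin n → ℕ) → ℝ) : Prop where
  nonneg : ∀ k, 0 ≤ P k
  total : HasSum P 1
  mean : Summable (fun k : Fin n → ℕ => (∑ l, (k l : ℝ)) * P k)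

/-- A Fock-diagonal state supported in a box. -/
structure DiagBoxN (n N : ℕ) (P : (Fin n → ℕ) → ℝ) : Prop where
  nonneg : ∀ k, 0 ≤ P k
  supp : ∀ k, k ∉ box n N → P k = 0
  total : ∑ k ∈ box n N, P k = 1

variable {n : ℕ} {η : ℝ} {P Q : (Fin n → ℕ) → ℝ}

lemma DiagBoxN.le_one {N : ℕ} (h : DiagBoxN n N P) (k : Fin n → ℕ) : P k ≤ 1 := by
  by_cases hk : k ∈ box n N
  · rw [← h.total]; exact Finset.single_le_sum (fun j _ => h.nonneg j) hk
  · rw [h.supp k hk]; exact zero_le_one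

lemma DiagBoxN.entB_nonneg {N : ℕ} (h : DiagBoxN n N P) : 0 ≤ entB N P :=
  Finset.sum_nonneg fun k _ => Real.negMulLog_nonneg (h.nonneg k) (h.le_one k)

lemma DiagBoxN.pCN_le_one {N : ℕ} (hP : DiagBoxN n N P) (hQ : DiagBoxN n N Q) (h0 : 0 ≤ η)
    (h1 : η ≤ 1) (m : Fin n → ℕ) : pCN N η P Q m ≤ 1 :=
  calc pCN N η P Q m ≤ ∑ i ∈ box n N, ∑ j ∈ box n N, P i * Q j :=
        Finset.sum_le_sum fun i _ => Finset.sum_le_sum fun j _ =>
          mul_le_of_le_one_right (mul_nonneg (hP.nonneg i) (hQ.nonneg j))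
            (bsN_le_one_lim h0 h1 _ _ _)
    _ = 1 := by rw [← Finset.sum_mul_sum, hP.total, hQ.total, one_mul]

lemma DiagStateN.le_one (h : DiagStateN P) (k : Fin n → ℕ) : P k ≤ 1 :=
  le_hasSum h.total k fun j _ => h.nonneg j

lemma DiagStateN.summable_negMulLog (h : DiagStateN P) : Summable (Real.negMulLog ∘ P) :=
  Summable.of_norm_bounded (summable_entBoundN h.mean) fun k =>
    negMulLog_dom (h.nonneg k) (h.le_one k) (by linarith [h.nonneg k])

lemma DiagStateN.entN_nonneg (h : DiagStateN P) : 0 ≤ entN P :=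
  tsum_nonneg fun k => Real.negMulLog_nonneg (h.nonneg k) (h.le_one k)

lemma DiagStateN.tendsto_massN (h : DiagStateN P) : Tendsto (massN P) atTop (𝓝 1) :=
  h.total.comp tendsto_box

lemma DiagStateN.eventually_half (h : DiagStateN P) : ∀ᶠ N in atTop, (1 : ℝ) / 2 ≤ massN P N :=
  h.tendsto_massN.eventually_const_le (by norm_num)

lemma DiagStateN.truncN_diag (h : DiagStateN P) {N : ℕ} (hm : 0 < massN P N) :
    DiagBoxN n (N + 1) (truncN P N) where
  nonneg k := by
    unfold truncN; split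
    · exact div_nonneg (h.nonneg k) hm.le
    · exact le_rfl
  supp k hk := if_neg hk
  total := by
    rw [Finset.sum_congr rfl fun k hk =>
      show truncN P N k = P k / massN P N from if_pos hk, ← Finset.sum_div]
    exact div_self hm.ne'

lemma DiagStateN.tendsto_truncN (h : DiagStateN P) (k : Fin n → ℕ) :
    Tendsto (fun N => truncN P N k) atTop (𝓝 (P k)) := by
  have : Tendsto (fun N => P k / massN P N) atTop (𝓝 (P k / 1)) :=
    tendsto_const_nhds.div h.tendsto_massN one_ne_zero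
  rw [div_one] at this
  refine this.congr' ?_
  filter_upwards [eventually_ge_atTop (∑ l, k l)] with N hN
  refine (if_pos (mem_box.2 fun l => ?_)).symm
  have := Finset.single_le_sum (f := k) (fun _ _ => Nat.zero_le _) (Finset.mem_univ l)
  omega

lemma entB_truncN_eq_tsum (P : (Fin n → ℕ) → ℝ) (N : ℕ) :
    entB (N + 1) (truncN P N) = ∑' k, Real.negMulLog (truncN P N k) :=
  entB_eq_tsum fun _ hk => if_neg hk

lemma DiagStateN.tendsto_entB (h : DiagStateN P) :
    Tendsto (fun N => entB (N + 1) (truncN P N)) atTop (𝓝 (entN P)) := by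
  simp_rw [fun N => entB_truncN_eq_tsum P N]
  refine tendsto_tsum_of_dominated_convergence (summable_entBoundN h.mean)
    (fun k => (Real.continuous_negMulLog.tendsto _).comp (h.tendsto_truncN k)) ?_
  filter_upwards [h.eventually_half] with N hN k
  have hm : 0 < massN P N := by linarith
  refine negMulLog_dom ((h.truncN_diag hm).nonneg k) ((h.truncN_diag hm).le_one k) ?_
  unfold truncN
  split
  · rw [div_le_iff₀ hm]
    nlinarith [mul_le_mul_of_nonneg_left hN (h.nonneg k)]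
  · linarith [h.nonneg k]

section output

lemma summand_nonneg_diag (hP : DiagStateN P) (hQ : DiagStateN Q)
    (ij : (Fin n → ℕ) × (Fin n → ℕ)) (m : Fin n → ℕ) :
    0 ≤ P ij.1 * Q ij.2 * bsN η ij.1 ij.2 m :=
  mul_nonneg (mul_nonneg (hP.nonneg _) (hQ.nonneg _)) (bsN_nonneg_lim _ _ _ _)

lemma summable_inputsN_diag (hP : DiagStateN P) (hQ : DiagStateN Q) :
    Summable fun ij : (Fin n → ℕ) × (Fin n → ℕ) => P ij.1 * Q ij.2 :=
  hP.total.summable.mul_of_nonneg hQ.total.summable hP.nonneg hQ.nonneg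

lemma summable_pCNinf_diag (hP : DiagStateN P) (hQ : DiagStateN Q) (h0 : 0 ≤ η) (h1 : η ≤ 1)
    (m : Fin n → ℕ) :
    Summable fun ij : (Fin n → ℕ) × (Fin n → ℕ) => P ij.1 * Q ij.2 * bsN η ij.1 ij.2 m :=
  (summable_inputsN_diag hP hQ).of_nonneg_of_le (fun ij => summand_nonneg_diag hP hQ ij m)
    fun ij => mul_le_of_le_one_right (mul_nonneg (hP.nonneg _) (hQ.nonneg _))
      (bsN_le_one_lim h0 h1 _ _ _)

lemma pCNinf_nonneg_diag (hP : DiagStateN P) (hQ : DiagStateN Q) (m : Fin n → ℕ) :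
    0 ≤ pCNinf η P Q m :=
  tsum_nonneg fun ij => summand_nonneg_diag hP hQ ij m

lemma hasSum_pCNinf_diag (hP : DiagStateN P) (hQ : DiagStateN Q) (h0 : 0 ≤ η) (h1 : η ≤ 1) :
    HasSum (pCNinf η P Q) 1 := by
  set G : ((Fin n → ℕ) × (Fin n → ℕ)) × (Fin n → ℕ) → ℝ :=
    fun x => P x.1.1 * Q x.1.2 * bsN η x.1.1 x.1.2 x.2
  have hf : ∀ ij : (Fin n → ℕ) × (Fin n → ℕ), HasSum (fun m => G (ij, m)) (P ij.1 * Q ij.2) :=
    fun ij => by simpa [G] using (hasSum_bsN_lim h0 h1 ij.1 ij.2).mul_left (P ij.1 * Q ij.2)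
  have hG : Summable G := by
    refine (summable_prod_of_nonneg (f := G) fun x => summand_nonneg_diag hP hQ x.1 x.2).2
      ⟨fun ij => (hf ij).summable, ?_⟩
    exact (summable_inputsN_diag hP hQ).congr fun ij => (hf ij).tsum_eq.symm
  have ht : ∑' x, G x = 1 := by
    rw [hG.tsum_prod, tsum_congr fun ij => (hf ij).tsum_eq,
      ← hP.total.summable.tsum_mul_tsum hQ.total.summable (summable_inputsN_diag hP hQ),
      hP.total.tsum_eq, hQ.total.tsum_eq, one_mul]
  have hs : HasSum (G ∘ Equiv.prodComm (Fin n → ℕ) ((Fin n → ℕ) × (Fin n → ℕ))) 1 :=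
    (Equiv.hasSum_iff _).2 (ht ▸ hG.hasSum)
  exact hs.prod_fiberwise fun m => (summable_pCNinf_diag hP hQ h0 h1 m).hasSum

lemma summable_mean_pCNinf_diag (hP : DiagStateN P) (hQ : DiagStateN Q) (h0 : 0 ≤ η) (h1 : η ≤ 1) :
    Summable fun m : Fin n → ℕ => (∑ l, (m l : ℝ)) * pCNinf η P Q m := by
  set H : ((Fin n → ℕ) × (Fin n → ℕ)) × (Fin n → ℕ) → ℝ :=
    fun x => (∑ l, (x.2 l : ℝ)) * (P x.1.1 * Q x.1.2 * bsN η x.1.1 x.1.2 x.2)
  have hw : ∀ k : Fin n → ℕ, 0 ≤ ∑ l, (k l : ℝ) := fun k =>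
    Finset.sum_nonneg fun l _ => Nat.cast_nonneg _
  have hn : ∀ x, 0 ≤ H x := fun x => mul_nonneg (hw _) (summand_nonneg_diag hP hQ x.1 x.2)
  have hle : ∀ (ij : (Fin n → ℕ) × (Fin n → ℕ)) m, H (ij, m)
      ≤ (∑ l, (ij.1 l : ℝ) + ∑ l, (ij.2 l : ℝ)) * (P ij.1 * Q ij.2 * bsN η ij.1 ij.2 m) := by
    intro ij m
    by_cases h : ∀ l, m l ≤ ij.1 l + ij.2 l
    · refine mul_le_mul_of_nonneg_right ?_ (summand_nonneg_diag hP hQ ij m)
      rw [← Finset.sum_add_distrib]
      exact Finset.sum_le_sum fun l _ => by exact_mod_cast h l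
    · push Not at h
      obtain ⟨l, hl⟩ := h
      simp [H, bsN_eq_zero_of_lt_lim η hl]
  have hf : ∀ ij : (Fin n → ℕ) × (Fin n → ℕ), HasSum
      (fun m => (∑ l, (ij.1 l : ℝ) + ∑ l, (ij.2 l : ℝ)) * (P ij.1 * Q ij.2 * bsN η ij.1 ij.2 m))
      ((∑ l, (ij.1 l : ℝ) + ∑ l, (ij.2 l : ℝ)) * (P ij.1 * Q ij.2)) := fun ij => by
    simpa using ((hasSum_bsN_lim h0 h1 ij.1 ij.2).mul_left (P ij.1 * Q ij.2)).mul_left
      (∑ l, (ij.1 l : ℝ) + ∑ l, (ij.2 l : ℝ))
  have hH : Summable H := by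
    refine (summable_prod_of_nonneg (f := H) hn).2
      ⟨fun ij => (hf ij).summable.of_nonneg_of_le (fun m => hn _) (hle ij), ?_⟩
    refine Summable.of_nonneg_of_le (fun ij => tsum_nonneg fun m => hn _) (fun ij =>
      hasSum_le (hle ij) ((hf ij).summable.of_nonneg_of_le (fun m => hn _) (hle ij)).hasSum (hf ij))
      ?_
    have a := hP.mean.mul_of_nonneg hQ.total.summable
      (fun i => mul_nonneg (hw i) (hP.nonneg i)) hQ.nonneg
    have b := hP.total.summable.mul_of_nonneg hQ.mean hP.nonneg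
      (fun j => mul_nonneg (hw j) (hQ.nonneg j))
    exact (a.add b).congr fun ij => by ring
  have hs : Summable (H ∘ Equiv.prodComm (Fin n → ℕ) ((Fin n → ℕ) × (Fin n → ℕ))) :=
    (Equiv.summable_iff _).2 hH
  refine ((summable_prod_of_nonneg (f := H ∘ Equiv.prodComm (Fin n → ℕ) _)
    (fun x => hn _)).1 hs).2.congr fun m => ?_
  simp [H, pCNinf, tsum_mul_left]

lemma pCN_truncN_eq_diag (η : ℝ) {N : ℕ} (hP : 0 < massN P N) (hQ : 0 < massN Q N)
    (m : Fin n → ℕ) :
    pCN (N + 1) η (truncN P N) (truncN Q N) m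
      = (∑ ij ∈ box n (N + 1) ×ˢ box n (N + 1), P ij.1 * Q ij.2 * bsN η ij.1 ij.2 m)
        / (massN P N * massN Q N) := by
  rw [Finset.sum_product, Finset.sum_div]
  refine Finset.sum_congr rfl fun i hi => ?_
  rw [Finset.sum_div]
  refine Finset.sum_congr rfl fun j hj => ?_
  have := hP.ne'
  have := hQ.ne'
  simp only [truncN, if_pos hi, if_pos hj]
  field_simp

lemma tendsto_entB_out_diag (hP : DiagStateN P) (hQ : DiagStateN Q) (h0 : 0 ≤ η) (h1 : η ≤ 1) :
    Tendsto (fun N => entB (2 * (N + 1)) (pCN (N + 1) η (truncN P N) (truncN Q N))) atTop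
      (𝓝 (entN (pCNinf η P Q))) := by
  simp_rw [fun N => entB_eq_tsum (P := pCN (N + 1) η (truncN P N) (truncN Q N))
    fun m hm => pCN_supp_lim _ _ _ _ hm]
  have hZ : Tendsto (fun N => massN P N * massN Q N) atTop (𝓝 1) := by
    simpa using hP.tendsto_massN.mul hQ.tendsto_massN
  refine tendsto_tsum_of_dominated_convergence
    (summable_entBoundN (summable_mean_pCNinf_diag hP hQ h0 h1))
    (fun m => (Real.continuous_negMulLog.tendsto _).comp ?_) ?_
  · have h := ((summable_pCNinf_diag hP hQ h0 h1 m).hasSum.comp tendsto_box_prod).div hZ one_ne_zero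
    rw [div_one] at h
    refine h.congr' ?_
    filter_upwards [hP.eventually_half, hQ.eventually_half] with N hp hq
    exact (pCN_truncN_eq_diag η (by linarith) (by linarith) m).symm
  · filter_upwards [hP.eventually_half, hQ.eventually_half,
      hZ.eventually_const_le (show (1 : ℝ) / 2 < 1 by norm_num)] with N hp hq hz m
    have mP : 0 < massN P N := by linarith
    have mQ : 0 < massN Q N := by linarith
    refine negMulLog_dom ?_ ((hP.truncN_diag mP).pCN_le_one (hQ.truncN_diag mQ) h0 h1 m) ?_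
    · exact Finset.sum_nonneg fun i _ => Finset.sum_nonneg fun j _ => mul_nonneg
        (mul_nonneg ((hP.truncN_diag mP).nonneg i) ((hQ.truncN_diag mQ).nonneg j))
        (bsN_nonneg_lim _ _ _ _)
    rw [pCN_truncN_eq_diag η mP mQ, div_le_iff₀ (mul_pos mP mQ)]
    have hsum : (∑ ij ∈ box n (N + 1) ×ˢ box n (N + 1), P ij.1 * Q ij.2 * bsN η ij.1 ij.2 m)
        ≤ pCNinf η P Q m :=
      (summable_pCNinf_diag hP hQ h0 h1 m).sum_le_tsum _ fun ij _ => summand_nonneg_diag hP hQ ij m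
    have : pCNinf η P Q m * (1 / 2) ≤ pCNinf η P Q m * (massN P N * massN Q N) :=
      mul_le_mul_of_nonneg_left hz (pCNinf_nonneg_diag hP hQ m)
    linarith

end output

lemma pCNinf_le_one_diag (hP : DiagStateN P) (hQ : DiagStateN Q) (h0 : 0 ≤ η) (h1 : η ≤ 1)
    (m : Fin n → ℕ) : pCNinf η P Q m ≤ 1 :=
  le_hasSum (hasSum_pCNinf_diag hP hQ h0 h1) m fun j _ => pCNinf_nonneg_diag hP hQ j

lemma summable_negMulLog_pCNinf_diag (hP : DiagStateN P) (hQ : DiagStateN Q) (h0 : 0 ≤ η)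
    (h1 : η ≤ 1) : Summable fun m => Real.negMulLog (pCNinf η P Q m) :=
  Summable.of_norm_bounded (summable_entBoundN (summable_mean_pCNinf_diag hP hQ h0 h1)) fun m =>
    negMulLog_dom (pCNinf_nonneg_diag hP hQ m) (pCNinf_le_one_diag hP hQ h0 h1 m)
      (by linarith [pCNinf_nonneg_diag (η := η) hP hQ m])

/-- EPnI for all Fock-diagonal states with finite mean photon number, from the one-mode
rearrangement bound. -/
theorem epn_diagN_outN_of {n : ℕ} {η : ℝ} {P Q : (Fin (n + 1) → ℕ) → ℝ} (h0 : 0 ≤ η) (h1 : η ≤ 1)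
    (hR : ∀ N, RieszHyp N η) (hP : DiagStateN P) (hQ : DiagStateN Q) :
    η * ginv (entN P / ((n : ℝ) + 1)) + (1 - η) * ginv (entN Q / ((n : ℝ) + 1))
      ≤ ginv (entN (fun k => outN η P Q k k) / ((n : ℝ) + 1)) := by
  have e : (fun k => outN η P Q k k) = pCNinf η P Q := funext (outN_diag η P Q)
  rw [e]
  have hn : (0 : ℝ) < (n : ℝ) + 1 := by positivity
  set arg : ℝ → ℝ → ℝ := fun x y =>
    η * ginv (x / ((n : ℝ) + 1)) + (1 - η) * ginv (y / ((n : ℝ) + 1)) with harg
  have hnn : ∀ {x y : ℝ}, 0 ≤ x → 0 ≤ y → 0 ≤ arg x y := fun hx hy =>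
    add_nonneg (mul_nonneg h0 (ginv_nonneg (div_nonneg hx hn.le)))
      (mul_nonneg (sub_nonneg.2 h1) (ginv_nonneg (div_nonneg hy hn.le)))
  have tg : ∀ {R : (Fin (n + 1) → ℕ) → ℝ}, DiagStateN R → Tendsto
      (fun N => ginv (entB (N + 1) (truncN R N) / ((n : ℝ) + 1))) atTop
      (𝓝 (ginv (entN R / ((n : ℝ) + 1)))) := fun {R} hR' =>
    (continuousOn_ginv _ (div_nonneg hR'.entN_nonneg hn.le)).tendsto.comp <|
      tendsto_nhdsWithin_iff.2 ⟨hR'.tendsto_entB.div_const _, by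
        filter_upwards [hR'.eventually_half] with N hN
        exact div_nonneg (hR'.truncN_diag (by linarith)).entB_nonneg hn.le⟩
  have hL : Tendsto (fun N => ((n : ℝ) + 1) * gFun (arg (entB (N + 1) (truncN P N))
      (entB (N + 1) (truncN Q N)))) atTop (𝓝 (((n : ℝ) + 1) * gFun (arg (entN P) (entN Q)))) := by
    refine tendsto_const_nhds.mul ?_
    refine (continuousOn_gFun _ (hnn hP.entN_nonneg hQ.entN_nonneg)).tendsto.comp
      (tendsto_nhdsWithin_iff.2 ⟨(tendsto_const_nhds.mul (tg hP)).add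
        (tendsto_const_nhds.mul (tg hQ)), ?_⟩)
    filter_upwards [hP.eventually_half, hQ.eventually_half] with N hp hq
    exact hnn (hP.truncN_diag (by linarith)).entB_nonneg (hQ.truncN_diag (by linarith)).entB_nonneg
  have hle : ((n : ℝ) + 1) * gFun (arg (entN P) (entN Q)) ≤ entN (pCNinf η P Q) := by
    refine le_of_tendsto_of_tendsto hL (tendsto_entB_out_diag hP hQ h0 h1) ?_
    filter_upwards [hP.eventually_half, hQ.eventually_half] with N hp hq
    have a := hP.truncN_diag (N := N) (by linarith)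
    have b := hQ.truncN_diag (N := N) (by linarith)
    exact epni_diagN_of (hR (N + 1)) h0 h1 a.nonneg a.supp a.total b.nonneg b.supp b.total
  have hC : 0 ≤ entN (pCNinf η P Q) / ((n : ℝ) + 1) := div_nonneg (tsum_nonneg fun m =>
    Real.negMulLog_nonneg (pCNinf_nonneg_diag hP hQ m) (pCNinf_le_one_diag hP hQ h0 h1 m)) hn.le
  by_contra hcon
  push Not at hcon
  have := (ginv_lt_iff hC (hnn hP.entN_nonneg hQ.entN_nonneg)).1 hcon
  rw [div_lt_iff₀ hn] at this
  linarith

end Vale.Agent.P369
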