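import Vale.Agent.P369.Defs

open Real Set Filter Finset Topology

noncomputable section

namespace Vale.Agent.P369

lemma gFun_nonneg {t : ℝ} (ht : 0 ≤ t) : 0 ≤ gFun t := by
  rw [← gFun_zero]; exact strictMonoOn_gFun.monotoneOn self_mem_Ici ht ht

lemma exists_gFun_eq {s : ℝ} (hs : 0 ≤ s) : ∃ t ∈ Set.Ici (0:ℝ), gFun t = s := by
  have hT : 0 < Real.exp s := Real.exp_pos s
  have h1 : s ≤ Real.log (Real.exp s + 1) := by
    calc s = Real.log (Real.exp s) := (Real.log_exp s).symm
      _ ≤ _ := Real.log_le_log hT (by linarith)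
  have h2 : Real.log (Real.exp s) ≤ Real.log (Real.exp s + 1) :=
    Real.log_le_log hT (by linarith)
  have h3 : s ≤ gFun (Real.exp s) := by
    unfold gFun
    have := mul_le_mul_of_nonneg_left h2 hT.le
    linarith
  obtain ⟨t, ht, e⟩ := intermediate_value_Icc hT.le
    (continuousOn_gFun.mono Set.Icc_subset_Ici_self) ⟨by rw [gFun_zero]; exact hs, h3⟩
  exact ⟨t, ht.1, e⟩

lemma gFun_ginv {s : ℝ} (hs : 0 ≤ s) : gFun (ginv s) = s :=
  Function.invFunOn_eq (exists_gFun_eq hs)

lemma ginv_nonneg {s : ℝ} (hs : 0 ≤ s) : 0 ≤ ginv s :=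
  Function.invFunOn_mem (exists_gFun_eq hs)

lemma ginv_gFun {t : ℝ} (ht : 0 ≤ t) : ginv (gFun t) = t :=
  strictMonoOn_gFun.injOn (ginv_nonneg (gFun_nonneg ht)) ht (gFun_ginv (gFun_nonneg ht))

lemma lt_ginv_iff {s t : ℝ} (hs : 0 ≤ s) (ht : 0 ≤ t) : t < ginv s ↔ gFun t < s := by
  conv_rhs => rw [← gFun_ginv hs]
  exact (strictMonoOn_gFun.lt_iff_lt ht (ginv_nonneg hs)).symm

lemma ginv_lt_iff {s t : ℝ} (hs : 0 ≤ s) (ht : 0 ≤ t) : ginv s < t ↔ s < gFun t := by
  conv_rhs => rw [← gFun_ginv hs]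
  exact (strictMonoOn_gFun.lt_iff_lt (ginv_nonneg hs) ht).symm

lemma ginv_pos {s : ℝ} (hs : 0 < s) : 0 < ginv s := by
  rw [lt_ginv_iff hs.le le_rfl, gFun_zero]; exact hs

lemma continuousOn_ginv : ContinuousOn ginv (Set.Ici 0) := by
  intro s (hs : 0 ≤ s)
  rw [ContinuousWithinAt, tendsto_order]
  refine ⟨fun b hb => ?_, fun b hb => ?_⟩
  · rcases lt_or_ge b 0 with hb0 | hb0
    · filter_upwards [self_mem_nhdsWithin] with x hx
      exact lt_of_lt_of_le hb0 (ginv_nonneg hx)
    · filter_upwards [self_mem_nhdsWithin,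
        mem_nhdsWithin_of_mem_nhds (Ioi_mem_nhds ((lt_ginv_iff hs hb0).1 hb))] with x hx hx'
      exact (lt_ginv_iff hx hb0).2 hx'
  · have hb0 : 0 ≤ b := (ginv_nonneg hs).trans hb.le
    filter_upwards [self_mem_nhdsWithin,
      mem_nhdsWithin_of_mem_nhds (Iio_mem_nhds ((ginv_lt_iff hs hb0).1 hb))] with x hx hx'
    exact (ginv_lt_iff hx hb0).2 hx'

lemma hasDerivAt_ginv {s : ℝ} (hs : 0 < s) : HasDerivAt ginv (1 / phi (ginv s)) s := by
  rw [one_div]
  refine (hasDerivAt_gFun (ginv_pos hs)).of_local_left_inverse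
    (continuousOn_ginv.continuousAt (Ici_mem_nhds hs)) (phi_pos (ginv_pos hs)).ne' ?_
  filter_upwards [Ioi_mem_nhds hs] with y hy
  exact gFun_ginv (le_of_lt hy)

variable {N : ℕ} {p : ℕ → ℝ}

lemma Passive.pos (h : Passive N p) : 0 < N := by
  rcases Nat.eq_zero_or_pos N with rfl | h0
  · simpa using h.total
  · exact h0

lemma Passive.antitone (h : Passive N p) : Antitone p := antitone_nat_of_succ_le h.anti

lemma Passive.le_one (h : Passive N p) (k : ℕ) : p k ≤ 1 := by
  rcases lt_or_ge k N with hk | hk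
  · rw [← h.total]
    exact Finset.single_le_sum (fun i _ => h.nonneg i) (Finset.mem_range.2 hk)
  · rw [h.supp k hk]; exact zero_le_one

lemma Passive.dlt_nonneg (h : Passive N p) (k : ℕ) : 0 ≤ dlt p k := sub_nonneg.2 (h.anti k)

lemma ent_nonneg (h : Passive N p) : 0 ≤ ent N p :=
  Finset.sum_nonneg fun k _ => negMulLog_nonneg (h.nonneg k) (h.le_one k)

lemma ent_eq_zero (h : Passive N p) (he : ent N p = 0) : p = vac := by
  have hz : ∀ k, p k = 0 ∨ p k = 1 := by
    intro k
    rcases lt_or_ge k N with hk | hk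
    · have := (Finset.sum_eq_zero_iff_of_nonneg
        (fun i _ => negMulLog_nonneg (h.nonneg i) (h.le_one i))).1 he k (Finset.mem_range.2 hk)
      rw [negMulLog, mul_eq_zero, neg_eq_zero, Real.log_eq_zero] at this
      rcases this with h' | h' | h' | h'
      · exact Or.inl h'
      · exact Or.inl h'
      · exact Or.inr h'
      · linarith [h.nonneg k]
    · exact Or.inl (h.supp k hk)
  have h0 : p 0 = 1 := by
    refine (hz 0).resolve_left fun h0 => ?_
    have : ∀ k, p k = 0 := fun k =>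
      le_antisymm (h0 ▸ h.antitone (Nat.zero_le k)) (h.nonneg k)
    simpa [this] using h.total
  funext k
  rcases k with _ | k
  · simp [vac, h0]
  · have hk : p (k + 1) = 0 := by
      rcases lt_or_ge (k + 1) N with hk | hk
      · have h2 : ∑ i ∈ ({0, k + 1} : Finset ℕ), p i ≤ 1 := by
          rw [← h.total]
          refine Finset.sum_le_sum_of_subset_of_nonneg ?_ fun i _ _ => h.nonneg i
          intro i hi
          simp only [Finset.mem_insert, Finset.mem_singleton] at hi
          rw [Finset.mem_range]; omega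
        rw [Finset.sum_pair (Nat.succ_ne_zero k).symm, h0] at h2
        linarith [h.nonneg (k + 1)]
      · exact h.supp _ hk
    simp [vac, hk]

lemma sum_mul_sub_succ (F : ℕ → ℝ) (M : ℕ) :
    ∑ k ∈ Finset.range M, ((k : ℝ) + 1) * (F k - F (k + 1))
      = ∑ k ∈ Finset.range M, F k - (M : ℝ) * F M := by
  induction M with
  | zero => simp
  | succ M ih => rw [Finset.sum_range_succ, ih, Finset.sum_range_succ]; push_cast; ring

lemma Qf_eq {M : ℕ} (h : Passive N p) (_hM : N ≤ M) :
    Qf M p = ∑ k ∈ Finset.range M,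
      ((k : ℝ) + 1) * p (k + 1) * (Real.log (p k) - Real.log (p (k + 1))) := by
  refine Finset.sum_congr rfl fun k _ => ?_
  have hk : (0:ℝ) < (k : ℝ) + 1 := by positivity
  unfold pers shf dlt
  rw [show ((k : ℝ) + 1) * p (k + 1) + ((k : ℝ) + 1) * (p k - p (k + 1))
    = ((k : ℝ) + 1) * p k by ring]
  rcases (h.nonneg (k + 1)).eq_or_lt with h' | h'
  · rw [← h']; ring
  · rw [Real.log_mul hk.ne' (lt_of_lt_of_le h' (h.anti k)).ne', Real.log_mul hk.ne' h'.ne']
    ring

lemma sum_gen_log {M : ℕ} (h : Passive N p) (hM : N ≤ M) :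
    ∑ k ∈ Finset.range M, gen p k * Real.log (p k) = Qf M p := by
  rw [Qf_eq h hM]
  have a := Finset.sum_range_succ' (fun k : ℕ => (k : ℝ) * p k * Real.log (p k)) M
  have b := Finset.sum_range_succ (fun k : ℕ => (k : ℝ) * p k * Real.log (p k)) M
  rw [b] at a
  simp only [h.supp M hM, Nat.cast_zero, zero_mul, mul_zero, add_zero, Nat.cast_add,
    Nat.cast_one] at a
  simp only [gen, sub_mul, mul_sub, Finset.sum_sub_distrib]
  rw [a]

/-- Weights `(k+1)(p_k - p_{k+1})`. -/
def wt (p : ℕ → ℝ) (k : ℕ) : ℝ := ((k : ℝ) + 1) * dlt p k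

/-- Nodes `(k+1) p_{k+1} / wt`. -/
def nod (p : ℕ → ℝ) (k : ℕ) : ℝ := ((k : ℝ) + 1) * shf p k / wt p k

lemma Passive.wt_nonneg (h : Passive N p) (k : ℕ) : 0 ≤ wt p k :=
  mul_nonneg (by positivity) (h.dlt_nonneg k)

lemma Passive.nod_nonneg (h : Passive N p) (k : ℕ) : 0 ≤ nod p k :=
  div_nonneg (mul_nonneg (by positivity) (h.nonneg _)) (h.wt_nonneg k)

lemma Passive.sum_wt (h : Passive N p) : ∑ k ∈ Finset.range N, wt p k = 1 := by
  simp only [wt, dlt]
  rw [sum_mul_sub_succ, h.total, h.supp N le_rfl]; ring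

lemma pers_zero_right (q : ℝ) : pers q 0 = 0 := by simp [pers]

lemma pers_eq_mul_fFun {q c : ℝ} (hq : 0 ≤ q) (hc : 0 ≤ c) :
    pers q c = c * fFun (q / c) := by
  rcases hc.eq_or_lt with rfl | hc
  · simp [pers]
  rcases hq.eq_or_lt with rfl | hq
  · simp [pers, fFun_zero]
  have hd : 0 < q / c := div_pos hq hc
  have h : phi (q / c) = Real.log (q + c) - Real.log q := by
    unfold phi
    rw [show q / c + 1 = (q + c) / c by field_simp,
      Real.log_div (by linarith) hc.ne', Real.log_div hq.ne' hc.ne']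
    ring
  unfold fFun pers
  rw [h]; field_simp

lemma mul_gFun_div {q c : ℝ} (hq : 0 ≤ q) (hc : 0 ≤ c) :
    c * gFun (q / c) = negMulLog c + negMulLog q - negMulLog (q + c) := by
  rcases hc.eq_or_lt with rfl | hc
  · simp
  rcases hq.eq_or_lt with rfl | hq
  · simp [gFun_zero]
  unfold gFun negMulLog
  rw [show q / c + 1 = (q + c) / c by field_simp,
    Real.log_div (by linarith) hc.ne', Real.log_div hq.ne' hc.ne']
  field_simp
  ring

lemma Qf_eq_mean (h : Passive N p) :
    Qf N p = ∑ k ∈ Finset.range N, wt p k * fFun (nod p k) :=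
  Finset.sum_congr rfl fun k _ =>
    pers_eq_mul_fFun (mul_nonneg (by positivity) (h.nonneg _)) (h.wt_nonneg k)

lemma sum_sum_add (f : ℕ → ℝ) (hf : ∀ k, N ≤ k → f k = 0) :
    ∑ i ∈ Finset.range N, ∑ j ∈ Finset.range N, f (i + j)
      = ∑ k ∈ Finset.range N, ((k : ℝ) + 1) * f k := by
  set T : ℕ → ℝ := fun i => ∑ j ∈ Finset.range N, f (i + j)
  have hT : ∀ i, T i - T (i + 1) = f i := by
    intro i
    simp only [T]
    rw [← Finset.sum_sub_distrib]
    have := Finset.sum_range_sub' (fun j => f (i + j)) N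
    rw [hf (i + N) (by omega), sub_zero, add_zero] at this
    rw [← this]
    exact Finset.sum_congr rfl fun j _ => by rw [show i + 1 + j = i + (j + 1) by omega]
  have hTN : T N = 0 := Finset.sum_eq_zero fun j _ => hf _ (by omega)
  have := sum_mul_sub_succ T N
  simp only [hT, hTN, mul_zero, sub_zero] at this
  exact this.symm

lemma Passive.sum_dlt (h : Passive N p) (i : ℕ) :
    ∑ j ∈ Finset.range N, dlt p (i + j) = p i := by
  have := Finset.sum_range_sub' (fun j => p (i + j)) N
  rw [h.supp (i + N) (by omega), sub_zero, add_zero] at this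
  exact this

lemma sum_negMulLog_dlt_le (h : Passive N p) :
    ∑ k ∈ Finset.range N, ((k : ℝ) + 1) * negMulLog (dlt p k) ≤ 2 * ent N p := by
  have ht : ∀ i j, negMulLog (dlt p (i + j))
      + dlt p (i + j) * Real.log (p i) + dlt p (i + j) * Real.log (p j)
      ≤ p i * p j - dlt p (i + j) := by
    intro i j
    rcases (h.dlt_nonneg (i + j)).eq_or_lt with hd | hd
    · rw [← hd]; simpa using mul_nonneg (h.nonneg i) (h.nonneg j)
    · have hle : ∀ k, k ≤ i + j → 0 < p k := fun k hk =>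
        lt_of_lt_of_le hd (le_trans (by unfold dlt; linarith [h.nonneg (i + j + 1)])
          (h.antitone hk))
      have hi := hle i (by omega)
      have hj := hle j (by omega)
      have hl := Real.log_le_sub_one_of_pos (div_pos (mul_pos hi hj) hd)
      rw [Real.log_div (mul_pos hi hj).ne' hd.ne', Real.log_mul hi.ne' hj.ne'] at hl
      have e : dlt p (i + j) * (p i * p j / dlt p (i + j) - 1) = p i * p j - dlt p (i + j) := by
        field_simp
      rw [← e]
      refine le_trans (le_of_eq ?_) (mul_le_mul_of_nonneg_left hl hd.le)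
      unfold negMulLog; ring
  have hm := Finset.sum_le_sum fun i (_ : i ∈ Finset.range N) =>
    Finset.sum_le_sum fun j (_ : j ∈ Finset.range N) => ht i j
  simp only [Finset.sum_add_distrib, Finset.sum_sub_distrib] at hm
  have e1 : ∑ i ∈ Finset.range N, ∑ j ∈ Finset.range N, negMulLog (dlt p (i + j))
      = ∑ k ∈ Finset.range N, ((k : ℝ) + 1) * negMulLog (dlt p k) :=
    sum_sum_add (fun k => negMulLog (dlt p k))
      fun k hk => by simp [dlt, h.supp k hk, h.supp (k + 1) (by omega)]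
  have e2 : ∑ i ∈ Finset.range N, ∑ j ∈ Finset.range N, dlt p (i + j) * Real.log (p i)
      = -ent N p := by
    rw [ent, ← Finset.sum_neg_distrib]
    refine Finset.sum_congr rfl fun i _ => ?_
    rw [← Finset.sum_mul, h.sum_dlt i]
    simp [negMulLog]
  have e3 : ∑ i ∈ Finset.range N, ∑ j ∈ Finset.range N, dlt p (i + j) * Real.log (p j)
      = -ent N p := by
    rw [Finset.sum_comm, ← e2]
    exact Finset.sum_congr rfl fun j _ => Finset.sum_congr rfl fun i _ => by rw [add_comm]
  have e4 : ∑ i ∈ Finset.range N, ∑ j ∈ Finset.range N, p i * p j = 1 := by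
    rw [← Finset.sum_mul_sum, h.total, one_mul]
  have e5 : ∑ i ∈ Finset.range N, ∑ j ∈ Finset.range N, dlt p (i + j) = 1 := by
    rw [Finset.sum_congr rfl fun i _ => h.sum_dlt i, h.total]
  rw [e1, e2, e3, e4, e5] at hm
  linarith

lemma sum_wt_gFun_le (h : Passive N p) :
    ∑ k ∈ Finset.range N, wt p k * gFun (nod p k) ≤ ent N p := by
  have e : ∀ k, wt p k * gFun (nod p k) = ((k : ℝ) + 1) * negMulLog (dlt p k)
      - ((k : ℝ) + 1) * (negMulLog (p k) - negMulLog (p (k + 1))) := by
    intro k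
    unfold nod
    rw [mul_gFun_div (mul_nonneg (show (0:ℝ) ≤ (k : ℝ) + 1 by positivity)
      (show (0:ℝ) ≤ shf p k from h.nonneg _)) (h.wt_nonneg k)]
    unfold wt shf dlt
    rw [show ((k : ℝ) + 1) * p (k + 1) + ((k : ℝ) + 1) * (p k - p (k + 1))
      = ((k : ℝ) + 1) * p k by ring, negMulLog_mul, negMulLog_mul, negMulLog_mul]
    ring
  simp only [e, Finset.sum_sub_distrib]
  rw [sum_mul_sub_succ, h.supp N le_rfl, negMulLog_zero, mul_zero, sub_zero]
  have := sum_negMulLog_dlt_le h
  unfold ent at *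
  linarith

lemma Qf_nonneg (h : Passive N p) : 0 ≤ Qf N p := by
  rw [Qf_eq_mean h]
  exact Finset.sum_nonneg fun k _ => mul_nonneg (h.wt_nonneg k) (fFun_nonneg (h.nod_nonneg k))

lemma exists_root (h : Passive N p) : ∃ a, 0 ≤ a ∧ a ≤ ginv (ent N p) ∧ fFun a = Qf N p := by
  rcases (ent_nonneg h).eq_or_lt with hS | hS
  · refine ⟨0, le_rfl, ginv_nonneg (ent_nonneg h), ?_⟩
    have hp := ent_eq_zero h hS.symm
    rw [fFun_zero, Qf]
    exact (Finset.sum_eq_zero fun k _ => by simp [hp, shf, vac, pers]).symm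
  · set X := ginv (ent N p)
    have hX : 0 < X := ginv_pos hS
    have hle : Qf N p ≤ fFun X := by
      rw [Qf_eq_mean h]
      calc ∑ k ∈ Finset.range N, wt p k * fFun (nod p k)
          ≤ ∑ k ∈ Finset.range N,
              wt p k * (fFun X - slopeFG X * gFun X + slopeFG X * gFun (nod p k)) :=
            Finset.sum_le_sum fun k _ => mul_le_mul_of_nonneg_left
              (by linarith [tangent_fg hX (h.nod_nonneg k)]) (h.wt_nonneg k)
        _ = fFun X + slopeFG X * (∑ k ∈ Finset.range N, wt p k * gFun (nod p k) - gFun X) := by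
            simp only [mul_add, Finset.sum_add_distrib, ← Finset.sum_mul, h.sum_wt]
            simp only [mul_sub, Finset.mul_sum, mul_left_comm (slopeFG X)]
            ring
        _ ≤ fFun X := by
            have : ∑ k ∈ Finset.range N, wt p k * gFun (nod p k) - gFun X ≤ 0 := by
              rw [gFun_ginv hS.le]; linarith [sum_wt_gFun_le h]
            linarith [mul_nonpos_of_nonneg_of_nonpos (slopeFG_pos hX).le this]
    obtain ⟨a, ha, e⟩ := intermediate_value_Icc hX.le
      (continuousOn_fFun.mono Set.Icc_subset_Ici_self)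
      ⟨by rw [fFun_zero]; exact Qf_nonneg h, hle⟩
    exact ⟨a, ha.1, ha.2, e⟩

end Vale.Agent.P369
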