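import Mathlib

open Polynomial Nat

noncomputable section

namespace Vale.Agent.P369

/-- The generating polynomial of the beam-splitter amplitudes: with `z` the creation operator of
the output mode `c` and `1` that of the discarded mode, `(√η z - √(1-η))^i (√(1-η) z + √η)^j`. -/
def bsPoly (η : ℝ) (i j : ℕ) : ℝ[X] :=
  (Polynomial.C (Real.sqrt η) * Polynomial.X - Polynomial.C (Real.sqrt (1 - η))) ^ i *
    (Polynomial.C (Real.sqrt (1 - η)) * Polynomial.X + Polynomial.C (Real.sqrt η)) ^ j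

/-- The amplitude `⟨m, i+j-m| U_η |i, j⟩` of the beam splitter in the Fock basis. -/
def bsAmp (η : ℝ) (i j m : ℕ) : ℝ :=
  Real.sqrt ((m ! : ℝ) * ((i + j - m)! : ℝ) / ((i ! : ℝ) * (j ! : ℝ))) * (bsPoly η i j).coeff m

/-- `|⟨m, i+j-m| U_η |i, j⟩|^2`. -/
def bsProb (η : ℝ) (i j m : ℕ) : ℝ := bsAmp η i j m ^ 2

lemma bsProb_nonneg (η : ℝ) (i j m : ℕ) : 0 ≤ bsProb η i j m := sq_nonneg _

lemma bsProb_eq (η : ℝ) (i j m : ℕ) : bsProb η i j m =
    (m ! : ℝ) * ((i + j - m)! : ℝ) / ((i ! : ℝ) * (j ! : ℝ)) * (bsPoly η i j).coeff m ^ 2 := by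
  unfold bsProb bsAmp
  rw [mul_pow, Real.sq_sqrt]
  positivity

lemma coeff_linear_mul (a b : ℝ) (p : ℝ[X]) (n : ℕ) :
    ((Polynomial.C a * X + Polynomial.C b) * p).coeff n =
      a * (X * p).coeff n + b * p.coeff n := by
  rw [add_mul, coeff_add, mul_assoc, coeff_C_mul, coeff_C_mul]

lemma coeff_lin_zero (a b : ℝ) (p : ℝ[X]) :
    ((Polynomial.C a * X + Polynomial.C b) * p).coeff 0 = b * p.coeff 0 := by
  rw [coeff_linear_mul, coeff_X_mul_zero, mul_zero, zero_add]

lemma coeff_lin_succ (a b : ℝ) (p : ℝ[X]) (n : ℕ) :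
    ((Polynomial.C a * X + Polynomial.C b) * p).coeff (n + 1) =
      a * p.coeff n + b * p.coeff (n + 1) := by
  rw [coeff_linear_mul, coeff_X_mul]

lemma bsPoly_succ_left (η : ℝ) (i j : ℕ) : bsPoly η (i + 1) j =
    (Polynomial.C (Real.sqrt η) * X + Polynomial.C (-Real.sqrt (1 - η))) * bsPoly η i j := by
  unfold bsPoly
  rw [_root_.pow_succ', map_neg]
  ring

lemma bsPoly_succ_right (η : ℝ) (i j : ℕ) : bsPoly η i (j + 1) =
    (Polynomial.C (Real.sqrt (1 - η)) * X + Polynomial.C (Real.sqrt η)) * bsPoly η i j := by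
  unfold bsPoly
  rw [_root_.pow_succ']
  ring

lemma natDegree_bsPoly (η : ℝ) : ∀ i j : ℕ, (bsPoly η i j).natDegree ≤ i + j := by
  intro i j
  unfold bsPoly
  refine natDegree_mul_le.trans (Nat.add_le_add ?_ ?_)
  · refine natDegree_pow_le.trans ?_
    have : (Polynomial.C (Real.sqrt η) * X - Polynomial.C (Real.sqrt (1 - η))).natDegree ≤ 1 := by
      rw [sub_eq_add_neg, ← map_neg]; exact natDegree_linear_le
    calc i * _ ≤ i * 1 := Nat.mul_le_mul_left i this
      _ = i := mul_one i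
  · refine natDegree_pow_le.trans ?_
    calc j * _ ≤ j * 1 := Nat.mul_le_mul_left j natDegree_linear_le
      _ = j := mul_one j

lemma coeff_bsPoly_of_lt (η : ℝ) {i j m : ℕ} (h : i + j < m) : (bsPoly η i j).coeff m = 0 :=
  coeff_eq_zero_of_natDegree_lt (lt_of_le_of_lt (natDegree_bsPoly η i j) h)

lemma bsProb_of_lt (η : ℝ) {i j m : ℕ} (h : i + j < m) : bsProb η i j m = 0 := by
  rw [bsProb_eq, coeff_bsPoly_of_lt η h]; simp

lemma coeff_X_mul_derivative (p : ℝ[X]) (n : ℕ) :
    (X * derivative p).coeff n = n * p.coeff n := by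
  cases n with
  | zero => simp [coeff_X_mul_zero]
  | succ n => rw [coeff_X_mul, coeff_derivative]; push_cast; ring

/-- Three-term relation for the amplitudes. -/
lemma coeff_relation {η : ℝ} (h0 : 0 ≤ η) (h1 : η ≤ 1) (i j m : ℕ) :
    let A := Real.sqrt η
    let B := Real.sqrt (1 - η)
    A * B * ((m : ℝ) + 1) * (bsPoly η i j).coeff (m + 1) =
      -(A * B) * ((i : ℝ) + j + 1 - m) * (X * bsPoly η i j).coeff m
        + (((m : ℝ) - i) * A ^ 2 - ((m : ℝ) - j) * B ^ 2) * (bsPoly η i j).coeff m := by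
  intro A B
  set p := bsPoly η i j with hp
  have hA : (Polynomial.C A * X - Polynomial.C B) * derivative ((Polynomial.C A * X - Polynomial.C B) ^ i)
      = Polynomial.C ((i : ℝ) * A) * (Polynomial.C A * X - Polynomial.C B) ^ i := by
    cases i with
    | zero => simp
    | succ i =>
      rw [derivative_pow, derivative_sub, derivative_C_mul_X, derivative_C, sub_zero,
        add_tsub_cancel_right, map_mul]
      ring
  have hB : (Polynomial.C B * X + Polynomial.C A) * derivative ((Polynomial.C B * X + Polynomial.C A) ^ j)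
      = Polynomial.C ((j : ℝ) * B) * (Polynomial.C B * X + Polynomial.C A) ^ j := by
    cases j with
    | zero => simp
    | succ j =>
      rw [derivative_pow, derivative_add, derivative_C_mul_X, derivative_C, add_zero,
        add_tsub_cancel_right, map_mul]
      ring
  have hd : (Polynomial.C A * X - Polynomial.C B) * ((Polynomial.C B * X + Polynomial.C A) * derivative p)
      = (Polynomial.C ((i : ℝ) * A) * (Polynomial.C B * X + Polynomial.C A)
          + Polynomial.C ((j : ℝ) * B) * (Polynomial.C A * X - Polynomial.C B)) * p := by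
    have e : p = (Polynomial.C A * X - Polynomial.C B) ^ i * (Polynomial.C B * X + Polynomial.C A) ^ j := rfl
    rw [e, derivative_mul]
    linear_combination ((Polynomial.C B * X + Polynomial.C A) *
      (Polynomial.C B * X + Polynomial.C A) ^ j) * hA
      + ((Polynomial.C A * X - Polynomial.C B) * (Polynomial.C A * X - Polynomial.C B) ^ i) * hB
  have hd2 : Polynomial.C (A * B) * (X * (X * derivative p)) +
      Polynomial.C (A ^ 2 - B ^ 2) * (X * derivative p) - Polynomial.C (A * B) * derivative p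
      = Polynomial.C (((i : ℝ) + j) * (A * B)) * (X * p)
        + Polynomial.C ((i : ℝ) * A ^ 2 - j * B ^ 2) * p := by
    simp only [map_mul, map_add, map_sub, map_pow] at hd ⊢
    linear_combination hd
  have h := congrArg (fun q => coeff q m) hd2
  simp only [coeff_add, coeff_sub, coeff_C_mul] at h
  have e1 : (X * (X * derivative p)).coeff m = ((m : ℝ) - 1) * (X * p).coeff m := by
    cases m with
    | zero => simp [coeff_X_mul_zero]
    | succ m => rw [coeff_X_mul, coeff_X_mul_derivative, coeff_X_mul]; push_cast; ring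
  rw [e1, coeff_X_mul_derivative, coeff_derivative] at h
  linear_combination -h

lemma sq_sqrt_pair {η : ℝ} (h0 : 0 ≤ η) (h1 : η ≤ 1) :
    Real.sqrt η ^ 2 = η ∧ Real.sqrt (1 - η) ^ 2 = 1 - η :=
  ⟨Real.sq_sqrt h0, Real.sq_sqrt (by linarith)⟩

/-- Explicit values when the second input is the vacuum, and symmetric variants. -/
lemma bsPoly_coeff_right_zero (η : ℝ) (i m : ℕ) : (bsPoly η i 0).coeff m =
    (i.choose m : ℝ) * Real.sqrt η ^ m * (-Real.sqrt (1 - η)) ^ (i - m) := by
  induction i generalizing m with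
  | zero => cases m <;> simp [bsPoly, coeff_one]
  | succ i ih =>
    rw [bsPoly_succ_left]
    cases m with
    | zero => rw [coeff_lin_zero, ih]; simp [pow_succ]; ring
    | succ m =>
      rw [coeff_lin_succ, ih, ih, Nat.choose_succ_succ, Nat.succ_sub_succ]
      rcases lt_or_ge i (m + 1) with h | h
      · rw [Nat.choose_eq_zero_of_lt h]; push_cast; ring
      · rw [show i - m = (i - (m + 1)) + 1 by omega]; push_cast; ring

lemma bsPoly_coeff_left_zero (η : ℝ) (j m : ℕ) : (bsPoly η 0 j).coeff m =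
    (j.choose m : ℝ) * Real.sqrt (1 - η) ^ m * Real.sqrt η ^ (j - m) := by
  induction j generalizing m with
  | zero => cases m <;> simp [bsPoly, coeff_one]
  | succ j ih =>
    rw [bsPoly_succ_right]
    cases m with
    | zero => rw [coeff_lin_zero, ih]; simp [pow_succ]; ring
    | succ m =>
      rw [coeff_lin_succ, ih, ih, Nat.choose_succ_succ, Nat.succ_sub_succ]
      rcases lt_or_ge j (m + 1) with h | h
      · rw [Nat.choose_eq_zero_of_lt h]; push_cast; ring
      · rw [show j - m = (j - (m + 1)) + 1 by omega]; push_cast; ring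

lemma bsProb_right_zero {η : ℝ} (h0 : 0 ≤ η) (h1 : η ≤ 1) (i m : ℕ) :
    bsProb η i 0 m = (i.choose m : ℝ) * η ^ m * (1 - η) ^ (i - m) := by
  obtain ⟨hA, hB⟩ := sq_sqrt_pair h0 h1
  rcases lt_or_ge i m with h | h
  · rw [bsProb_of_lt η (by simpa using h), Nat.choose_eq_zero_of_lt h]; simp
  rw [bsProb_eq, bsPoly_coeff_right_zero, Nat.cast_choose ℝ h, add_zero, factorial_zero]
  rw [show ((i ! : ℝ) / ((m ! : ℝ) * ((i - m)! : ℝ)) * Real.sqrt η ^ m * (-Real.sqrt (1 - η)) ^ (i - m)) ^ 2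
    = ((i ! : ℝ) / ((m ! : ℝ) * ((i - m)! : ℝ))) ^ 2 * (Real.sqrt η ^ 2) ^ m *
      (Real.sqrt (1 - η) ^ 2) ^ (i - m) by
      rw [mul_pow, mul_pow, ← pow_mul, ← pow_mul, ← pow_mul, ← pow_mul, mul_comm m 2,
        mul_comm (i - m) 2, pow_mul (-Real.sqrt (1 - η)), neg_sq, ← pow_mul]]
  rw [hA, hB]
  push_cast
  field_simp

lemma bsProb_left_zero {η : ℝ} (h0 : 0 ≤ η) (h1 : η ≤ 1) (j m : ℕ) :
    bsProb η 0 j m = (j.choose m : ℝ) * (1 - η) ^ m * η ^ (j - m) := by
  obtain ⟨hA, hB⟩ := sq_sqrt_pair h0 h1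
  rcases lt_or_ge j m with h | h
  · rw [bsProb_of_lt η (by simpa using h), Nat.choose_eq_zero_of_lt h]; simp
  rw [bsProb_eq, bsPoly_coeff_left_zero, Nat.cast_choose ℝ h, zero_add, factorial_zero]
  rw [show ((j ! : ℝ) / ((m ! : ℝ) * ((j - m)! : ℝ)) * Real.sqrt (1 - η) ^ m * Real.sqrt η ^ (j - m)) ^ 2
    = ((j ! : ℝ) / ((m ! : ℝ) * ((j - m)! : ℝ))) ^ 2 * (Real.sqrt (1 - η) ^ 2) ^ m *
      (Real.sqrt η ^ 2) ^ (j - m) by
      rw [mul_pow, mul_pow, ← pow_mul, ← pow_mul, ← pow_mul, ← pow_mul, mul_comm m 2,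
        mul_comm (j - m) 2]]
  rw [hA, hB]
  push_cast
  field_simp

lemma bsPoly_coeff_zero (η : ℝ) (i j : ℕ) : (bsPoly η i j).coeff 0 =
    (-Real.sqrt (1 - η)) ^ i * Real.sqrt η ^ j := by
  induction i with
  | zero => rw [bsPoly_coeff_left_zero]; simp
  | succ i ih => rw [bsPoly_succ_left, coeff_lin_zero, ih]; ring

lemma bsPoly_coeff_top (η : ℝ) (i j : ℕ) : (bsPoly η i j).coeff (i + j) =
    Real.sqrt η ^ i * Real.sqrt (1 - η) ^ j := by
  induction i with
  | zero => rw [bsPoly_coeff_left_zero]; simp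
  | succ i ih =>
    rw [bsPoly_succ_left, show i + 1 + j = (i + j) + 1 by ring, coeff_lin_succ, ih,
      coeff_bsPoly_of_lt η (show i + j < i + j + 1 by omega)]
    ring

lemma bsProb_zero {η : ℝ} (h0 : 0 ≤ η) (h1 : η ≤ 1) (i j : ℕ) : bsProb η i j 0 =
    ((i + j)! : ℝ) / ((i ! : ℝ) * (j ! : ℝ)) * (1 - η) ^ i * η ^ j := by
  obtain ⟨hA, hB⟩ := sq_sqrt_pair h0 h1
  rw [bsProb_eq, bsPoly_coeff_zero, factorial_zero, Nat.sub_zero, mul_pow, ← pow_mul, ← pow_mul,
    mul_comm i 2, mul_comm j 2, pow_mul, pow_mul, neg_sq, hA, hB]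
  push_cast
  ring

lemma bsProb_top {η : ℝ} (h0 : 0 ≤ η) (h1 : η ≤ 1) (i j : ℕ) : bsProb η i j (i + j) =
    ((i + j)! : ℝ) / ((i ! : ℝ) * (j ! : ℝ)) * η ^ i * (1 - η) ^ j := by
  obtain ⟨hA, hB⟩ := sq_sqrt_pair h0 h1
  rw [bsProb_eq, bsPoly_coeff_top, Nat.sub_self, factorial_zero, mul_pow, ← pow_mul, ← pow_mul,
    mul_comm i 2, mul_comm j 2, pow_mul, pow_mul, hA, hB]
  push_cast
  ring

lemma bsProb_rec_right_zero {η : ℝ} (h0 : 0 ≤ η) (h1 : η ≤ 1) (i m : ℕ) :
    bsProb η (i + 1) 0 (m + 1) = η * bsProb η i 0 m + (1 - η) * bsProb η i 0 (m + 1) := by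
  simp only [bsProb_right_zero h0 h1, Nat.choose_succ_succ, Nat.succ_sub_succ]
  rcases lt_or_ge i (m + 1) with h | h
  · rw [Nat.choose_eq_zero_of_lt h]; push_cast; ring
  · rw [show i - m = (i - (m + 1)) + 1 by omega]; push_cast; ring

lemma bsProb_rec_left_zero {η : ℝ} (h0 : 0 ≤ η) (h1 : η ≤ 1) (j m : ℕ) :
    bsProb η 0 (j + 1) (m + 1) = (1 - η) * bsProb η 0 j m + η * bsProb η 0 j (m + 1) := by
  simp only [bsProb_left_zero h0 h1, Nat.choose_succ_succ, Nat.succ_sub_succ]
  rcases lt_or_ge j (m + 1) with h | h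
  · rw [Nat.choose_eq_zero_of_lt h]; push_cast; ring
  · rw [show j - m = (j - (m + 1)) + 1 by omega]; push_cast; ring

lemma bsProb_rec_zero {η : ℝ} (h0 : 0 ≤ η) (h1 : η ≤ 1) (i j : ℕ) :
    bsProb η (i + 1) (j + 1) 0 = (1 - η) * bsProb η i (j + 1) 0 + η * bsProb η (i + 1) j 0 := by
  simp only [bsProb_zero h0 h1]
  rw [show i + 1 + (j + 1) = (i + j + 1) + 1 by ring, show i + (j + 1) = i + j + 1 by ring,
    show i + 1 + j = i + j + 1 by ring]
  simp only [factorial_succ]
  push_cast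
  field_simp
  ring

/-- The recursion of the beam-splitter probabilities. -/
lemma bsProb_rec {η : ℝ} (h0 : 0 ≤ η) (h1 : η ≤ 1) (i j m : ℕ) :
    bsProb η (i + 1) (j + 1) (m + 1) =
      η * bsProb η i (j + 1) m + (1 - η) * bsProb η i (j + 1) (m + 1)
        + (1 - η) * bsProb η (i + 1) j m + η * bsProb η (i + 1) j (m + 1)
        - bsProb η i j m := by
  rcases lt_trichotomy (i + j + 1) m with h | h | h
  · simp [bsProb_of_lt η (show i + 1 + (j + 1) < m + 1 by omega),
      bsProb_of_lt η (show i + (j + 1) < m by omega),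
      bsProb_of_lt η (show i + (j + 1) < m + 1 by omega),
      bsProb_of_lt η (show i + 1 + j < m by omega),
      bsProb_of_lt η (show i + 1 + j < m + 1 by omega),
      bsProb_of_lt η (show i + j < m by omega)]
  · subst h
    rw [bsProb_of_lt η (show i + (j + 1) < i + j + 1 + 1 by omega),
      bsProb_of_lt η (show i + 1 + j < i + j + 1 + 1 by omega),
      bsProb_of_lt η (show i + j < i + j + 1 by omega)]
    rw [show i + j + 1 + 1 = (i + 1) + (j + 1) by ring, bsProb_top h0 h1,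
      show bsProb η i (j + 1) (i + j + 1) = bsProb η i (j + 1) (i + (j + 1)) by ring_nf,
      show bsProb η (i + 1) j (i + j + 1) = bsProb η (i + 1) j ((i + 1) + j) by ring_nf,
      bsProb_top h0 h1, bsProb_top h0 h1]
    rw [show i + 1 + (j + 1) = (i + j + 1) + 1 by ring, show i + (j + 1) = i + j + 1 by ring,
      show i + 1 + j = i + j + 1 by ring]
    simp only [factorial_succ]
    push_cast
    field_simp
    ring
  · obtain ⟨e, he⟩ : ∃ e, i + j = m + e := ⟨i + j - m, by omega⟩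
    obtain ⟨hA, hB⟩ := sq_sqrt_pair h0 h1
    set A := Real.sqrt η
    set B := Real.sqrt (1 - η)
    have hrel := coeff_relation h0 h1 i j m
    simp only [← show A = Real.sqrt η from rfl, ← show B = Real.sqrt (1 - η) from rfl] at hrel
    set dm := (X * bsPoly η i j).coeff m with hdm
    set c0 := (bsPoly η i j).coeff m
    set dp := (bsPoly η i j).coeff (m + 1)
    have hc1 : (bsPoly η i (j + 1)).coeff m = B * dm + A * c0 := by
      rw [bsPoly_succ_right, coeff_linear_mul]
    have hc2 : (bsPoly η i (j + 1)).coeff (m + 1) = B * c0 + A * dp := by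
      rw [bsPoly_succ_right, coeff_lin_succ]
    have hc3 : (bsPoly η (i + 1) j).coeff m = A * dm - B * c0 := by
      rw [bsPoly_succ_left, coeff_linear_mul]; ring
    have hc4 : (bsPoly η (i + 1) j).coeff (m + 1) = A * c0 - B * dp := by
      rw [bsPoly_succ_left, coeff_lin_succ]; ring
    have hc : (bsPoly η (i + 1) (j + 1)).coeff (m + 1) =
        A * (B * dm + A * c0) - B * (B * c0 + A * dp) := by
      rw [bsPoly_succ_left, coeff_lin_succ, hc1, hc2]; ring
    have hE : (i : ℝ) + j + 1 - m = (e : ℝ) + 1 := by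
      have : (i : ℝ) + j = m + e := by exact_mod_cast he
      linarith
    rw [hE] at hrel
    simp only [bsProb_eq, hc1, hc2, hc3, hc4, hc, ← show c0 = (bsPoly η i j).coeff m from rfl]
    rw [show i + 1 + (j + 1) - (m + 1) = e + 1 by omega, show i + (j + 1) - m = e + 1 by omega,
      show i + (j + 1) - (m + 1) = e by omega, show i + 1 + j - m = e + 1 by omega,
      show i + 1 + j - (m + 1) = e by omega, show i + j - m = e by omega]
    have hij : (j : ℝ) = m + e - i := by
      have : (i : ℝ) + j = m + e := by exact_mod_cast he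
      linarith
    simp only [factorial_succ]
    push_cast
    have hsum : A ^ 2 + B ^ 2 = 1 := by rw [hA, hB]; ring
    rw [← hB, ← hA]
    field_simp
    rw [hij] at hrel ⊢
    linear_combination
      (-((A * B * ((m : ℝ) + 1) * dp) + A * B * ((e : ℝ) + 1) * dm
        - (((m : ℝ) - i) * A ^ 2 - ((m : ℝ) - ((m : ℝ) + e - i)) * B ^ 2) * c0)) * hrel
      + ((i : ℝ) + 1) * ((m : ℝ) + e - i + 1) * c0 ^ 2 * (-1 - (A ^ 2 + B ^ 2)) * hsum

end Vale.Agent.P369
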