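import Vale.Agent.P369.MThin

open Finset

noncomputable section

namespace Vale.Agent.P369

variable {n N : ℕ} {η : ℝ} {P Q : (Fin (n + 1) → ℕ) → ℝ}

/-- Node identity for unnormalised fibres. -/
lemma node_termU {p q : ℕ → ℝ} (h0 : 0 ≤ η) (h1 : η ≤ 1) (hp : ∀ k, 0 ≤ p k)
    (hp' : ∀ k, p (k + 1) ≤ p k) (hq : ∀ k, 0 ≤ q k) (hq' : ∀ k, q (k + 1) ≤ q k) (i j : ℕ) :
    ((i : ℝ) + 1) * ((j : ℝ) + 1) *
      pers (η * (shf p i * dlt q j) + (1 - η) * (dlt p i * shf q j)) (dlt p i * dlt q j)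
    = wt p i * wt q j * fFun (η * nod p i + (1 - η) * nod q j) := by
  have hd0 : 0 ≤ dlt p i := sub_nonneg.2 (hp' i)
  have he0 : 0 ≤ dlt q j := sub_nonneg.2 (hq' j)
  rcases hd0.eq_or_lt with hd | hd
  · simp [wt, ← hd, pers]
  rcases he0.eq_or_lt with he | he
  · simp [wt, ← he, pers]
  have hA : 0 ≤ η * (shf p i * dlt q j) + (1 - η) * (dlt p i * shf q j) :=
    add_nonneg (mul_nonneg h0 (mul_nonneg (hp _) he.le))
      (mul_nonneg (sub_nonneg.2 h1) (mul_nonneg hd.le (hq _)))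
  have hx : (η * (shf p i * dlt q j) + (1 - η) * (dlt p i * shf q j)) / (dlt p i * dlt q j)
      = η * nod p i + (1 - η) * nod q j := by
    unfold nod wt
    field_simp
  rw [pers_eq_mul_fFun hA (mul_pos hd he).le, hx]
  unfold wt
  ring

lemma fib_dlt_nonneg (h : PassiveN (n + 1) N P) (l : Fin (n + 1)) (k : Fin n → ℕ) (x : ℕ) :
    0 ≤ dlt (fib l P k) x := sub_nonneg.2 (fib_anti h l k x)

lemma sum_bsN_box (h0 : 0 ≤ η) (h1 : η ≤ 1) {i j : Fin n → ℕ} (hi : i ∈ box n N)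
    (hj : j ∈ box n N) : ∑ m ∈ box n (2 * N), bsN η i j m = 1 := by
  unfold bsN
  rw [sum_box_prod (2 * N) fun l x => bsProb η (i l) (j l) x, Finset.prod_eq_one fun l _ => ?_]
  have a := mem_box.1 hi l
  have b := mem_box.1 hj l
  rw [show 2 * N = (2 * N - 1) + 1 by omega, sum_bsProb h0 h1 _ _ _ (by omega)]

/-- Decrements of the output along mode `l`. -/
lemma fib_out_diff (h0 : 0 ≤ η) (h1 : η ≤ 1) (hp : PassiveN (n + 1) N P)
    (hq : PassiveN (n + 1) N Q) (l : Fin (n + 1)) (m : Fin n → ℕ) (z : ℕ) :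
    ((z : ℝ) + 1) * dlt (fib l (pCN N η P Q) m) z
      = ∑ i ∈ box n N, ∑ j ∈ box n N,
          bsN η i j m * pair N (dlt (fib l P i)) (dlt (fib l Q j)) (WS η z) := by
  rw [dlt, fib_pCN, fib_pCN]
  simp only [← Finset.sum_sub_distrib, Finset.mul_sum]
  refine Finset.sum_congr rfl fun i _ => Finset.sum_congr rfl fun j _ => ?_
  rw [← out_diff h0 h1 (fun x hx => fib_supp hp l i hx) (fun x hx => fib_supp hq l j hx)]
  ring

/-- Shifted output along mode `l`. -/
lemma fib_out_shift (h0 : 0 ≤ η) (h1 : η ≤ 1) (hp : PassiveN (n + 1) N P)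
    (hq : PassiveN (n + 1) N Q) (l : Fin (n + 1)) (m : Fin n → ℕ) (z : ℕ) :
    ((z : ℝ) + 1) * shf (fib l (pCN N η P Q) m) z
      = ∑ i ∈ box n N, ∑ j ∈ box n N, bsN η i j m *
          (η * pair N (shf (fib l P i)) (dlt (fib l Q j)) (WS η z)
            + (1 - η) * pair N (dlt (fib l P i)) (shf (fib l Q j)) (WS η z)) := by
  rw [shf, fib_pCN]
  simp only [Finset.mul_sum]
  refine Finset.sum_congr rfl fun i _ => Finset.sum_congr rfl fun j _ => ?_
  rw [← out_shift h0 h1 (fun x hx => fib_supp hp l i hx) (fun x hx => fib_supp hq l j hx)]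
  ring

lemma out_passiveN (h0 : 0 < η) (h1 : η < 1) (hp : PassiveN (n + 1) N P)
    (hq : PassiveN (n + 1) N Q) : PassiveN (n + 1) (2 * N) (pCN N η P Q) where
  nonneg m := Finset.sum_nonneg fun i _ => Finset.sum_nonneg fun j _ =>
    mul_nonneg (mul_nonneg (hp.nonneg i) (hq.nonneg j)) (bsN_nonneg _ _ _ _)
  anti m l := by
    obtain ⟨z, m', rfl⟩ : ∃ z m', Fin.insertNth l z m' = m := ⟨m l, l.removeNth m, by simp⟩
    have h : 0 ≤ ((z : ℝ) + 1) * dlt (fib l (pCN N η P Q) m') z := by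
      rw [fib_out_diff h0.le h1.le hp hq]
      exact Finset.sum_nonneg fun i _ => Finset.sum_nonneg fun j _ =>
        mul_nonneg (bsN_nonneg _ _ _ _) (pair_nonneg _ _ _ (fib_dlt_nonneg hp l i)
          (fib_dlt_nonneg hq l j) fun a b => cf_WS_nonneg h0.le h1.le a b z)
    have := nonneg_of_mul_nonneg_right h (by positivity)
    rw [bump_insertNth]
    exact sub_nonneg.1 this
  supp m hm := by
    rw [mem_box] at hm
    push Not at hm
    obtain ⟨l, hl⟩ := hm
    refine Finset.sum_eq_zero fun i hi => Finset.sum_eq_zero fun j hj => ?_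
    have a := mem_box.1 hi l
    have b := mem_box.1 hj l
    rw [bsN, Finset.prod_eq_zero (Finset.mem_univ l) (bsProb_of_lt η (by omega)), mul_zero]
  total := by rw [sum_pCN h0.le h1.le, hp.total, hq.total, one_mul]

/-- The output rate in mode `l` dominates the double mean over the input nodes. -/
lemma sum_node_le_Qmode (h0 : 0 < η) (h1 : η < 1) (hp : PassiveN (n + 1) N P)
    (hq : PassiveN (n + 1) N Q) (l : Fin (n + 1)) :
    ∑ i ∈ box (n + 1) N, ∑ j ∈ box (n + 1) N,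
        wtN l P i * wtN l Q j * fFun (η * nodN l P i + (1 - η) * nodN l Q j)
      ≤ Qmode (2 * N) l (pCN N η P Q) := by
  have h1' : 0 ≤ 1 - η := by linarith
  set A : (Fin n → ℕ) → (Fin n → ℕ) → ℕ → ℕ → ℝ := fun i j x y =>
    η * (shf (fib l P i) x * dlt (fib l Q j) y)
      + (1 - η) * (dlt (fib l P i) x * shf (fib l Q j) y) with hA
  set B : (Fin n → ℕ) → (Fin n → ℕ) → ℕ → ℕ → ℝ := fun i j x y =>
    dlt (fib l P i) x * dlt (fib l Q j) y with hB
  have hA0 : ∀ i j x y, 0 ≤ A i j x y := fun i j x y =>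
    add_nonneg (mul_nonneg h0.le (mul_nonneg (fib_nonneg hp l i _) (fib_dlt_nonneg hq l j y)))
      (mul_nonneg h1' (mul_nonneg (fib_dlt_nonneg hp l i x) (fib_nonneg hq l j _)))
  have hB0 : ∀ i j x y, 0 ≤ B i j x y := fun i j x y =>
    mul_nonneg (fib_dlt_nonneg hp l i x) (fib_dlt_nonneg hq l j y)
  set T := (box n N ×ˢ box n N) ×ˢ (range N ×ˢ range N) with hT
  set w : ((Fin n → ℕ) × (Fin n → ℕ)) × (ℕ × ℕ) → (Fin n → ℕ) → ℕ → ℝ := fun t m z =>
    bsN η t.1.1 t.1.2 m * cf t.2.1 t.2.2 (WS η z) with hw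
  have hw0 : ∀ t m z, 0 ≤ w t m z := fun t m z =>
    mul_nonneg (bsN_nonneg _ _ _ _) (cf_WS_nonneg h0.le h1.le _ _ _)
  have hm : ∀ m z, ∑ t ∈ T, w t m z * pers (A t.1.1 t.1.2 t.2.1 t.2.2) (B t.1.1 t.1.2 t.2.1 t.2.2)
      ≤ pers (((z : ℝ) + 1) * shf (fib l (pCN N η P Q) m) z)
          (((z : ℝ) + 1) * dlt (fib l (pCN N η P Q) m) z) := by
    intro m z
    have eA : ((z : ℝ) + 1) * shf (fib l (pCN N η P Q) m) z
        = ∑ t ∈ T, w t m z * A t.1.1 t.1.2 t.2.1 t.2.2 := by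
      rw [fib_out_shift h0.le h1.le hp hq, hT, Finset.sum_product, Finset.sum_product]
      refine Finset.sum_congr rfl fun i _ => Finset.sum_congr rfl fun j _ => ?_
      rw [Finset.sum_product]
      simp only [pair, hw, hA, Finset.mul_sum, ← Finset.sum_add_distrib]
      exact Finset.sum_congr rfl fun x _ => Finset.sum_congr rfl fun y _ => by ring
    have eB : ((z : ℝ) + 1) * dlt (fib l (pCN N η P Q) m) z
        = ∑ t ∈ T, w t m z * B t.1.1 t.1.2 t.2.1 t.2.2 := by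
      rw [fib_out_diff h0.le h1.le hp hq, hT, Finset.sum_product, Finset.sum_product]
      refine Finset.sum_congr rfl fun i _ => Finset.sum_congr rfl fun j _ => ?_
      rw [Finset.sum_product]
      simp only [pair, hw, hB, Finset.mul_sum]
      exact Finset.sum_congr rfl fun x _ => Finset.sum_congr rfl fun y _ => by ring
    rw [eA, eB]
    refine le_trans (le_of_eq (Finset.sum_congr rfl fun t _ => ?_))
      (sum_pers_le _ _ _ (fun t _ => mul_nonneg (hw0 t m z) (hA0 _ _ _ _))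
        (fun t _ => mul_nonneg (hw0 t m z) (hB0 _ _ _ _)))
    exact (pers_smul (hw0 t m z) (hA0 _ _ _ _) (hB0 _ _ _ _)).symm
  rw [Qmode_split]
  refine le_trans (le_of_eq ?_)
    (Finset.sum_le_sum fun m (_ : m ∈ box n (2 * N)) =>
      Finset.sum_le_sum fun z (_ : z ∈ range (2 * N)) => hm m z)
  have e : ∀ t ∈ T, ∑ m ∈ box n (2 * N), ∑ z ∈ range (2 * N), w t m z
      = ((t.2.1 : ℝ) + 1) * ((t.2.2 : ℝ) + 1) := by
    intro t ht
    simp only [hT, Finset.mem_product, Finset.mem_range] at ht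
    simp only [hw, ← Finset.mul_sum, ← Finset.sum_mul, sum_bsN_box h0.le h1.le ht.1.1 ht.1.2,
      sum_cf_WS_two h0.le h1.le ht.2.1 ht.2.2, one_mul]
  symm
  calc ∑ m ∈ box n (2 * N), ∑ z ∈ range (2 * N), ∑ t ∈ T,
        w t m z * pers (A t.1.1 t.1.2 t.2.1 t.2.2) (B t.1.1 t.1.2 t.2.1 t.2.2)
      = ∑ t ∈ T, ((t.2.1 : ℝ) + 1) * ((t.2.2 : ℝ) + 1)
          * pers (A t.1.1 t.1.2 t.2.1 t.2.2) (B t.1.1 t.1.2 t.2.1 t.2.2) := by
        simp only [Finset.sum_comm (t := T)]
        exact Finset.sum_congr rfl fun t ht => by simp only [← Finset.sum_mul]; rw [e t ht]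
    _ = _ := by
        rw [sum_box_split N l, hT, Finset.sum_product, Finset.sum_product]
        refine Finset.sum_congr rfl fun i _ => ?_
        conv_rhs =>
          enter [2, x]
          rw [sum_box_split N l]
        simp only [wtN_insertNth, nodN_insertNth]
        conv_rhs => rw [Finset.sum_comm]
        refine Finset.sum_congr rfl fun j _ => ?_
        rw [Finset.sum_product]
        exact Finset.sum_congr rfl fun x _ => Finset.sum_congr rfl fun y _ =>
          node_termU h0.le h1.le (fib_nonneg hp l i) (fib_anti hp l i) (fib_nonneg hq l j)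
            (fib_anti hq l j) x y

lemma wtN_nonneg' (hp : PassiveN (n + 1) N P) (l : Fin (n + 1)) (k : Fin (n + 1) → ℕ) :
    0 ≤ wtN l P k := mul_nonneg (by positivity) (sub_nonneg.2 (hp.anti k l))

lemma nodN_nonneg' (hp : PassiveN (n + 1) N P) (l : Fin (n + 1)) (k : Fin (n + 1) → ℕ) :
    0 ≤ nodN l P k :=
  div_nonneg (mul_nonneg (by positivity) (hp.nonneg _)) (wtN_nonneg' hp l k)

lemma wtN_total (hp : PassiveN (n + 1) N P) (l : Fin (n + 1)) :
    ∑ k ∈ box (n + 1) N, wtN l P k = 1 := by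
  rw [← hp.total, sum_box_split N l, sum_box_split N l P]
  refine Finset.sum_congr rfl fun k _ => ?_
  simp only [wtN_insertNth, wt, dlt]
  rw [sum_mul_sub_succ, fib_supp hp l k le_rfl, mul_zero, sub_zero]
  rfl

lemma Qmode_eq_wtN_mean (hp : PassiveN (n + 1) N P) (l : Fin (n + 1)) :
    Qmode N l P = ∑ k ∈ box (n + 1) N, wtN l P k * fFun (nodN l P k) :=
  Finset.sum_congr rfl fun k _ =>
    pers_eq_mul_fFun (mul_nonneg (by positivity) (hp.nonneg _)) (wtN_nonneg' hp l k)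

lemma Qmode_out_ge (h0 : 0 < η) (h1 : η < 1) (hp : PassiveN (n + 1) N P)
    (hq : PassiveN (n + 1) N Q) (l : Fin (n + 1)) {a b : ℝ} (ha : 0 ≤ a) (hb : 0 ≤ b)
    (hfa : fFun a = Qmode N l P) (hfb : fFun b = Qmode N l Q) :
    fFun (η * a + (1 - η) * b) ≤ Qmode (2 * N) l (pCN N η P Q) := by
  refine le_trans ?_ (sum_node_le_Qmode h0 h1 hp hq l)
  rw [Finset.sum_comm]
  have h1' : 0 < 1 - η := by linarith
  calc fFun (η * a + (1 - η) * b) = fFun ((1 - η) * b + η * a) := by rw [add_comm]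
    _ ≤ ∑ j ∈ box (n + 1) N, wtN l Q j * fFun ((1 - η) * nodN l Q j + η * a) :=
        shift_mean _ _ _ h1' (by linarith) (mul_nonneg h0.le ha) hb
          (fun j _ => wtN_nonneg' hq l j) (wtN_total hq l) (fun j _ => nodN_nonneg' hq l j)
          (by rw [← Qmode_eq_wtN_mean hq l, hfb])
    _ ≤ _ := by
        refine Finset.sum_le_sum fun j _ => ?_
        rw [add_comm ((1 - η) * nodN l Q j)]
        simp only [mul_comm (wtN l P _) (wtN l Q j), mul_assoc, ← Finset.mul_sum]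
        exact mul_le_mul_of_nonneg_left
          (shift_mean _ _ _ h0 h1.le (mul_nonneg h1'.le (nodN_nonneg' hq l j)) ha
            (fun i _ => wtN_nonneg' hp l i) (wtN_total hp l) (fun i _ => nodN_nonneg' hp l i)
            (by rw [← Qmode_eq_wtN_mean hp l, hfa])) (wtN_nonneg' hq l j)

end Vale.Agent.P369
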