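import Vale.Agent.P369.Product
import Vale.Agent.P369.Bound

open Finset

noncomputable section

namespace Vale.Agent.P369

variable {n : ℕ}

/-- The photon numbers below `N` in every mode. -/
def box (n N : ℕ) : Finset (Fin n → ℕ) := Fintype.piFinset fun _ => range N

/-- Add one photon to mode `l`. -/
def bump (l : Fin n) (k : Fin n → ℕ) : Fin n → ℕ := Function.update k l (k l + 1)

/-- Multimode passive weights: nonincreasing in the photon number of every mode. -/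
structure PassiveN (n N : ℕ) (P : (Fin n → ℕ) → ℝ) : Prop where
  nonneg : ∀ k, 0 ≤ P k
  anti : ∀ k l, P (bump l k) ≤ P k
  supp : ∀ k, k ∉ box n N → P k = 0
  total : ∑ k ∈ box n N, P k = 1

/-- Joint kernel of all modes. -/
def bsN (η : ℝ) (i j m : Fin n → ℕ) : ℝ := ∏ l, bsProb η (i l) (j l) (m l)

/-- Output distribution of the `n`-mode beam splitter for diagonal inputs supported in the box. -/
def pCN (N : ℕ) (η : ℝ) (P Q : (Fin n → ℕ) → ℝ) (m : Fin n → ℕ) : ℝ :=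
  ∑ i ∈ box n N, ∑ j ∈ box n N, P i * Q j * bsN η i j m

/-- Entropy over the box. -/
def entB (M : ℕ) (P : (Fin n → ℕ) → ℝ) : ℝ := ∑ k ∈ box n M, Real.negMulLog (P k)

/-- Weight of the node `k` in direction `l`. -/
def wtN (l : Fin n) (P : (Fin n → ℕ) → ℝ) (k : Fin n → ℕ) : ℝ :=
  ((k l : ℝ) + 1) * (P k - P (bump l k))

/-- Node `k` in direction `l`. -/
def nodN (l : Fin n) (P : (Fin n → ℕ) → ℝ) (k : Fin n → ℕ) : ℝ :=
  ((k l : ℝ) + 1) * P (bump l k) / wtN l P k

/-- Loss rate in mode `l`. -/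
def Qmode (M : ℕ) (l : Fin n) (P : (Fin n → ℕ) → ℝ) : ℝ :=
  ∑ k ∈ box n M, pers (((k l : ℝ) + 1) * P (bump l k)) (wtN l P k)

/-- Loss rate per mode. -/
def QfN (M : ℕ) (P : (Fin n → ℕ) → ℝ) : ℝ := (∑ l, Qmode M l P) / n

/-- Loss generator in mode `l`. -/
def genN (l : Fin n) (P : (Fin n → ℕ) → ℝ) (k : Fin n → ℕ) : ℝ :=
  ((k l : ℝ) + 1) * P (bump l k) - (k l : ℝ) * P k

/-- The vacuum. -/
def vacN (k : Fin n → ℕ) : ℝ := prodDist (fun _ => vac) k

/-- The fibre of `P` in mode `l` over the other photon numbers `k`. -/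
def fib (l : Fin (n + 1)) (P : (Fin (n + 1) → ℕ) → ℝ) (k : Fin n → ℕ) (x : ℕ) : ℝ :=
  P (Fin.insertNth l x k)

lemma mem_box {N : ℕ} {k : Fin n → ℕ} : k ∈ box n N ↔ ∀ l, k l < N := by simp [box]

lemma bump_same (l : Fin n) (k : Fin n → ℕ) : bump l k l = k l + 1 := Function.update_self ..

lemma bump_of_ne {l l' : Fin n} (h : l' ≠ l) (k : Fin n → ℕ) : bump l k l' = k l' :=
  Function.update_of_ne h ..

lemma bump_insertNth (l : Fin (n + 1)) (x : ℕ) (k : Fin n → ℕ) :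
    bump l (Fin.insertNth l x k) = Fin.insertNth l (x + 1) k := by
  unfold bump
  rw [Fin.insertNth_apply_same, Fin.update_insertNth]

lemma insertNth_mem_box {N : ℕ} (l : Fin (n + 1)) (x : ℕ) (k : Fin n → ℕ) :
    Fin.insertNth l x k ∈ box (n + 1) N ↔ x < N ∧ k ∈ box n N := by
  simp [mem_box, Fin.forall_iff_succAbove l]

/-- Splitting a box sum along mode `l`. -/
lemma sum_box_split (N : ℕ) (l : Fin (n + 1)) (F : (Fin (n + 1) → ℕ) → ℝ) :
    ∑ k ∈ box (n + 1) N, F k = ∑ k ∈ box n N, ∑ x ∈ range N, F (Fin.insertNth l x k) := by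
  rw [← Finset.sum_product' (s := box n N) (t := range N)
    (f := fun k x => F (Fin.insertNth l x k))]
  refine Finset.sum_nbij' (fun k => (l.removeNth k, k l)) (fun p => Fin.insertNth l p.2 p.1)
    ?_ ?_ ?_ ?_ ?_
  · intro k hk
    simp only [Finset.mem_coe, mem_box, Finset.mem_product, Finset.mem_range] at hk ⊢
    exact ⟨fun i => hk _, hk l⟩
  · intro p hp
    simp only [Finset.mem_coe, Finset.mem_product, Finset.mem_range] at hp ⊢
    exact (insertNth_mem_box l p.2 p.1).2 ⟨hp.2, hp.1⟩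
  · intro k _; simp
  · intro p _; simp
  · intro k _; simp

lemma bsN_insertNth (η : ℝ) (l : Fin (n + 1)) (x y z : ℕ) (i j m : Fin n → ℕ) :
    bsN η (Fin.insertNth l x i) (Fin.insertNth l y j) (Fin.insertNth l z m)
      = bsProb η x y z * bsN η i j m := by
  unfold bsN
  rw [Fin.prod_univ_succAbove _ l]
  simp

/-- Fibre formula for the output. -/
lemma fib_pCN (N : ℕ) (η : ℝ) (l : Fin (n + 1)) (P Q : (Fin (n + 1) → ℕ) → ℝ)
    (m : Fin n → ℕ) (z : ℕ) :
    fib l (pCN N η P Q) m z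
      = ∑ i ∈ box n N, ∑ j ∈ box n N, bsN η i j m * pC N η (fib l P i) (fib l Q j) z := by
  unfold fib pCN pC
  rw [sum_box_split N l]
  refine Finset.sum_congr rfl fun i _ => ?_
  simp only [sum_box_split N l (fun b => P _ * Q b * bsN η _ b _)]
  rw [Finset.sum_comm]
  refine Finset.sum_congr rfl fun j _ => ?_
  simp only [Finset.mul_sum, bsN_insertNth]
  exact Finset.sum_congr rfl fun x _ => Finset.sum_congr rfl fun y _ => by ring

lemma fib_nonneg {N : ℕ} {P : (Fin (n + 1) → ℕ) → ℝ} (h : PassiveN (n + 1) N P)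
    (l : Fin (n + 1)) (k : Fin n → ℕ) (x : ℕ) : 0 ≤ fib l P k x := h.nonneg _

lemma fib_anti {N : ℕ} {P : (Fin (n + 1) → ℕ) → ℝ} (h : PassiveN (n + 1) N P)
    (l : Fin (n + 1)) (k : Fin n → ℕ) (x : ℕ) : fib l P k (x + 1) ≤ fib l P k x := by
  unfold fib; rw [← bump_insertNth]; exact h.anti _ _

lemma fib_supp {N : ℕ} {P : (Fin (n + 1) → ℕ) → ℝ} (h : PassiveN (n + 1) N P)
    (l : Fin (n + 1)) (k : Fin n → ℕ) {x : ℕ} (hx : N ≤ x) : fib l P k x = 0 :=
  h.supp _ fun hm => not_lt.2 hx ((insertNth_mem_box l x k).1 hm).1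

lemma wtN_insertNth (l : Fin (n + 1)) (P : (Fin (n + 1) → ℕ) → ℝ) (k : Fin n → ℕ) (x : ℕ) :
    wtN l P (Fin.insertNth l x k) = wt (fib l P k) x := by
  simp [wtN, wt, dlt, fib, bump_insertNth]

lemma nodN_insertNth (l : Fin (n + 1)) (P : (Fin (n + 1) → ℕ) → ℝ) (k : Fin n → ℕ) (x : ℕ) :
    nodN l P (Fin.insertNth l x k) = nod (fib l P k) x := by
  simp [nodN, nod, wtN_insertNth, shf, fib, bump_insertNth]

lemma Qmode_split (M : ℕ) (l : Fin (n + 1)) (P : (Fin (n + 1) → ℕ) → ℝ) :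
    Qmode M l P = ∑ k ∈ box n M, Qf M (fib l P k) := by
  unfold Qmode Qf
  rw [sum_box_split M l]
  simp [wtN_insertNth, bump_insertNth, wt, shf, fib]

lemma fib_genN (l : Fin (n + 1)) (P : (Fin (n + 1) → ℕ) → ℝ) (k : Fin n → ℕ) :
    fib l (genN l P) k = gen (fib l P k) := by
  funext x
  simp [fib, genN, gen, bump_insertNth]

end Vale.Agent.P369
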