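import Vale.Agent.P369.MDefs

open Finset Real

noncomputable section

namespace Vale.Agent.P369

variable {n N : ℕ}

section fibre

variable {v : ℕ → ℝ}

lemma sum_wt_mass (hs : v N = 0) : ∑ k ∈ range N, wt v k = ∑ k ∈ range N, v k := by
  simp only [wt, dlt]
  rw [sum_mul_sub_succ, hs]; ring

lemma Qf_eq_wt (hn : ∀ k, 0 ≤ v k) (ha : ∀ k, v (k + 1) ≤ v k) :
    Qf N v = ∑ k ∈ range N, wt v k * fFun (nod v k) :=
  Finset.sum_congr rfl fun k _ =>
    pers_eq_mul_fFun (mul_nonneg (by positivity) (hn _))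
      (mul_nonneg (by positivity) (sub_nonneg.2 (ha k)))

lemma sum_gen_log_mass (hn : ∀ k, 0 ≤ v k) (ha : ∀ k, v (k + 1) ≤ v k) (hs : v N = 0) :
    ∑ k ∈ range N, gen v k * Real.log (v k) = Qf N v := by
  have e : Qf N v = ∑ k ∈ range N,
      ((k : ℝ) + 1) * v (k + 1) * (Real.log (v k) - Real.log (v (k + 1))) := by
    refine Finset.sum_congr rfl fun k _ => ?_
    have hk : (0:ℝ) < (k : ℝ) + 1 := by positivity
    unfold pers shf dlt
    rw [show ((k : ℝ) + 1) * v (k + 1) + ((k : ℝ) + 1) * (v k - v (k + 1))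
      = ((k : ℝ) + 1) * v k by ring]
    rcases (hn (k + 1)).eq_or_lt with h' | h'
    · rw [← h']; ring
    · rw [Real.log_mul hk.ne' (lt_of_lt_of_le h' (ha k)).ne', Real.log_mul hk.ne' h'.ne']
      ring
  rw [e]
  have a := Finset.sum_range_succ' (fun k : ℕ => (k : ℝ) * v k * Real.log (v k)) N
  have b := Finset.sum_range_succ (fun k : ℕ => (k : ℝ) * v k * Real.log (v k)) N
  rw [b] at a
  simp only [hs, Nat.cast_zero, zero_mul, mul_zero, add_zero, Nat.cast_add, Nat.cast_one] at a
  simp only [gen, sub_mul, mul_sub, Finset.sum_sub_distrib]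
  rw [a]

lemma sum_wt_gFun_le_mass (hn : ∀ k, 0 ≤ v k) (ha : ∀ k, v (k + 1) ≤ v k)
    (hs : ∀ k, N ≤ k → v k = 0) :
    ∑ k ∈ range N, wt v k * gFun (nod v k)
      ≤ ∑ k ∈ range N, negMulLog (v k) - negMulLog (∑ k ∈ range N, v k) := by
  set T := ∑ k ∈ range N, v k with hT
  have hT0 : 0 ≤ T := Finset.sum_nonneg fun k _ => hn k
  rcases hT0.eq_or_lt with h | h
  · have hz : ∀ k, v k = 0 := fun k => by
      rcases lt_or_ge k N with hk | hk
      · exact (Finset.sum_eq_zero_iff_of_nonneg fun i _ => hn i).1 h.symm k (Finset.mem_range.2 hk)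
      · exact hs k hk
    rw [← h]
    simp [hz, wt, dlt]
  · have hp : Passive N (fun k => v k / T) :=
      ⟨fun k => div_nonneg (hn k) h.le, fun k => div_le_div_of_nonneg_right (ha k) h.le,
        fun k hk => by simp [hs k hk], by rw [← Finset.sum_div]; exact div_self h.ne'⟩
    have hw : ∀ k, wt v k = T * wt (fun k => v k / T) k := fun k => by
      have := h.ne'
      simp only [wt, dlt]; field_simp
    have hd : ∀ k, nod v k = nod (fun k => v k / T) k := fun k => by
      unfold nod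
      rw [hw k]
      simp only [shf]
      field_simp
    have he : ∑ k ∈ range N, negMulLog (v k)
        = T * ent N (fun k => v k / T) + negMulLog T := by
      have e : ∀ k, negMulLog (v k) = (v k / T) * negMulLog T + T * negMulLog (v k / T) := fun k => by
        rw [← negMulLog_mul]; congr 1; rw [mul_div_cancel₀ _ h.ne']
      simp only [e, Finset.sum_add_distrib, ← Finset.sum_mul, ← Finset.mul_sum, ← Finset.sum_div]
      rw [← hT, div_self h.ne', ent]
      ring
    rw [he, add_sub_cancel_right]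
    calc ∑ k ∈ range N, wt v k * gFun (nod v k)
        = T * ∑ k ∈ range N, wt (fun k => v k / T) k * gFun (nod (fun k => v k / T) k) := by
          rw [Finset.mul_sum]
          exact Finset.sum_congr rfl fun k _ => by rw [hw, hd]; ring
      _ ≤ _ := mul_le_mul_of_nonneg_left (sum_wt_gFun_le hp) h.le

end fibre

lemma PassiveN.le_one {P : (Fin n → ℕ) → ℝ} (h : PassiveN n N P) (k : Fin n → ℕ) : P k ≤ 1 := by
  by_cases hk : k ∈ box n N
  · rw [← h.total]; exact Finset.single_le_sum (fun i _ => h.nonneg i) hk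
  · rw [h.supp k hk]; exact zero_le_one

lemma entB_nonneg {P : (Fin n → ℕ) → ℝ} (h : PassiveN n N P) : 0 ≤ entB N P :=
  Finset.sum_nonneg fun k _ => negMulLog_nonneg (h.nonneg k) (h.le_one k)

lemma PassiveN.le_zero_point {P : (Fin n → ℕ) → ℝ} (h : PassiveN n N P) (k : Fin n → ℕ) :
    P k ≤ P 0 := by
  suffices ∀ s, ∀ k : Fin n → ℕ, ∑ l, k l = s → P k ≤ P 0 from this _ k rfl
  intro s
  induction s with
  | zero =>
    intro k hk
    have : k = 0 := funext fun l => (Finset.sum_eq_zero_iff.1 hk) l (Finset.mem_univ l)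
    rw [this]
  | succ s ih =>
    intro k hk
    obtain ⟨l, hl⟩ : ∃ l, k l ≠ 0 := by
      by_contra hc
      push Not at hc
      simp [hc] at hk
    have e : bump l (Function.update k l (k l - 1)) = k := by
      funext i
      rcases eq_or_ne i l with rfl | hi
      · simp [bump]; omega
      · simp [bump, hi]
    rw [← e]
    refine (h.anti _ l).trans (ih _ ?_)
    rw [Finset.sum_update_of_mem (Finset.mem_univ l)]
    rw [Finset.sum_eq_add_sum_sdiff_singleton_of_mem (Finset.mem_univ l)] at hk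
    omega

lemma entB_eq_zero {P : (Fin n → ℕ) → ℝ} (h : PassiveN n N P) (he : entB N P = 0) : P = vacN := by
  have hz : ∀ k ∈ box n N, P k = 0 ∨ P k = 1 := by
    intro k hk
    have := (Finset.sum_eq_zero_iff_of_nonneg
      (fun i _ => negMulLog_nonneg (h.nonneg i) (h.le_one i))).1 he k hk
    rw [negMulLog, mul_eq_zero, neg_eq_zero, Real.log_eq_zero] at this
    rcases this with h' | h' | h' | h'
    · exact Or.inl h'
    · exact Or.inl h'
    · exact Or.inr h'
    · linarith [h.nonneg k]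
  obtain ⟨k₁, hk₁, hp₁⟩ : ∃ k ∈ box n N, P k ≠ 0 := by
    by_contra hc
    push Not at hc
    simpa [Finset.sum_eq_zero hc] using h.total
  have h1 : P 0 = 1 := le_antisymm (h.le_one 0)
    (le_of_eq_of_le ((hz k₁ hk₁).resolve_left hp₁).symm (h.le_zero_point k₁))
  have hvac : ∀ k : Fin n → ℕ, vacN k = if k = 0 then 1 else 0 := fun k => by
    unfold vacN prodDist vac
    split_ifs with hk
    · simp [hk]
    · obtain ⟨l, hl⟩ := Function.ne_iff.1 hk
      exact Finset.prod_eq_zero (Finset.mem_univ l) (if_neg hl)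
  funext k
  rw [hvac]
  split_ifs with hk
  · rw [hk, h1]
  · by_cases hb : k ∈ box n N
    · have h0 : (0 : Fin n → ℕ) ∈ box n N :=
        mem_box.2 fun l => Nat.lt_of_le_of_lt (Nat.zero_le _) (mem_box.1 hb l)
      have h2 : ∑ i ∈ ({0, k} : Finset (Fin n → ℕ)), P i ≤ 1 := by
        rw [← h.total]
        refine Finset.sum_le_sum_of_subset_of_nonneg ?_ fun i _ _ => h.nonneg i
        intro i hi
        simp only [Finset.mem_insert, Finset.mem_singleton] at hi
        rcases hi with rfl | rfl <;> assumption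
      rw [Finset.sum_pair (Ne.symm hk), h1] at h2
      linarith [h.nonneg k]
    · exact h.supp k hb

variable {P : (Fin (n + 1) → ℕ) → ℝ}

lemma PassiveN.wtN_nonneg (h : PassiveN (n + 1) N P) (l : Fin (n + 1)) (k : Fin (n + 1) → ℕ) :
    0 ≤ wtN l P k :=
  mul_nonneg (by positivity) (sub_nonneg.2 (h.anti k l))

lemma PassiveN.nodN_nonneg (h : PassiveN (n + 1) N P) (l : Fin (n + 1)) (k : Fin (n + 1) → ℕ) :
    0 ≤ nodN l P k :=
  div_nonneg (mul_nonneg (by positivity) (h.nonneg _)) (h.wtN_nonneg l k)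

lemma sum_wtN (h : PassiveN (n + 1) N P) (l : Fin (n + 1)) :
    ∑ k ∈ box (n + 1) N, wtN l P k = 1 := by
  rw [← h.total, sum_box_split N l, sum_box_split N l]
  refine Finset.sum_congr rfl fun k _ => ?_
  simp only [wtN_insertNth]
  exact sum_wt_mass (fib_supp h l k le_rfl)

lemma sum_genN_log {M : ℕ} (h : PassiveN (n + 1) M P) (l : Fin (n + 1)) :
    ∑ k ∈ box (n + 1) M, genN l P k * Real.log (P k) = Qmode M l P := by
  rw [Qmode_split, sum_box_split M l]
  refine Finset.sum_congr rfl fun k _ => ?_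
  rw [← sum_gen_log_mass (fib_nonneg h l k) (fib_anti h l k) (fib_supp h l k le_rfl)]
  refine Finset.sum_congr rfl fun x _ => ?_
  rw [← fib_genN]
  rfl

lemma Qmode_eq_mean (h : PassiveN (n + 1) N P) (l : Fin (n + 1)) :
    Qmode N l P = ∑ k ∈ box (n + 1) N, wtN l P k * fFun (nodN l P k) :=
  Finset.sum_congr rfl fun k _ =>
    pers_eq_mul_fFun (mul_nonneg (by positivity) (h.nonneg _)) (h.wtN_nonneg l k)

lemma Qmode_nonneg (h : PassiveN (n + 1) N P) (l : Fin (n + 1)) : 0 ≤ Qmode N l P := by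
  rw [Qmode_eq_mean h]
  exact Finset.sum_nonneg fun k _ =>
    mul_nonneg (h.wtN_nonneg l k) (fFun_nonneg (h.nodN_nonneg l k))

lemma exists_root_mode (h : PassiveN (n + 1) N P) (l : Fin (n + 1)) :
    ∃ a, 0 ≤ a ∧ fFun a = Qmode N l P := by
  set X := ∑ k ∈ box (n + 1) N, nodN l P k
  have hX : 0 ≤ X := Finset.sum_nonneg fun k _ => h.nodN_nonneg l k
  have hle : Qmode N l P ≤ fFun X := by
    calc Qmode N l P = ∑ k ∈ box (n + 1) N, wtN l P k * fFun (nodN l P k) := Qmode_eq_mean h l
      _ ≤ ∑ k ∈ box (n + 1) N, wtN l P k * fFun X :=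
          Finset.sum_le_sum fun k hk => mul_le_mul_of_nonneg_left
            (strictMonoOn_fFun.monotoneOn (h.nodN_nonneg l k) hX
              (Finset.single_le_sum (fun i _ => h.nodN_nonneg l i) hk)) (h.wtN_nonneg l k)
      _ = fFun X := by rw [← Finset.sum_mul, sum_wtN h l, one_mul]
  obtain ⟨a, ha, e⟩ := intermediate_value_Icc hX
    (continuousOn_fFun.mono Set.Icc_subset_Ici_self)
    ⟨by rw [fFun_zero]; exact Qmode_nonneg h l, hle⟩
  exact ⟨a, ha.1, e⟩

/-- Subadditivity for unnormalised weights. -/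
lemma negMulLog_subadd {α β : Type*} (s : Finset α) (t : Finset β) (a : α → β → ℝ)
    (ha : ∀ x ∈ s, ∀ y ∈ t, 0 ≤ a x y) :
    (∑ x ∈ s, ∑ y ∈ t, negMulLog (a x y)) + negMulLog (∑ x ∈ s, ∑ y ∈ t, a x y)
      ≤ ∑ x ∈ s, negMulLog (∑ y ∈ t, a x y) + ∑ y ∈ t, negMulLog (∑ x ∈ s, a x y) := by
  set T := ∑ x ∈ s, ∑ y ∈ t, a x y with hTdef
  have hR : ∀ x ∈ s, 0 ≤ ∑ y ∈ t, a x y := fun x hx => Finset.sum_nonneg (ha x hx)
  have hT0 : 0 ≤ T := Finset.sum_nonneg hR
  rcases hT0.eq_or_lt with hT | hT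
  · have hz : ∀ x ∈ s, ∀ y ∈ t, a x y = 0 := fun x hx y hy =>
      (Finset.sum_eq_zero_iff_of_nonneg (ha x hx)).1
        ((Finset.sum_eq_zero_iff_of_nonneg hR).1 hT.symm x hx) y hy
    rw [← hT, negMulLog_zero, add_zero,
      Finset.sum_eq_zero fun x hx => Finset.sum_eq_zero fun y hy => by rw [hz x hx y hy, negMulLog_zero],
      Finset.sum_eq_zero fun x hx => by rw [Finset.sum_eq_zero (hz x hx), negMulLog_zero],
      Finset.sum_eq_zero fun y hy => by
        rw [Finset.sum_eq_zero fun x hx => hz x hx y hy, negMulLog_zero],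
      add_zero]
  set R := fun x => ∑ y ∈ t, a x y with hRdef
  set C := fun y => ∑ x ∈ s, a x y with hCdef
  have hterm : ∀ x ∈ s, ∀ y ∈ t, negMulLog (a x y) + a x y * Real.log (R x)
      + a x y * Real.log (C y) - a x y * Real.log T ≤ R x * C y / T - a x y := by
    intro x hx y hy
    have hR0 : 0 ≤ R x := hR x hx
    have hC0 : 0 ≤ C y := Finset.sum_nonneg fun x' hx' => ha x' hx' y hy
    rcases (ha x hx y hy).eq_or_lt with h | h
    · rw [← h]
      simpa using div_nonneg (mul_nonneg hR0 hC0) hT.le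
    · have h1 : 0 < R x := lt_of_lt_of_le h (Finset.single_le_sum (ha x hx) hy)
      have h2 : 0 < C y := lt_of_lt_of_le h (Finset.single_le_sum (fun x' hx' => ha x' hx' y hy) hx)
      have hl := Real.log_le_sub_one_of_pos (div_pos (mul_pos h1 h2) (mul_pos h hT))
      rw [Real.log_div (mul_pos h1 h2).ne' (mul_pos h hT).ne', Real.log_mul h1.ne' h2.ne',
        Real.log_mul h.ne' hT.ne'] at hl
      have e : a x y * (R x * C y / (a x y * T) - 1) = R x * C y / T - a x y := by field_simp
      rw [← e]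
      refine le_trans (le_of_eq ?_) (mul_le_mul_of_nonneg_left hl h.le)
      unfold negMulLog; ring
  have hm := Finset.sum_le_sum fun x hx => Finset.sum_le_sum fun y hy => hterm x hx y hy
  simp only [Finset.sum_add_distrib, Finset.sum_sub_distrib] at hm
  have e1 : ∑ x ∈ s, ∑ y ∈ t, a x y * Real.log (R x) = -∑ x ∈ s, negMulLog (R x) := by
    rw [← Finset.sum_neg_distrib]
    refine Finset.sum_congr rfl fun x _ => ?_
    rw [← Finset.sum_mul]; simp [negMulLog, hRdef]
  have e2 : ∑ x ∈ s, ∑ y ∈ t, a x y * Real.log (C y) = -∑ y ∈ t, negMulLog (C y) := by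
    rw [Finset.sum_comm, ← Finset.sum_neg_distrib]
    refine Finset.sum_congr rfl fun y _ => ?_
    rw [← Finset.sum_mul]; simp [negMulLog, hCdef]
  have e3 : ∑ x ∈ s, ∑ y ∈ t, a x y * Real.log T = -negMulLog T := by
    simp only [← Finset.sum_mul]; rw [← hTdef]; simp [negMulLog]
  have e4 : ∑ x ∈ s, ∑ y ∈ t, R x * C y / T = T := by
    simp only [← Finset.sum_div, ← Finset.mul_sum, ← Finset.sum_mul]
    rw [show ∑ y ∈ t, C y = T from Finset.sum_comm, show ∑ x ∈ s, R x = T from rfl]
    field_simp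
  rw [e1, e2, e3, e4, ← hTdef] at hm
  linarith

/-- Han's inequality for unnormalised weights on a box. -/
lemma han_box (N : ℕ) : ∀ (n : ℕ) (P : (Fin (n + 1) → ℕ) → ℝ), (∀ k, 0 ≤ P k) →
    ∑ l : Fin (n + 1), ∑ k ∈ box n N,
        (∑ x ∈ range N, negMulLog (fib l P k x) - negMulLog (∑ x ∈ range N, fib l P k x))
      ≤ ∑ k ∈ box (n + 1) N, negMulLog (P k) - negMulLog (∑ k ∈ box (n + 1) N, P k) := by
  intro n
  induction n with
  | zero =>
    intro P _
    have hb : box 0 N = {Fin.elim0} := by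
      ext k; simp [mem_box, Subsingleton.elim k Fin.elim0]
    simp [sum_box_split N (0 : Fin 1), hb, fib]
  | succ n ih =>
    intro P hP
    set sl : ℕ → (Fin (n + 1) → ℕ) → ℝ := fun x k => P (Fin.cons x k) with hsl
    have hsucc : ∀ j : Fin (n + 1), ∑ k ∈ box (n + 1) N,
          (∑ x ∈ range N, negMulLog (fib j.succ P k x)
            - negMulLog (∑ x ∈ range N, fib j.succ P k x))
        = ∑ y ∈ range N, ∑ k ∈ box n N, (∑ x ∈ range N, negMulLog (fib j (sl y) k x)
            - negMulLog (∑ x ∈ range N, fib j (sl y) k x)) := by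
      intro j
      rw [sum_box_split N (0 : Fin (n + 1)), Finset.sum_comm]
      simp [fib, hsl, Fin.insertNth_zero', Fin.insertNth_succ_cons]
    have h0 : ∑ k ∈ box (n + 1) N, (∑ x ∈ range N, negMulLog (fib 0 P k x)
          - negMulLog (∑ x ∈ range N, fib 0 P k x))
        = ∑ k ∈ box (n + 1 + 1) N, negMulLog (P k)
          - ∑ k ∈ box (n + 1) N, negMulLog (∑ x ∈ range N, sl x k) := by
      rw [Finset.sum_sub_distrib, sum_box_split N (0 : Fin (n + 1 + 1))]
      simp [fib, hsl, Fin.insertNth_zero']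
    have hih := Finset.sum_le_sum fun y (_ : y ∈ range N) => ih (sl y) fun k => hP _
    rw [Finset.sum_comm] at hih
    rw [Fin.sum_univ_succ, h0, Finset.sum_congr rfl fun j _ => hsucc j]
    have hsub := negMulLog_subadd (range N) (box (n + 1) N) sl fun x _ k _ => hP _
    have e : ∀ F : (Fin (n + 1 + 1) → ℕ) → ℝ, ∑ k ∈ box (n + 1 + 1) N, F k
        = ∑ x ∈ range N, ∑ k ∈ box (n + 1) N, F (Fin.cons x k) := fun F => by
      rw [sum_box_split N (0 : Fin (n + 1 + 1)), Finset.sum_comm]
      simp [Fin.insertNth_zero']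
    rw [Finset.sum_sub_distrib] at hih
    rw [e fun k => negMulLog (P k), e P]
    linarith

lemma sum_wtN_gFun_le (h : PassiveN (n + 1) N P) :
    ∑ l, ∑ k ∈ box (n + 1) N, wtN l P k * gFun (nodN l P k) ≤ entB N P := by
  calc ∑ l, ∑ k ∈ box (n + 1) N, wtN l P k * gFun (nodN l P k)
      ≤ ∑ l : Fin (n + 1), ∑ k ∈ box n N, (∑ x ∈ range N, negMulLog (fib l P k x)
          - negMulLog (∑ x ∈ range N, fib l P k x)) := by
        refine Finset.sum_le_sum fun l _ => ?_
        rw [sum_box_split N l]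
        refine Finset.sum_le_sum fun k _ => ?_
        simp only [wtN_insertNth, nodN_insertNth]
        exact sum_wt_gFun_le_mass (fib_nonneg h l k) (fib_anti h l k) fun x hx => fib_supp h l k hx
    _ ≤ _ := han_box N n P h.nonneg
    _ = entB N P := by rw [h.total, negMulLog_one, sub_zero, entB]

lemma exists_rootN (h : PassiveN (n + 1) N P) :
    ∃ a, 0 ≤ a ∧ a ≤ ginv (entB N P / (n + 1)) ∧ fFun a = QfN N P := by
  have hn1 : (0 : ℝ) < (n : ℝ) + 1 := by positivity
  rcases (entB_nonneg h).eq_or_lt with hS | hS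
  · refine ⟨0, le_rfl, ginv_nonneg (div_nonneg (entB_nonneg h) hn1.le), ?_⟩
    have hp := entB_eq_zero h hS.symm
    have hb : ∀ (l : Fin (n + 1)) (k : Fin (n + 1) → ℕ), P (bump l k) = 0 := fun l k => by
      rw [hp]
      exact Finset.prod_eq_zero (Finset.mem_univ l) (by simp [vac, bump_same])
    simp [fFun_zero, QfN, Qmode, hb, pers]
  · set X := ginv (entB N P / (n + 1))
    have hX : 0 < X := ginv_pos (div_pos hS hn1)
    have hQ : 0 ≤ QfN N P :=
      div_nonneg (Finset.sum_nonneg fun l _ => Qmode_nonneg h l) (Nat.cast_nonneg _)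
    have hle : QfN N P ≤ fFun X := by
      rw [QfN, div_le_iff₀ (by positivity)]
      push_cast
      calc ∑ l, Qmode N l P
          ≤ ∑ l : Fin (n + 1), ∑ k ∈ box (n + 1) N,
              (wtN l P k * (fFun X - slopeFG X * gFun X)
                + slopeFG X * (wtN l P k * gFun (nodN l P k))) := by
            refine Finset.sum_le_sum fun l _ => ?_
            rw [Qmode_eq_mean h l]
            refine Finset.sum_le_sum fun k _ => ?_
            have := mul_le_mul_of_nonneg_left (tangent_fg hX (h.nodN_nonneg l k)) (h.wtN_nonneg l k)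
            linarith
        _ = ((n : ℝ) + 1) * (fFun X - slopeFG X * gFun X)
              + slopeFG X * ∑ l, ∑ k ∈ box (n + 1) N, wtN l P k * gFun (nodN l P k) := by
            simp [Finset.sum_add_distrib, ← Finset.sum_mul, ← Finset.mul_sum, sum_wtN h]
            ring
        _ ≤ ((n : ℝ) + 1) * (fFun X - slopeFG X * gFun X) + slopeFG X * entB N P :=
            by linarith [mul_le_mul_of_nonneg_left (sum_wtN_gFun_le h) (slopeFG_pos hX).le]
        _ = fFun X * ((n : ℝ) + 1) := by
            rw [gFun_ginv (div_pos hS hn1).le]; field_simp; ring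
    obtain ⟨a, ha, e⟩ := intermediate_value_Icc hX.le
      (continuousOn_fFun.mono Set.Icc_subset_Ici_self) ⟨by rw [fFun_zero]; exact hQ, hle⟩
    exact ⟨a, ha.1, ha.2, e⟩

end Vale.Agent.P369
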