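import Vale.Agent.P369.MDefs
import Vale.Agent.P369.Limit

open Finset Filter Topology

noncomputable section

namespace Vale.Agent.P369

/-- An `n`-mode Fock-diagonal state with finite mean photon number whose weights are nonincreasing
in the photon number of every mode. -/
structure PassiveNInf {n : ℕ} (P : (Fin n → ℕ) → ℝ) : Prop where
  nonneg : ∀ k, 0 ≤ P k
  anti : ∀ k l, P (bump l k) ≤ P k
  total : HasSum P 1
  mean : Summable (fun k : Fin n → ℕ => (∑ l, (k l : ℝ)) * P k)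

/-- Output distribution of the `n`-mode beam splitter for diagonal inputs of unbounded support. -/
def pCNinf {n : ℕ} (η : ℝ) (P Q : (Fin n → ℕ) → ℝ) (m : Fin n → ℕ) : ℝ :=
  ∑' ij : (Fin n → ℕ) × (Fin n → ℕ), P ij.1 * Q ij.2 * bsN η ij.1 ij.2 m

variable {n : ℕ} {η : ℝ} {P Q : (Fin n → ℕ) → ℝ}

lemma bsN_nonneg_lim (η : ℝ) (i j m : Fin n → ℕ) : 0 ≤ bsN η i j m :=
  Finset.prod_nonneg fun _ _ => bsProb_nonneg _ _ _ _

lemma bsN_le_one_lim (h0 : 0 ≤ η) (h1 : η ≤ 1) (i j m : Fin n → ℕ) : bsN η i j m ≤ 1 :=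
  Finset.prod_le_one (fun _ _ => bsProb_nonneg _ _ _ _) fun _ _ => bsProb_le_one h0 h1 _ _ _

lemma bsN_eq_zero_of_lt_lim (η : ℝ) {i j m : Fin n → ℕ} {l : Fin n} (h : i l + j l < m l) :
    bsN η i j m = 0 :=
  Finset.prod_eq_zero (Finset.mem_univ l) (bsProb_of_lt η h)

lemma hasSum_bsN_lim (h0 : 0 ≤ η) (h1 : η ≤ 1) (i j : Fin n → ℕ) : HasSum (bsN η i j) 1 := by
  have h := hasSum_pi_prod (fun l (m : ℕ) => 1 * bsProb η (i l) (j l) m) (fun _ => (1 : ℝ))
    (fun l x => by simpa using bsProb_nonneg η (i l) (j l) x)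
    fun l => hasSum_fiber h0 h1 1 (i l) (j l)
  simp only [one_mul, Finset.prod_const_one] at h
  exact h

/-- The diagonal of the physical output matrix is `pCNinf`. -/
lemma outN_diag (η : ℝ) (P Q : (Fin n → ℕ) → ℝ) (k : Fin n → ℕ) :
    outN η P Q k k = pCNinf η P Q k := by
  simp only [outN, tsum_bsMat_sq, pCNinf, bsN]

lemma summable_entBoundN {c : (Fin n → ℕ) → ℝ}
    (hc : Summable fun k : Fin n → ℕ => (∑ l, (k l : ℝ)) * c k) :
    Summable fun k : Fin n → ℕ =>
      2 * (((∑ l, k l : ℕ) : ℝ) * c k) + Real.exp (-((∑ l, k l : ℕ) : ℝ) - 1) := by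
  have he : Summable fun k : Fin n → ℕ => ∏ l, Real.exp (-(k l : ℝ)) :=
    (hasSum_pi_prod (fun (_ : Fin n) (x : ℕ) => Real.exp (-(x : ℝ)))
      (fun _ => ∑' x : ℕ, Real.exp (-(x : ℝ))) (fun _ _ => (Real.exp_pos _).le)
      fun _ => Real.summable_exp_neg_nat.hasSum).summable
  refine ((hc.mul_left 2).congr fun k => ?_).add ((he.mul_left (Real.exp (-1))).congr fun k => ?_)
  · push_cast; rfl
  · rw [← Real.exp_sum, ← Real.exp_add]
    congr 1
    rw [Finset.sum_neg_distrib]; push_cast; ring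

lemma PassiveNInf.le_one (h : PassiveNInf P) (k : Fin n → ℕ) : P k ≤ 1 :=
  le_hasSum h.total k fun j _ => h.nonneg j

lemma PassiveNInf.le_zero_val (h : PassiveNInf P) :
    ∀ k : Fin n → ℕ, P k ≤ P (fun _ => 0) := by
  suffices ∀ t, ∀ k : Fin n → ℕ, ∑ l, k l = t → P k ≤ P (fun _ => 0) from fun k => this _ k rfl
  intro t
  induction t with
  | zero =>
    intro k hk
    rw [Finset.sum_eq_zero_iff] at hk
    rw [show k = fun _ => 0 from funext fun l => hk l (Finset.mem_univ l)]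
  | succ t ih =>
    intro k hk
    obtain ⟨l, hl⟩ : ∃ l, 0 < k l := by
      by_contra hcon
      push Not at hcon
      have : ∑ l, k l = 0 := Finset.sum_eq_zero fun l _ => Nat.le_zero.1 (hcon l)
      omega
    set k' := Function.update k l (k l - 1) with hk'
    have hb : bump l k' = k := by
      rw [bump, hk', Function.update_self, Function.update_idem,
        show k l - 1 + 1 = k l by omega, Function.update_eq_self]
    have hs : ∑ x, k' x = t := by
      have e1 := Finset.sum_update_of_mem (Finset.mem_univ l) k (k l - 1)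
      rw [Finset.sdiff_singleton_eq_erase] at e1
      have e2 := Finset.add_sum_erase Finset.univ k (Finset.mem_univ l)
      rw [hk', e1]
      omega
    exact (hb ▸ h.anti k' l).trans (ih k' hs)

lemma PassiveNInf.zero_pos (h : PassiveNInf P) : 0 < P (fun _ => 0) := by
  rcases (h.nonneg (fun _ => 0)).eq_or_lt with h0 | h0
  · exfalso
    have hz : ∀ k, P k = 0 := fun k =>
      le_antisymm ((h.le_zero_val k).trans_eq h0.symm) (h.nonneg k)
    have := h.total.unique (show HasSum P 0 by rw [funext hz]; exact hasSum_zero)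
    norm_num at this
  · exact h0

lemma PassiveNInf.summable_negMulLog (h : PassiveNInf P) : Summable (Real.negMulLog ∘ P) :=
  Summable.of_norm_bounded (summable_entBoundN h.mean) fun k =>
    negMulLog_dom (h.nonneg k) (h.le_one k) (by linarith [h.nonneg k])

/-- Mass in the box of side `N + 1`. -/
def massN (P : (Fin n → ℕ) → ℝ) (N : ℕ) : ℝ := ∑ k ∈ box n (N + 1), P k

/-- Normalised truncation to a box. -/
def truncN (P : (Fin n → ℕ) → ℝ) (N : ℕ) (k : Fin n → ℕ) : ℝ :=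
  if k ∈ box n (N + 1) then P k / massN P N else 0

lemma PassiveNInf.massN_pos (h : PassiveNInf P) (N : ℕ) : 0 < massN P N :=
  lt_of_lt_of_le h.zero_pos
    (Finset.single_le_sum (fun k _ => h.nonneg k) (mem_box.2 fun _ => Nat.succ_pos N))

lemma PassiveNInf.truncN_passive (h : PassiveNInf P) (N : ℕ) :
    PassiveN n (N + 1) (truncN P N) where
  nonneg k := by
    unfold truncN; split
    · exact div_nonneg (h.nonneg k) (h.massN_pos N).le
    · exact le_rfl
  anti k l := by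
    unfold truncN
    split_ifs with a b
    · exact div_le_div_of_nonneg_right (h.anti k l) (h.massN_pos N).le
    · exfalso
      refine b (mem_box.2 fun l' => ?_)
      have := mem_box.1 a l'
      rcases eq_or_ne l' l with rfl | hne
      · rw [bump_same] at this; omega
      · rwa [bump_of_ne hne] at this
    · exact div_nonneg (h.nonneg k) (h.massN_pos N).le
    · exact le_rfl
  supp k hk := if_neg hk
  total := by
    rw [Finset.sum_congr rfl fun k hk =>
      show truncN P N k = P k / massN P N from if_pos hk, ← Finset.sum_div]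
    exact div_self (h.massN_pos N).ne'

lemma tendsto_box : Tendsto (fun N : ℕ => box n (N + 1)) atTop atTop :=
  tendsto_atTop_finset_of_monotone
    (fun a b h k hk => mem_box.2 fun l => lt_of_lt_of_le (mem_box.1 hk l) (by omega))
    fun k => ⟨∑ l, k l, mem_box.2 fun l => Nat.lt_succ_of_le
      (Finset.single_le_sum (fun _ _ => Nat.zero_le _) (Finset.mem_univ l))⟩

lemma tendsto_box_prod :
    Tendsto (fun N : ℕ => box n (N + 1) ×ˢ box n (N + 1)) atTop atTop := by
  refine tendsto_atTop_finset_of_monotone (fun a b h => ?_) fun x => ?_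
  · exact Finset.product_subset_product
      (fun k hk => mem_box.2 fun l => lt_of_lt_of_le (mem_box.1 hk l) (by omega))
      (fun k hk => mem_box.2 fun l => lt_of_lt_of_le (mem_box.1 hk l) (by omega))
  · refine ⟨∑ l, (x.1 l + x.2 l), Finset.mem_product.2 ⟨mem_box.2 fun l => ?_,
      mem_box.2 fun l => ?_⟩⟩ <;>
    · have := Finset.single_le_sum (f := fun l => x.1 l + x.2 l) (fun _ _ => Nat.zero_le _)
        (Finset.mem_univ l)
      omega

lemma PassiveNInf.tendsto_massN (h : PassiveNInf P) : Tendsto (massN P) atTop (𝓝 1) :=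
  h.total.comp tendsto_box

lemma PassiveNInf.tendsto_truncN (h : PassiveNInf P) (k : Fin n → ℕ) :
    Tendsto (fun N => truncN P N k) atTop (𝓝 (P k)) := by
  have : Tendsto (fun N => P k / massN P N) atTop (𝓝 (P k / 1)) :=
    tendsto_const_nhds.div h.tendsto_massN one_ne_zero
  rw [div_one] at this
  refine this.congr' ?_
  filter_upwards [eventually_ge_atTop (∑ l, k l)] with N hN
  refine (if_pos (mem_box.2 fun l => ?_)).symm
  have := Finset.single_le_sum (f := k) (fun _ _ => Nat.zero_le _) (Finset.mem_univ l)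
  omega

lemma PassiveN.le_one' {N : ℕ} (h : PassiveN n N P) (k : Fin n → ℕ) : P k ≤ 1 := by
  by_cases hk : k ∈ box n N
  · rw [← h.total]; exact Finset.single_le_sum (fun j _ => h.nonneg j) hk
  · rw [h.supp k hk]; exact zero_le_one

lemma entB_eq_tsum {M : ℕ} (hs : ∀ k, k ∉ box n M → P k = 0) :
    entB M P = ∑' k, Real.negMulLog (P k) :=
  (tsum_eq_sum fun k hk => by rw [hs k hk, Real.negMulLog_zero]).symm

lemma PassiveNInf.tendsto_entB (h : PassiveNInf P) :
    Tendsto (fun N => entB (N + 1) (truncN P N)) atTop (𝓝 (entN P)) := by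
  simp_rw [fun N => entB_eq_tsum (h.truncN_passive N).supp]
  refine tendsto_tsum_of_dominated_convergence (summable_entBoundN h.mean)
    (fun k => (Real.continuous_negMulLog.tendsto _).comp (h.tendsto_truncN k)) ?_
  filter_upwards [h.tendsto_massN.eventually_const_le (show (1 : ℝ) / 2 < 1 by norm_num)]
    with N hN k
  refine negMulLog_dom ((h.truncN_passive N).nonneg k) ((h.truncN_passive N).le_one' k) ?_
  unfold truncN
  split
  · rw [div_le_iff₀ (h.massN_pos N)]
    nlinarith [mul_le_mul_of_nonneg_left hN (h.nonneg k)]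
  · linarith [h.nonneg k]

section output

lemma summand_nonneg (hP : PassiveNInf P) (hQ : PassiveNInf Q)
    (ij : (Fin n → ℕ) × (Fin n → ℕ)) (m : Fin n → ℕ) :
    0 ≤ P ij.1 * Q ij.2 * bsN η ij.1 ij.2 m :=
  mul_nonneg (mul_nonneg (hP.nonneg _) (hQ.nonneg _)) (bsN_nonneg_lim _ _ _ _)

lemma summable_inputsN (hP : PassiveNInf P) (hQ : PassiveNInf Q) :
    Summable fun ij : (Fin n → ℕ) × (Fin n → ℕ) => P ij.1 * Q ij.2 :=
  hP.total.summable.mul_of_nonneg hQ.total.summable hP.nonneg hQ.nonneg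

lemma summable_pCNinf (hP : PassiveNInf P) (hQ : PassiveNInf Q) (h0 : 0 ≤ η) (h1 : η ≤ 1)
    (m : Fin n → ℕ) :
    Summable fun ij : (Fin n → ℕ) × (Fin n → ℕ) => P ij.1 * Q ij.2 * bsN η ij.1 ij.2 m :=
  (summable_inputsN hP hQ).of_nonneg_of_le (fun ij => summand_nonneg hP hQ ij m)
    fun ij => mul_le_of_le_one_right (mul_nonneg (hP.nonneg _) (hQ.nonneg _))
      (bsN_le_one_lim h0 h1 _ _ _)

lemma pCNinf_nonneg (hP : PassiveNInf P) (hQ : PassiveNInf Q) (m : Fin n → ℕ) :
    0 ≤ pCNinf η P Q m :=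
  tsum_nonneg fun ij => summand_nonneg hP hQ ij m

lemma hasSum_pCNinf (hP : PassiveNInf P) (hQ : PassiveNInf Q) (h0 : 0 ≤ η) (h1 : η ≤ 1) :
    HasSum (pCNinf η P Q) 1 := by
  set G : ((Fin n → ℕ) × (Fin n → ℕ)) × (Fin n → ℕ) → ℝ :=
    fun x => P x.1.1 * Q x.1.2 * bsN η x.1.1 x.1.2 x.2
  have hf : ∀ ij : (Fin n → ℕ) × (Fin n → ℕ), HasSum (fun m => G (ij, m)) (P ij.1 * Q ij.2) :=
    fun ij => by simpa [G] using (hasSum_bsN_lim h0 h1 ij.1 ij.2).mul_left (P ij.1 * Q ij.2)
  have hG : Summable G := by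
    refine (summable_prod_of_nonneg (f := G) fun x => summand_nonneg hP hQ x.1 x.2).2
      ⟨fun ij => (hf ij).summable, ?_⟩
    exact (summable_inputsN hP hQ).congr fun ij => (hf ij).tsum_eq.symm
  have ht : ∑' x, G x = 1 := by
    rw [hG.tsum_prod, tsum_congr fun ij => (hf ij).tsum_eq,
      ← hP.total.summable.tsum_mul_tsum hQ.total.summable (summable_inputsN hP hQ),
      hP.total.tsum_eq, hQ.total.tsum_eq, one_mul]
  have hs : HasSum (G ∘ Equiv.prodComm (Fin n → ℕ) ((Fin n → ℕ) × (Fin n → ℕ))) 1 :=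
    (Equiv.hasSum_iff _).2 (ht ▸ hG.hasSum)
  exact hs.prod_fiberwise fun m => (summable_pCNinf hP hQ h0 h1 m).hasSum

lemma summable_mean_pCNinf (hP : PassiveNInf P) (hQ : PassiveNInf Q) (h0 : 0 ≤ η) (h1 : η ≤ 1) :
    Summable fun m : Fin n → ℕ => (∑ l, (m l : ℝ)) * pCNinf η P Q m := by
  set H : ((Fin n → ℕ) × (Fin n → ℕ)) × (Fin n → ℕ) → ℝ :=
    fun x => (∑ l, (x.2 l : ℝ)) * (P x.1.1 * Q x.1.2 * bsN η x.1.1 x.1.2 x.2)
  have hw : ∀ k : Fin n → ℕ, 0 ≤ ∑ l, (k l : ℝ) := fun k =>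
    Finset.sum_nonneg fun l _ => Nat.cast_nonneg _
  have hn : ∀ x, 0 ≤ H x := fun x => mul_nonneg (hw _) (summand_nonneg hP hQ x.1 x.2)
  have hle : ∀ (ij : (Fin n → ℕ) × (Fin n → ℕ)) m, H (ij, m)
      ≤ (∑ l, (ij.1 l : ℝ) + ∑ l, (ij.2 l : ℝ)) * (P ij.1 * Q ij.2 * bsN η ij.1 ij.2 m) := by
    intro ij m
    by_cases h : ∀ l, m l ≤ ij.1 l + ij.2 l
    · refine mul_le_mul_of_nonneg_right ?_ (summand_nonneg hP hQ ij m)
      rw [← Finset.sum_add_distrib]
      exact Finset.sum_le_sum fun l _ => by exact_mod_cast h l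
    · push Not at h
      obtain ⟨l, hl⟩ := h
      simp [H, bsN_eq_zero_of_lt_lim η hl]
  have hf : ∀ ij : (Fin n → ℕ) × (Fin n → ℕ), HasSum
      (fun m => (∑ l, (ij.1 l : ℝ) + ∑ l, (ij.2 l : ℝ)) * (P ij.1 * Q ij.2 * bsN η ij.1 ij.2 m))
      ((∑ l, (ij.1 l : ℝ) + ∑ l, (ij.2 l : ℝ)) * (P ij.1 * Q ij.2)) := fun ij => by
    simpa using ((hasSum_bsN_lim h0 h1 ij.1 ij.2).mul_left (P ij.1 * Q ij.2)).mul_left
      (∑ l, (ij.1 l : ℝ) + ∑ l, (ij.2 l : ℝ))
  have hH : Summable H := by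
    refine (summable_prod_of_nonneg (f := H) hn).2
      ⟨fun ij => (hf ij).summable.of_nonneg_of_le (fun m => hn _) (hle ij), ?_⟩
    refine Summable.of_nonneg_of_le (fun ij => tsum_nonneg fun m => hn _) (fun ij =>
      hasSum_le (hle ij) ((hf ij).summable.of_nonneg_of_le (fun m => hn _) (hle ij)).hasSum (hf ij))
      ?_
    have a := hP.mean.mul_of_nonneg hQ.total.summable
      (fun i => mul_nonneg (hw i) (hP.nonneg i)) hQ.nonneg
    have b := hP.total.summable.mul_of_nonneg hQ.mean hP.nonneg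
      (fun j => mul_nonneg (hw j) (hQ.nonneg j))
    exact (a.add b).congr fun ij => by ring
  have hs : Summable (H ∘ Equiv.prodComm (Fin n → ℕ) ((Fin n → ℕ) × (Fin n → ℕ))) :=
    (Equiv.summable_iff _).2 hH
  refine ((summable_prod_of_nonneg (f := H ∘ Equiv.prodComm (Fin n → ℕ) _)
    (fun x => hn _)).1 hs).2.congr fun m => ?_
  simp [H, pCNinf, tsum_mul_left]

lemma pCN_truncN_eq (hP : PassiveNInf P) (hQ : PassiveNInf Q) (η : ℝ) (N : ℕ) (m : Fin n → ℕ) :
    pCN (N + 1) η (truncN P N) (truncN Q N) m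
      = (∑ ij ∈ box n (N + 1) ×ˢ box n (N + 1), P ij.1 * Q ij.2 * bsN η ij.1 ij.2 m)
        / (massN P N * massN Q N) := by
  rw [Finset.sum_product, Finset.sum_div]
  refine Finset.sum_congr rfl fun i hi => ?_
  rw [Finset.sum_div]
  refine Finset.sum_congr rfl fun j hj => ?_
  have := (hP.massN_pos N).ne'
  have := (hQ.massN_pos N).ne'
  simp only [truncN, if_pos hi, if_pos hj]
  field_simp

lemma pCN_nonneg_lim {N : ℕ} (hP : PassiveN n N P) (hQ : PassiveN n N Q) (η : ℝ) (m : Fin n → ℕ) :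
    0 ≤ pCN N η P Q m :=
  Finset.sum_nonneg fun i _ => Finset.sum_nonneg fun j _ =>
    mul_nonneg (mul_nonneg (hP.nonneg i) (hQ.nonneg j)) (bsN_nonneg_lim _ _ _ _)

lemma pCN_le_one_lim {N : ℕ} (hP : PassiveN n N P) (hQ : PassiveN n N Q) (h0 : 0 ≤ η) (h1 : η ≤ 1)
    (m : Fin n → ℕ) : pCN N η P Q m ≤ 1 :=
  calc pCN N η P Q m ≤ ∑ i ∈ box n N, ∑ j ∈ box n N, P i * Q j :=
        Finset.sum_le_sum fun i _ => Finset.sum_le_sum fun j _ =>
          mul_le_of_le_one_right (mul_nonneg (hP.nonneg i) (hQ.nonneg j)) (bsN_le_one_lim h0 h1 _ _ _)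
    _ = 1 := by rw [← Finset.sum_mul_sum, hP.total, hQ.total, one_mul]

lemma pCN_supp_lim (N : ℕ) (η : ℝ) (P Q : (Fin n → ℕ) → ℝ) {m : Fin n → ℕ}
    (hm : m ∉ box n (2 * N)) : pCN N η P Q m = 0 := by
  rw [mem_box] at hm
  push Not at hm
  obtain ⟨l, hl⟩ := hm
  refine Finset.sum_eq_zero fun i hi => Finset.sum_eq_zero fun j hj => ?_
  have := mem_box.1 hi l
  have := mem_box.1 hj l
  rw [bsN_eq_zero_of_lt_lim η (l := l) (by omega), mul_zero]

lemma tendsto_entB_out (hP : PassiveNInf P) (hQ : PassiveNInf Q) (h0 : 0 ≤ η) (h1 : η ≤ 1) :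
    Tendsto (fun N => entB (2 * (N + 1)) (pCN (N + 1) η (truncN P N) (truncN Q N))) atTop
      (𝓝 (entN (pCNinf η P Q))) := by
  simp_rw [fun N => entB_eq_tsum (P := pCN (N + 1) η (truncN P N) (truncN Q N))
    fun m hm => pCN_supp_lim _ _ _ _ hm]
  have hZ : Tendsto (fun N => massN P N * massN Q N) atTop (𝓝 1) := by
    simpa using hP.tendsto_massN.mul hQ.tendsto_massN
  refine tendsto_tsum_of_dominated_convergence
    (summable_entBoundN (summable_mean_pCNinf hP hQ h0 h1))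
    (fun m => (Real.continuous_negMulLog.tendsto _).comp ?_) ?_
  · simp_rw [pCN_truncN_eq hP hQ]
    have h := ((summable_pCNinf hP hQ h0 h1 m).hasSum.comp tendsto_box_prod).div hZ one_ne_zero
    rw [div_one] at h
    exact h
  · filter_upwards [hZ.eventually_const_le (show (1 : ℝ) / 2 < 1 by norm_num)] with N hz m
    refine negMulLog_dom (pCN_nonneg_lim (hP.truncN_passive N) (hQ.truncN_passive N) η m)
      (pCN_le_one_lim (hP.truncN_passive N) (hQ.truncN_passive N) h0 h1 m) ?_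
    rw [pCN_truncN_eq hP hQ, div_le_iff₀ (mul_pos (hP.massN_pos N) (hQ.massN_pos N))]
    have hsum : (∑ ij ∈ box n (N + 1) ×ˢ box n (N + 1), P ij.1 * Q ij.2 * bsN η ij.1 ij.2 m)
        ≤ pCNinf η P Q m :=
      (summable_pCNinf hP hQ h0 h1 m).sum_le_tsum _ fun ij _ => summand_nonneg hP hQ ij m
    have : pCNinf η P Q m * (1 / 2) ≤ pCNinf η P Q m * (massN P N * massN Q N) :=
      mul_le_mul_of_nonneg_left hz (pCNinf_nonneg hP hQ m)
    linarith

end output

lemma PassiveNInf.entN_nonneg (h : PassiveNInf P) : 0 ≤ entN P :=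
  tsum_nonneg fun k => Real.negMulLog_nonneg (h.nonneg k) (h.le_one k)

lemma pCNinf_le_one (hP : PassiveNInf P) (hQ : PassiveNInf Q) (h0 : 0 ≤ η) (h1 : η ≤ 1)
    (m : Fin n → ℕ) : pCNinf η P Q m ≤ 1 :=
  le_hasSum (hasSum_pCNinf hP hQ h0 h1) m fun j _ => pCNinf_nonneg hP hQ j

lemma summable_negMulLog_pCNinf (hP : PassiveNInf P) (hQ : PassiveNInf Q) (h0 : 0 ≤ η)
    (h1 : η ≤ 1) : Summable fun m => Real.negMulLog (pCNinf η P Q m) :=
  Summable.of_norm_bounded (summable_entBoundN (summable_mean_pCNinf hP hQ h0 h1)) fun m =>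
    negMulLog_dom (pCNinf_nonneg hP hQ m) (pCNinf_le_one hP hQ h0 h1 m)
      (by linarith [pCNinf_nonneg (η := η) hP hQ m])

lemma entN_pCNinf_nonneg (hP : PassiveNInf P) (hQ : PassiveNInf Q) (h0 : 0 ≤ η) (h1 : η ≤ 1) :
    0 ≤ entN (pCNinf η P Q) :=
  tsum_nonneg fun m =>
    Real.negMulLog_nonneg (pCNinf_nonneg hP hQ m) (pCNinf_le_one hP hQ h0 h1 m)

lemma PassiveN.entB_nonneg' {N : ℕ} (h : PassiveN n N P) : 0 ≤ entB N P :=
  Finset.sum_nonneg fun k _ => Real.negMulLog_nonneg (h.nonneg k) (h.le_one' k)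

lemma tendsto_ginv_entB (h : PassiveNInf P) :
    Tendsto (fun N => ginv (entB (N + 1) (truncN P N) / n)) atTop (𝓝 (ginv (entN P / n))) :=
  (continuousOn_ginv _ (div_nonneg h.entN_nonneg (Nat.cast_nonneg n))).tendsto.comp <|
    tendsto_nhdsWithin_iff.2 ⟨h.tendsto_entB.div_const _, Eventually.of_forall fun N =>
      div_nonneg (h.truncN_passive N).entB_nonneg' (Nat.cast_nonneg n)⟩

/-- Passage from finitely supported multimode passive states to finite mean photon number. -/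
theorem epni_passiveN_inf_of (h0 : 0 ≤ η) (h1 : η ≤ 1)
    (hfin : ∀ (N : ℕ) (A B : (Fin n → ℕ) → ℝ), PassiveN n N A → PassiveN n N B →
      gFun (η * ginv (entB N A / n) + (1 - η) * ginv (entB N B / n))
        ≤ entB (2 * N) (pCN N η A B) / n)
    (hP : PassiveNInf P) (hQ : PassiveNInf Q) :
    gFun (η * ginv (entN P / n) + (1 - η) * ginv (entN Q / n))
      ≤ entN (pCNinf η P Q) / n := by
  have hd : ∀ {a : ℝ}, 0 ≤ a → 0 ≤ a / (n : ℝ) := fun ha => div_nonneg ha (Nat.cast_nonneg n)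
  have hnn : ∀ {a b : ℝ}, 0 ≤ a → 0 ≤ b → 0 ≤ η * ginv (a / n) + (1 - η) * ginv (b / n) :=
    fun ha hb => add_nonneg (mul_nonneg h0 (ginv_nonneg (hd ha)))
      (mul_nonneg (sub_nonneg.2 h1) (ginv_nonneg (hd hb)))
  have harg : Tendsto (fun N => η * ginv (entB (N + 1) (truncN P N) / n)
      + (1 - η) * ginv (entB (N + 1) (truncN Q N) / n)) atTop
      (𝓝 (η * ginv (entN P / n) + (1 - η) * ginv (entN Q / n))) :=
    (tendsto_const_nhds.mul (tendsto_ginv_entB hP)).add
      (tendsto_const_nhds.mul (tendsto_ginv_entB hQ))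
  have hL : Tendsto (fun N => gFun (η * ginv (entB (N + 1) (truncN P N) / n)
      + (1 - η) * ginv (entB (N + 1) (truncN Q N) / n))) atTop
      (𝓝 (gFun (η * ginv (entN P / n) + (1 - η) * ginv (entN Q / n)))) :=
    (continuousOn_gFun _ (hnn hP.entN_nonneg hQ.entN_nonneg)).tendsto.comp <|
      tendsto_nhdsWithin_iff.2 ⟨harg, Eventually.of_forall fun N =>
        hnn (hP.truncN_passive N).entB_nonneg' (hQ.truncN_passive N).entB_nonneg'⟩
  exact le_of_tendsto_of_tendsto' hL ((tendsto_entB_out hP hQ h0 h1).div_const _) fun N =>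
    hfin (N + 1) _ _ (hP.truncN_passive N) (hQ.truncN_passive N)

/-- The same limit in terms of entropy photon numbers. -/
theorem epn_passiveN_inf_of (h0 : 0 ≤ η) (h1 : η ≤ 1)
    (hfin : ∀ (N : ℕ) (A B : (Fin n → ℕ) → ℝ), PassiveN n N A → PassiveN n N B →
      gFun (η * ginv (entB N A / n) + (1 - η) * ginv (entB N B / n))
        ≤ entB (2 * N) (pCN N η A B) / n)
    (hP : PassiveNInf P) (hQ : PassiveNInf Q) :
    η * ginv (entN P / n) + (1 - η) * ginv (entN Q / n) ≤ ginv (entN (pCNinf η P Q) / n) := by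
  have h := epni_passiveN_inf_of h0 h1 hfin hP hQ
  have hC : 0 ≤ entN (pCNinf η P Q) / n :=
    div_nonneg (entN_pCNinf_nonneg hP hQ h0 h1) (Nat.cast_nonneg n)
  by_contra hcon
  push Not at hcon
  exact absurd h (not_le.2 ((ginv_lt_iff hC
    (add_nonneg (mul_nonneg h0 (ginv_nonneg (div_nonneg hP.entN_nonneg (Nat.cast_nonneg n))))
      (mul_nonneg (sub_nonneg.2 h1)
        (ginv_nonneg (div_nonneg hQ.entN_nonneg (Nat.cast_nonneg n)))))).1 hcon))

/-- Entropy photon-number inequality in all modes for passive inputs with finite mean photon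
number, from the finitely supported case. -/
theorem epn_passiveN_outN_of {n : ℕ} {η : ℝ} {P Q : (Fin (n + 1) → ℕ) → ℝ} (h0 : 0 ≤ η)
    (h1 : η ≤ 1)
    (hfin : ∀ (N : ℕ) (A B : (Fin (n + 1) → ℕ) → ℝ),
      PassiveN (n + 1) N A → PassiveN (n + 1) N B →
      ((n : ℝ) + 1) * gFun (η * ginv (entB N A / ((n : ℝ) + 1))
          + (1 - η) * ginv (entB N B / ((n : ℝ) + 1)))
        ≤ entB (2 * N) (pCN N η A B))
    (hP : PassiveNInf P) (hQ : PassiveNInf Q) :
    η * ginv (entN P / ((n : ℝ) + 1)) + (1 - η) * ginv (entN Q / ((n : ℝ) + 1))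
      ≤ ginv (entN (fun k => outN η P Q k k) / ((n : ℝ) + 1)) := by
  have e : (fun k => outN η P Q k k) = pCNinf η P Q := funext (outN_diag η P Q)
  have h := epn_passiveN_inf_of h0 h1 (fun N A B hA hB => by
    push_cast
    rw [le_div_iff₀ (by positivity), mul_comm]
    exact hfin N A B hA hB) hP hQ
  push_cast at h
  rw [e]
  exact h

end Vale.Agent.P369
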