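import Vale.Agent.P369.Thin
import Vale.Agent.P369.Bound

open Finset Filter

noncomputable section

namespace Vale.Agent.P369

variable {N : ℕ} {η s : ℝ} {p q P Q : ℕ → ℝ}

lemma ginv_zero : ginv 0 = 0 := by
  have := ginv_gFun (le_refl (0 : ℝ))
  rwa [gFun_zero] at this

lemma thin_passive (hp : Passive N p) (h0 : 0 ≤ s) (h1 : s ≤ 1) : Passive N (thin N s p) := by
  rcases h0.eq_or_lt with rfl | h0
  · rw [thin_zero hp]; exact vac_passive hp.pos_N
  rcases h1.eq_or_lt with rfl | h1
  · rw [thin_one hp]; exact hp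
  have h := out_passive h0 h1 hp (vac_passive hp.pos_N)
  rw [← thin_eq_pC h0.le h1.le hp.pos_N] at h
  exact ⟨h.nonneg, h.anti, fun k hk => thin_support N s p hk, thin_total hp s⟩

lemma thin_zero_of_eq_zero (hp : Passive N p) (h0 : 0 < s) (h1 : s ≤ 1) {m : ℕ}
    (h : thin N s p m = 0) (y : ℝ) : thin N y p m = 0 := by
  have hP := thin_passive hp h0.le h1
  refine Finset.sum_eq_zero fun k hk => ?_
  rcases lt_or_ge k m with hkm | hkm
  · rw [Nat.choose_eq_zero_of_lt hkm]; simp
  have h' : thin N s p k = 0 := hP.eq_zero_of_le h hkm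
  have := (Finset.sum_eq_zero_iff_of_nonneg fun i _ => mul_nonneg (hp.nonneg i)
    (mul_nonneg (mul_nonneg (Nat.cast_nonneg _) (pow_nonneg h0.le _))
      (pow_nonneg (sub_nonneg.2 h1) _))).1 h' k hk
  simp [h0.ne'] at this
  simp [this]

lemma pC_zero_support (h0 : 0 < η) (h1 : η < 1) (hP : Passive N P) (hQ : Passive N Q) {m : ℕ}
    (hC : pC N η P Q m = 0) : ∀ i ∈ range N, ∀ j ∈ range N, m ≤ i + j → P i * Q j = 0 := by
  intro i hi j hj hm
  have h := (out_passive h0 h1 hP hQ).eq_zero_of_le hC hm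
  have hn : ∀ a b, 0 ≤ P a * Q b * bsProb η a b (i + j) := fun a b =>
    mul_nonneg (mul_nonneg (hP.nonneg a) (hQ.nonneg b)) (bsProb_nonneg _ _ _ _)
  have h2 := (Finset.sum_eq_zero_iff_of_nonneg fun a _ =>
    Finset.sum_nonneg fun b _ => hn a b).1 h i hi
  have h3 := (Finset.sum_eq_zero_iff_of_nonneg fun b _ => hn i b).1 h2 j hj
  refine (mul_eq_zero.1 h3).resolve_right (ne_of_gt ?_)
  rw [bsProb_top h0.le h1.le]
  have := sub_pos.2 h1
  positivity

lemma pC_eq_zero_of (y : ℝ) (P Q : ℕ → ℝ) {m : ℕ}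
    (h : ∀ i ∈ range N, ∀ j ∈ range N, m ≤ i + j → P i * Q j = 0) : pC N y P Q m = 0 := by
  refine Finset.sum_eq_zero fun i hi => Finset.sum_eq_zero fun j hj => ?_
  rcases lt_or_ge (i + j) m with hm | hm
  · rw [bsProb_of_lt y hm, mul_zero]
  · rw [h i hi j hj hm, zero_mul]

/-- Stationarity in the transmissivity. -/
lemma eta_station (h0 : 0 < η) (h1 : η < 1) (hP : Passive N P) (hQ : Passive N Q) (A B : ℝ)
    (ht : 0 < η * A + (1 - η) * B)
    (hmin : ∀ y ∈ Set.Icc (0 : ℝ) 1, ent (2 * N) (pC N η P Q) - gFun (η * A + (1 - η) * B)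
      ≤ ent (2 * N) (pC N y P Q) - gFun (y * A + (1 - y) * B)) :
    -∑ m ∈ range (2 * N), pair N P Q (GD η m) * Real.log (pC N η P Q m)
      = phi (η * A + (1 - η) * B) * (A - B) := by
  have hnb : Set.Ioo (0 : ℝ) 1 ∈ nhds η := Ioo_mem_nhds h0 h1
  have hS := hasDerivAt_ent (C := fun y => pC N y P Q) (x := η) (M := 2 * N)
    (fun m _ => pC_hasDerivAt h0 h1 N P Q m)
    (fun m _ hm => Eventually.of_forall fun y =>
      pC_eq_zero_of y P Q (pC_zero_support h0 h1 hP hQ hm))
    (eventually_of_mem hnb fun y hy => (out_passive hy.1 hy.2 hP hQ).total)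
  have hlin : HasDerivAt (fun y => y * A + (1 - y) * B) (A - B) η :=
    (((hasDerivAt_id η).mul_const A).add (((hasDerivAt_id η).const_sub 1).mul_const B)).congr_deriv
      (by ring)
  have hg := (hasDerivAt_gFun ht).comp η hlin
  have hloc : IsLocalMin (fun y => ent (2 * N) (pC N y P Q) - gFun (y * A + (1 - y) * B)) η :=
    eventually_of_mem hnb fun y hy => hmin y (Set.Ioo_subset_Icc_self hy)
  have := hloc.hasDerivAt_eq_zero (hS.sub hg)
  linarith

/-- First-order condition in the loss parameter of the first input. -/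
lemma left_step {ε α : ℝ} (hε : 0 < ε) (h0 : 0 < η) (h1 : η < 1) (hp : Passive N p)
    (hQ : Passive N Q) (hα0 : 0 < α) (hα1 : α ≤ 1) {B : ℝ} (hB : 0 ≤ B)
    (hA : 0 < ginv (ent N (thin N α p)))
    (hη : ∀ y ∈ Set.Icc (0 : ℝ) 1,
      ent (2 * N) (pC N η (thin N α p) Q)
          - gFun (η * ginv (ent N (thin N α p)) + (1 - η) * B)
        ≤ ent (2 * N) (pC N y (thin N α p) Q)
          - gFun (y * ginv (ent N (thin N α p)) + (1 - y) * B))
    (hmin : ∀ y ∈ Set.Icc 0 α,
      ent (2 * N) (pC N η (thin N α p) Q)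
          - gFun (η * ginv (ent N (thin N α p)) + (1 - η) * B) + ε * α
        ≤ ent (2 * N) (pC N η (thin N y p) Q)
          - gFun (η * ginv (ent N (thin N y p)) + (1 - η) * B) + ε * y) :
    Qf (2 * N) (pC N η (thin N α p) Q)
      < phi (η * ginv (ent N (thin N α p)) + (1 - η) * B)
        * ((η * ginv (ent N (thin N α p)) + (1 - η) * B)
          - (ginv (ent N (thin N α p))
            - Qf N (thin N α p) / phi (ginv (ent N (thin N α p))))) := by
  set P := thin N α p with hPdef
  have hP : Passive N P := thin_passive hp hα0.le hα1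
  have hC := out_passive h0 h1 hP hQ
  set A := ginv (ent N P) with hAdef
  set t := η * A + (1 - η) * B with htdef
  have ht : 0 < t := by
    have := mul_pos h0 hA
    have := mul_nonneg (sub_nonneg.2 h1.le) hB
    linarith
  have hentP : 0 < ent N P := by
    rcases (ent_nonneg hP).eq_or_lt with h | h
    · rw [hAdef, ← h, ginv_zero] at hA; exact absurd hA (lt_irrefl _)
    · exact h
  have hst := eta_station h0 h1 hP hQ A B ht hη
  set SA := -∑ m ∈ range N, thinD N α p m * Real.log (P m) with hSA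
  set SC := -∑ m ∈ range (2 * N), pC N η (thinD N α p) Q m * Real.log (pC N η P Q m) with hSC
  have hdA : HasDerivAt (fun y => ent N (thin N y p)) SA α :=
    hasDerivAt_ent (C := fun y => thin N y p) (fun m _ => hasDerivAt_thin N α p m)
      (fun m _ hm => Eventually.of_forall (thin_zero_of_eq_zero hp hα0 hα1 hm))
      (Eventually.of_forall fun y => thin_total hp y)
  have hdC : HasDerivAt (fun y => ent (2 * N) (pC N η (thin N y p) Q)) SC α := by
    refine hasDerivAt_ent (C := fun y => pC N η (thin N y p) Q) (fun m _ => ?_) (fun m _ hm => ?_)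
      (Eventually.of_forall fun y => ?_)
    · exact HasDerivAt.fun_sum fun i _ => HasDerivAt.fun_sum fun j _ =>
        ((hasDerivAt_thin N α p i).mul_const (Q j)).mul_const (bsProb η i j m)
    · refine Eventually.of_forall fun y => pC_eq_zero_of η _ _ fun i hi j hj hij => ?_
      rcases mul_eq_zero.1 (pC_zero_support h0 h1 hP hQ hm i hi j hj hij) with h | h
      · rw [thin_zero_of_eq_zero hp hα0 hα1 h y, zero_mul]
      · rw [h, mul_zero]
    · rw [sum_pC h0.le h1.le, thin_total hp, hQ.total, one_mul]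
  have hg : HasDerivAt (fun y => gFun (η * ginv (ent N (thin N y p)) + (1 - η) * B))
      (phi t * (η * (1 / phi A * SA))) α := by
    have a := (((hasDerivAt_ginv hentP).comp α hdA).const_mul η).add_const ((1 - η) * B)
    exact HasDerivAt.comp α (h₂ := gFun)
      (h := fun y => η * ginv (ent N (thin N y p)) + (1 - η) * B) (hasDerivAt_gFun ht) a
  have hle : SC - phi t * (η * (1 / phi A * SA)) + ε * 1 ≤ 0 :=
    deriv_nonpos_of_min_left hα0 ((hdC.sub hg).add ((hasDerivAt_id α).const_mul ε)) hmin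
  have eA : α * SA = Qf N P := by
    rw [← sum_gen_log hP le_rfl, hSA, mul_neg, Finset.mul_sum, ← Finset.sum_neg_distrib]
    refine Finset.sum_congr rfl fun m _ => ?_
    rw [← mul_assoc, mul_thinD, ← hPdef]; ring
  have eC : α * SC = η * Qf (2 * N) (pC N η P Q) + η * (1 - η) * (phi t * (A - B)) := by
    rw [← sum_gen_log hC le_rfl, ← hst, hSC, mul_neg, Finset.mul_sum, Finset.mul_sum,
      ← Finset.sum_neg_distrib, ← Finset.sum_neg_distrib, Finset.mul_sum, ← Finset.sum_add_distrib]
    refine Finset.sum_congr rfl fun m _ => ?_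
    rw [← mul_assoc, ← pC_const_left,
      show (fun i => α * thinD N α p i) = fun i => -gen P i from
        funext fun i => by rw [mul_thinD, ← hPdef],
      pC_neg_left, pair_gen_left h0.le h1.le hP.supp]
    ring
  have hphi := phi_pos hA
  have key : η * (Qf (2 * N) (pC N η P Q) - phi t * (t - (A - Qf N P / phi A))) ≤ -(ε * α) := by
    have h2 := mul_le_mul_of_nonneg_left hle hα0.le
    have e : α * (SC - phi t * (η * (1 / phi A * SA)) + ε * 1)
        = α * SC - phi t * (η * (1 / phi A)) * (α * SA) + ε * α := by ring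
    rw [mul_zero, e, eA, eC] at h2
    have e2 : η * (Qf (2 * N) (pC N η P Q) - phi t * (t - (A - Qf N P / phi A)))
        = η * Qf (2 * N) (pC N η P Q) + η * (1 - η) * (phi t * (A - B))
          - phi t * (η * (1 / phi A)) * Qf N P := by
      rw [htdef]; ring
    linarith
  by_contra hcon
  push Not at hcon
  nlinarith [mul_nonneg h0.le (sub_nonneg.2 hcon), mul_pos hε hα0]

/-- The penalised functional. -/
def Psi (N : ℕ) (p q : ℕ → ℝ) (ε : ℝ) (x : ℝ × ℝ × ℝ) : ℝ :=
  ent (2 * N) (pC N x.1 (thin N x.2.1 p) (thin N x.2.2 q))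
    - gFun (x.1 * ginv (ent N (thin N x.2.1 p)) + (1 - x.1) * ginv (ent N (thin N x.2.2 q)))
    + ε * (x.2.1 + x.2.2)

lemma continuousOn_Psi (hp : Passive N p) (hq : Passive N q) (ε : ℝ) :
    ContinuousOn (Psi N p q ε)
      (Set.Icc (0 : ℝ) 1 ×ˢ Set.Icc (0 : ℝ) 1 ×ˢ Set.Icc (0 : ℝ) 1) := by
  have hent : ∀ r : ℕ → ℝ, Continuous fun s : ℝ => ent N (thin N s r) := fun r =>
    continuous_finsetSum _ fun m _ => Real.continuous_negMulLog.comp (continuous_thin N r m)
  have hA : ContinuousOn (fun x : ℝ × ℝ × ℝ => ginv (ent N (thin N x.2.1 p)))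
      (Set.Icc (0 : ℝ) 1 ×ˢ Set.Icc (0 : ℝ) 1 ×ˢ Set.Icc (0 : ℝ) 1) :=
    continuousOn_ginv.comp ((hent p).comp (continuous_fst.comp continuous_snd)).continuousOn
      fun x hx => ent_nonneg (thin_passive hp hx.2.1.1 hx.2.1.2)
  have hB : ContinuousOn (fun x : ℝ × ℝ × ℝ => ginv (ent N (thin N x.2.2 q)))
      (Set.Icc (0 : ℝ) 1 ×ˢ Set.Icc (0 : ℝ) 1 ×ˢ Set.Icc (0 : ℝ) 1) :=
    continuousOn_ginv.comp ((hent q).comp (continuous_snd.comp continuous_snd)).continuousOn
      fun x hx => ent_nonneg (thin_passive hq hx.2.2.1 hx.2.2.2)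
  have hC : Continuous fun x : ℝ × ℝ × ℝ =>
      ent (2 * N) (pC N x.1 (thin N x.2.1 p) (thin N x.2.2 q)) :=
    continuous_finsetSum _ fun m _ => Real.continuous_negMulLog.comp
      (continuous_finsetSum _ fun i _ => continuous_finsetSum _ fun j _ =>
        (((continuous_thin N p i).comp (continuous_fst.comp continuous_snd)).mul
          ((continuous_thin N q j).comp (continuous_snd.comp continuous_snd))).mul
          ((continuous_bsProb i j m).comp continuous_fst))
  refine ((hC.continuousOn.sub (continuousOn_gFun.comp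
    ((continuous_fst.continuousOn.mul hA).add
      ((continuous_const.sub continuous_fst).continuousOn.mul hB)) fun x hx => ?_)).add
    (by fun_prop))
  simp only [Set.mem_Ici]
  exact add_nonneg (mul_nonneg hx.1.1 (ginv_nonneg (ent_nonneg (thin_passive hp hx.2.1.1 hx.2.1.2))))
    (mul_nonneg (sub_nonneg.2 hx.1.2)
      (ginv_nonneg (ent_nonneg (thin_passive hq hx.2.2.1 hx.2.2.2))))

lemma Psi_nonneg (hp : Passive N p) (hq : Passive N q) {ε : ℝ} (hε : 0 < ε) :
    ∀ x ∈ Set.Icc (0 : ℝ) 1 ×ˢ Set.Icc (0 : ℝ) 1 ×ˢ Set.Icc (0 : ℝ) 1, 0 ≤ Psi N p q ε x := by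
  have hcpt : IsCompact (Set.Icc (0 : ℝ) 1 ×ˢ Set.Icc (0 : ℝ) 1 ×ˢ Set.Icc (0 : ℝ) 1) :=
    isCompact_Icc.prod (isCompact_Icc.prod isCompact_Icc)
  obtain ⟨⟨η, α, β⟩, hmem, hmin⟩ :=
    hcpt.exists_isMinOn ⟨(0, 0, 0), by simp⟩ (continuousOn_Psi hp hq ε)
  intro x hx
  refine le_trans ?_ (hmin hx)
  by_contra hneg
  push Not at hneg
  obtain ⟨⟨hη0, hη1⟩, ⟨hα0, hα1⟩, ⟨hβ0, hβ1⟩⟩ := hmem
  dsimp only at hη0 hη1 hα0 hα1 hβ0 hβ1
  set P := thin N α p with hPdef
  set Q := thin N β q with hQdef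
  have hP : Passive N P := thin_passive hp hα0 hα1
  have hQ : Passive N Q := thin_passive hq hβ0 hβ1
  have hsP := ent_nonneg hP
  have hsQ := ent_nonneg hQ
  set A := ginv (ent N P) with hAdef
  set B := ginv (ent N Q) with hBdef
  have hA : 0 ≤ A := ginv_nonneg hsP
  have hB : 0 ≤ B := ginv_nonneg hsQ
  have hval : ent (2 * N) (pC N η P Q) - gFun (η * A + (1 - η) * B) + ε * (α + β) < 0 := hneg
  have hεp : 0 ≤ ε * (α + β) := mul_nonneg hε.le (add_nonneg hα0 hβ0)
  have h2N : N ≤ 2 * N := by omega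
  have hη0' : 0 < η := by
    rcases hη0.eq_or_lt with h | h
    · subst h
      rw [pC_zero hP hQ, ent_extend hQ.supp h2N, zero_mul, zero_add, sub_zero, one_mul, hBdef,
        gFun_ginv hsQ] at hval
      linarith
    · exact h
  have hη1' : η < 1 := by
    rcases hη1.eq_or_lt with h | h
    · subst h
      rw [pC_one hP hQ, ent_extend hP.supp h2N, sub_self, zero_mul, add_zero, one_mul, hAdef,
        gFun_ginv hsP] at hval
      linarith
    · exact h
  have hC := out_passive hη0' hη1' hP hQ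
  have hpos : 0 < A ∨ 0 < B := by
    by_contra h
    push Not at h
    have a0 : A = 0 := le_antisymm h.1 hA
    have b0 : B = 0 := le_antisymm h.2 hB
    have eP : ent N P = 0 := by rw [← gFun_ginv hsP, ← hAdef, a0, gFun_zero]
    have eQ : ent N Q = 0 := by rw [← gFun_ginv hsQ, ← hBdef, b0, gFun_zero]
    rw [a0, b0, ent_eq_zero hP eP, ent_eq_zero hQ eQ, pC_vac hη0 hη1 hp.pos_N, ent_vac] at hval
    simp [gFun_zero] at hval
    linarith
  have hηmin : ∀ y ∈ Set.Icc (0 : ℝ) 1, ent (2 * N) (pC N η P Q) - gFun (η * A + (1 - η) * B)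
      ≤ ent (2 * N) (pC N y P Q) - gFun (y * A + (1 - y) * B) := by
    intro y hy
    have h := hmin (show (y, α, β) ∈ _ from ⟨hy, ⟨hα0, hα1⟩, ⟨hβ0, hβ1⟩⟩)
    simp only [Set.mem_ofPred_eq, Psi, ← hPdef, ← hQdef, ← hAdef, ← hBdef] at h
    linarith
  have hsw : ∀ y (p' q' : ℕ → ℝ), pC N (1 - y) q' p' = pC N y p' q' := fun y p' q' =>
    funext fun m => pC_swap N y p' q' m
  have caseA : 0 < A → Qf (2 * N) (pC N η P Q)
      < phi (η * A + (1 - η) * B) * ((η * A + (1 - η) * B) - (A - Qf N P / phi A)) := by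
    intro hA'
    have hα' : 0 < α := by
      rcases hα0.eq_or_lt with h | h
      · rw [hAdef, hPdef, ← h, thin_zero hp, ent_vac, ginv_zero] at hA'
        exact absurd hA' (lt_irrefl _)
      · exact h
    refine left_step hε hη0' hη1' hp hQ hα' hα1 hB hA' hηmin fun y hy => ?_
    have h := hmin (show (η, y, β) ∈ _ from ⟨⟨hη0, hη1⟩, ⟨hy.1, hy.2.trans hα1⟩, ⟨hβ0, hβ1⟩⟩)
    simp only [Set.mem_ofPred_eq, Psi, ← hPdef, ← hQdef, ← hAdef, ← hBdef] at h
    linarith
  have caseB : 0 < B → Qf (2 * N) (pC N η P Q)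
      < phi (η * A + (1 - η) * B) * ((η * A + (1 - η) * B) - (B - Qf N Q / phi B)) := by
    intro hB'
    have hβ' : 0 < β := by
      rcases hβ0.eq_or_lt with h | h
      · rw [hBdef, hQdef, ← h, thin_zero hq, ent_vac, ginv_zero] at hB'
        exact absurd hB' (lt_irrefl _)
      · exact h
    have et : (1 - η) * B + (1 - (1 - η)) * A = η * A + (1 - η) * B := by ring
    have h := left_step (η := 1 - η) hε (by linarith) (by linarith) hq hP hβ' hβ1 hA hB'
      (fun y hy => by
        have h := hηmin (1 - y) ⟨by linarith [hy.2], by linarith [hy.1]⟩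
        have e2 : (1 - y) * A + (1 - (1 - y)) * B = y * B + (1 - y) * A := by ring
        have e3 : pC N (1 - y) P Q = pC N y Q P := hsw y Q P
        rw [← hQdef, ← hBdef, hsw, et, ← e2, ← e3]
        exact h)
      (fun y hy => by
        have h := hmin (show (η, α, y) ∈ _ from ⟨⟨hη0, hη1⟩, ⟨hα0, hα1⟩, ⟨hy.1, hy.2.trans hβ1⟩⟩)
        simp only [Set.mem_ofPred_eq, Psi, ← hPdef, ← hQdef, ← hAdef, ← hBdef] at h
        have e2 : (1 - η) * ginv (ent N (thin N y q)) + (1 - (1 - η)) * A
            = η * A + (1 - η) * ginv (ent N (thin N y q)) := by ring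
        rw [← hQdef, ← hBdef, hsw, hsw, et, e2]
        linarith)
    rw [← hQdef, ← hBdef, hsw, et] at h
    exact h
  obtain ⟨a, ha, haA, hfa⟩ := exists_root hP
  obtain ⟨b, hb, hbB, hfb⟩ := exists_root hQ
  rw [← hAdef] at haA
  rw [← hBdef] at hbB
  set t := η * A + (1 - η) * B with htdef
  have ht : 0 < t := by
    rcases hpos with h | h
    · have := mul_pos hη0' h; have := mul_nonneg (sub_nonneg.2 hη1) hB; linarith
    · have := mul_pos (sub_pos.2 hη1') h; have := mul_nonneg hη0 hA; linarith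
  have hk := key_scalar ha hb haA hbB hη0 hη1
  rw [← htdef, le_div_iff₀ (phi_pos ht)] at hk
  have hge := Qf_out_ge hη0' hη1' hP hQ ha hb hfa hfb
  have hDA : 0 < A → defect a A = A - Qf N P / phi A := fun _ => by rw [← hfa]; rfl
  have hDB : 0 < B → defect b B = B - Qf N Q / phi B := fun _ => by rw [← hfb]; rfl
  have fin : ∀ D, max (defect a A) (defect b B) = D →
      Qf (2 * N) (pC N η P Q) < phi t * (t - D) → False := by
    intro D hD hlt
    rw [hD, mul_comm (t - D)] at hk
    linarith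
  rcases le_total (defect b B) (defect a A) with h | h
  · rcases hA.eq_or_lt with h0 | h0
    · have hB' : 0 < B := hpos.resolve_left (by rw [← h0]; exact lt_irrefl _)
      have z : defect a A = 0 :=
        le_antisymm (le_trans (defect_le ha haA) h0.symm.le) (defect_nonneg ha haA)
      refine fin (defect b B) ?_ (by rw [hDB hB']; exact caseB hB')
      exact max_eq_right (by rw [z]; exact defect_nonneg hb hbB)
    · exact fin _ (max_eq_left h) (by rw [hDA h0]; exact caseA h0)
  · rcases hB.eq_or_lt with h0 | h0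
    · have hA' : 0 < A := hpos.resolve_right (by rw [← h0]; exact lt_irrefl _)
      have z : defect b B = 0 :=
        le_antisymm (le_trans (defect_le hb hbB) h0.symm.le) (defect_nonneg hb hbB)
      refine fin (defect a A) ?_ (by rw [hDA hA']; exact caseA hA')
      exact max_eq_left (by rw [z]; exact defect_nonneg ha haA)
    · exact fin _ (max_eq_right h) (by rw [hDB h0]; exact caseB h0)

/-- EPnI for two passive distributions. -/
theorem epni_passive (hp : Passive N p) (hq : Passive N q) (h0 : 0 ≤ η) (h1 : η ≤ 1) :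
    gFun (η * ginv (ent N p) + (1 - η) * ginv (ent N q)) ≤ ent (2 * N) (pC N η p q) := by
  refine le_of_forall_pos_le_add fun ε hε => ?_
  have h := Psi_nonneg hp hq (half_pos hε) (η, 1, 1)
    ⟨⟨h0, h1⟩, ⟨zero_le_one, le_rfl⟩, ⟨zero_le_one, le_rfl⟩⟩
  simp only [Psi, thin_one hp, thin_one hq] at h
  linarith

end Vale.Agent.P369
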