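import Vale.Agent.P369.Modes

/-! Aggregation over modes for `fFun`. -/

open Real Set Filter Topology

noncomputable section

namespace Vale.Agent.P369

/-- Inverse of `fFun` on `[0, 1)`. -/
def finv (s : ℝ) : ℝ := Function.invFunOn fFun (Set.Ici 0) s

lemma exists_fFun_eq {s : ℝ} (hs : s ∈ Ico (0:ℝ) 1) : ∃ t ∈ Set.Ici (0:ℝ), fFun t = s := by
  rcases hs.1.eq_or_lt with rfl | hs0
  · exact ⟨0, self_mem_Ici, fFun_zero⟩
  set T : ℝ := s / (2 * (1 - s)) with hT
  have h1s : 0 < 1 - s := sub_pos.2 hs.2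
  have hT0 : 0 < T := by positivity
  have h3 : s ≤ fFun T := by
    have h := mul_le_mul_of_nonneg_left (phi_lower hT0).le hT0.le
    have e : T * (2 / (2 * T + 1)) = s := by
      rw [hT]; field_simp; ring
    rw [e] at h
    exact h
  obtain ⟨t, ht, e⟩ := intermediate_value_Icc hT0.le
    (continuousOn_fFun.mono Set.Icc_subset_Ici_self) ⟨by rw [fFun_zero]; exact hs.1, h3⟩
  exact ⟨t, ht.1, e⟩

lemma fFun_finv {s : ℝ} (hs : s ∈ Ico (0:ℝ) 1) : fFun (finv s) = s :=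
  Function.invFunOn_eq (exists_fFun_eq hs)

lemma finv_nonneg {s : ℝ} (hs : s ∈ Ico (0:ℝ) 1) : 0 ≤ finv s :=
  Function.invFunOn_mem (exists_fFun_eq hs)

lemma fFun_mem {t : ℝ} (ht : 0 ≤ t) : fFun t ∈ Ico (0:ℝ) 1 := ⟨fFun_nonneg ht, fFun_lt_one ht⟩

lemma finv_fFun {t : ℝ} (ht : 0 ≤ t) : finv (fFun t) = t :=
  strictMonoOn_fFun.injOn (finv_nonneg (fFun_mem ht)) ht (fFun_finv (fFun_mem ht))

lemma lt_finv_iff {s t : ℝ} (hs : s ∈ Ico (0:ℝ) 1) (ht : 0 ≤ t) : t < finv s ↔ fFun t < s := by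
  conv_rhs => rw [← fFun_finv hs]
  exact (strictMonoOn_fFun.lt_iff_lt ht (finv_nonneg hs)).symm

lemma finv_lt_iff {s t : ℝ} (hs : s ∈ Ico (0:ℝ) 1) (ht : 0 ≤ t) : finv s < t ↔ s < fFun t := by
  conv_rhs => rw [← fFun_finv hs]
  exact (strictMonoOn_fFun.lt_iff_lt (finv_nonneg hs) ht).symm

lemma finv_pos {s : ℝ} (hs : 0 < s) (hs1 : s < 1) : 0 < finv s := by
  rw [lt_finv_iff ⟨hs.le, hs1⟩ le_rfl, fFun_zero]; exact hs

lemma continuousOn_finv : ContinuousOn finv (Ico (0:ℝ) 1) := by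
  intro s hs
  rw [ContinuousWithinAt, tendsto_order]
  refine ⟨fun b hb => ?_, fun b hb => ?_⟩
  · rcases lt_or_ge b 0 with hb0 | hb0
    · filter_upwards [self_mem_nhdsWithin] with x hx
      exact lt_of_lt_of_le hb0 (finv_nonneg hx)
    · filter_upwards [self_mem_nhdsWithin,
        mem_nhdsWithin_of_mem_nhds (Ioi_mem_nhds ((lt_finv_iff hs hb0).1 hb))] with x hx hx'
      exact (lt_finv_iff hx hb0).2 hx'
  · have hb0 : 0 ≤ b := (finv_nonneg hs).trans hb.le
    filter_upwards [self_mem_nhdsWithin,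
      mem_nhdsWithin_of_mem_nhds (Iio_mem_nhds ((finv_lt_iff hs hb0).1 hb))] with x hx hx'
    exact (finv_lt_iff hx hb0).2 hx'

lemma hasDerivAt_finv {s : ℝ} (hs : 0 < s) (hs1 : s < 1) : HasDerivAt finv (1 / fD (finv s)) s := by
  rw [one_div]
  refine (hasDerivAt_fFun (finv_pos hs hs1)).of_local_left_inverse
    (continuousOn_finv.continuousAt (Ico_mem_nhds hs hs1)) (fD_pos (finv_pos hs hs1)).ne' ?_
  filter_upwards [Ioo_mem_nhds hs hs1] with y hy
  exact fFun_finv ⟨hy.1.le, hy.2⟩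

lemma concaveOn_TT : ConcaveOn ℝ (Ioi 0) TT := by
  refine concaveOn_of_hasDerivWithinAt2_nonpos (convex_Ioi 0)
    (f' := fun a => (1 + 3 * a) * FF a - 1)
    (f'' := fun a => 3 * FF a + (1 + 3 * a) * ((a * FF a - 1) / (a * (1 + a)))) ?_ ?_ ?_ ?_
  · exact fun a ha => (hasDerivAt_TT ha).continuousAt.continuousWithinAt
  · intro a ha
    rw [interior_Ioi] at ha
    exact (hasDerivAt_TT ha).hasDerivWithinAt
  · intro a ha
    rw [interior_Ioi] at ha
    have h : HasDerivAt (fun a : ℝ => 1 + 3 * a) 3 a := by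
      simpa using ((hasDerivAt_id a).const_mul 3).const_add 1
    exact ((h.mul (hasDerivAt_FF ha)).sub_const 1).hasDerivWithinAt
  · intro a ha
    rw [interior_Ioi] at ha
    have ha' : (0:ℝ) < a := ha
    have h := H_neg ha'
    have e : 3 * FF a + (1 + 3 * a) * ((a * FF a - 1) / (a * (1 + a)))
        = (2 * a * (2 + 3 * a) * FF a - (1 + 3 * a)) / (a * (1 + a)) := by
      field_simp; ring
    rw [e]
    exact (div_neg_of_neg_of_pos h (by positivity)).le

/-- The rate of the output as a function of the rates of the inputs. -/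
def mixF (η x y : ℝ) : ℝ := fFun (η * finv x + (1 - η) * finv y)

lemma mixF_curvature {η A B u v : ℝ} (h0 : 0 ≤ η) (h1 : η ≤ 1) (hA : 0 < A) (hB : 0 < B) :
    0 ≤ -1 / ((η * A + (1 - η) * B) * (1 + (η * A + (1 - η) * B)) ^ 2)
          * (η * (u / fD A) + (1 - η) * (v / fD B)) ^ 2
        + fD (η * A + (1 - η) * B) *
          (η * ((u / fD A) ^ 2 / TT A) + (1 - η) * ((v / fD B) ^ 2 / TT B)) := by
  set T := η * A + (1 - η) * B with hTdef
  have hT : 0 < T := mix_pos h0 h1 hA hB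
  set α := u / fD A
  set β := v / fD B
  have kA := TT_pos hA
  have kB := TT_pos hB
  have hη' : 0 ≤ 1 - η := by linarith
  set S := η * (α ^ 2 / TT A) + (1 - η) * (β ^ 2 / TT B) with hS
  have hS0 : 0 ≤ S := by
    have := div_nonneg (sq_nonneg α) kA.le
    have := div_nonneg (sq_nonneg β) kB.le
    positivity
  have hconc : η * TT A + (1 - η) * TT B ≤ TT T := by
    have h := concaveOn_TT.2 (mem_Ioi.2 hA) (mem_Ioi.2 hB) h0 hη' (by ring)
    simpa only [smul_eq_mul] using h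
  have hcs : (η * α + (1 - η) * β) ^ 2 ≤ (η * TT A + (1 - η) * TT B) * S := by
    have e : (η * TT A + (1 - η) * TT B) * S - (η * α + (1 - η) * β) ^ 2
        = η * (1 - η) * (α * TT B - β * TT A) ^ 2 / (TT A * TT B) := by
      rw [hS]; field_simp; ring
    have : 0 ≤ η * (1 - η) * (α * TT B - β * TT A) ^ 2 / (TT A * TT B) := by positivity
    linarith
  have hle : (η * α + (1 - η) * β) ^ 2 ≤ TT T * S :=
    hcs.trans (mul_le_mul_of_nonneg_right hconc hS0)
  have e : -1 / (T * (1 + T) ^ 2) * (η * α + (1 - η) * β) ^ 2 + fD T * S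
      = (TT T * S - (η * α + (1 - η) * β) ^ 2) / (T * (1 + T) ^ 2) := by
    unfold TT fD; field_simp; ring
  rw [e]
  exact div_nonneg (by linarith) (by positivity)

lemma mixF_segment {η x0 x1 y0 y1 a b : ℝ} (h0 : 0 ≤ η) (h1 : η ≤ 1) (hx0 : 0 < x0) (hx1 : 0 < x1)
    (hy0 : 0 < y0) (hy1 : 0 < y1) (ex0 : x0 < 1) (ex1 : x1 < 1) (ey0 : y0 < 1) (ey1 : y1 < 1) (ha : 0 ≤ a) (hb : 0 ≤ b) (hab : a + b = 1) :
    mixF η (a * x0 + b * x1) (a * y0 + b * y1) ≤ a * mixF η x0 y0 + b * mixF η x1 y1 := by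
  set u := x1 - x0 with hu
  set v := y1 - y0 with hv
  have hx : ∀ t ∈ Icc (0:ℝ) 1, 0 < x0 + t * u := by
    intro t ht
    rw [show x0 + t * u = (1 - t) * x0 + (1 - (1 - t)) * x1 by rw [hu]; ring]
    exact mix_pos (by linarith [ht.2]) (by linarith [ht.1]) hx0 hx1
  have hy : ∀ t ∈ Icc (0:ℝ) 1, 0 < y0 + t * v := by
    intro t ht
    rw [show y0 + t * v = (1 - t) * y0 + (1 - (1 - t)) * y1 by rw [hv]; ring]
    exact mix_pos (by linarith [ht.2]) (by linarith [ht.1]) hy0 hy1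
  have hx' : ∀ t ∈ Icc (0:ℝ) 1, x0 + t * u < 1 := by
    intro t ht
    have := mix_pos (η := 1 - t) (by linarith [ht.2]) (by linarith [ht.1]) (sub_pos.2 ex0) (sub_pos.2 ex1)
    rw [hu]
    linarith
  have hy' : ∀ t ∈ Icc (0:ℝ) 1, y0 + t * v < 1 := by
    intro t ht
    have := mix_pos (η := 1 - t) (by linarith [ht.2]) (by linarith [ht.1]) (sub_pos.2 ey0) (sub_pos.2 ey1)
    rw [hv]
    linarith
  set A : ℝ → ℝ := fun t => finv (x0 + t * u) with hAdef
  set B : ℝ → ℝ := fun t => finv (y0 + t * v) with hBdef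
  have hA : ∀ t ∈ Icc (0:ℝ) 1, HasDerivAt A (u / fD (A t)) t := by
    intro t ht
    have h : HasDerivAt (fun t => x0 + t * u) u t := by
      simpa using ((hasDerivAt_id t).mul_const u).const_add x0
    refine ((hasDerivAt_finv (hx t ht) (hx' t ht)).comp t h).congr_deriv ?_
    simp only [hAdef]; ring
  have hB : ∀ t ∈ Icc (0:ℝ) 1, HasDerivAt B (v / fD (B t)) t := by
    intro t ht
    have h : HasDerivAt (fun t => y0 + t * v) v t := by
      simpa using ((hasDerivAt_id t).mul_const v).const_add y0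
    refine ((hasDerivAt_finv (hy t ht) (hy' t ht)).comp t h).congr_deriv ?_
    simp only [hBdef]; ring
  have hT : ∀ t ∈ Icc (0:ℝ) 1, HasDerivAt (fun t => η * A t + (1 - η) * B t)
      (η * (u / fD (A t)) + (1 - η) * (v / fD (B t))) t := fun t ht =>
    ((hA t ht).const_mul η).add ((hB t ht).const_mul (1 - η))
  have hpA : ∀ t ∈ Icc (0:ℝ) 1, 0 < A t := fun t ht => finv_pos (hx t ht) (hx' t ht)
  have hpB : ∀ t ∈ Icc (0:ℝ) 1, 0 < B t := fun t ht => finv_pos (hy t ht) (hy' t ht)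
  have hf : ∀ t ∈ Icc (0:ℝ) 1, HasDerivAt (fun t => fFun (η * A t + (1 - η) * B t))
      (fD (η * A t + (1 - η) * B t) * (η * (u / fD (A t)) + (1 - η) * (v / fD (B t)))) t :=
    fun t ht => by
      have h := hasDerivAt_fFun (mix_pos h0 h1 (hpA t ht) (hpB t ht))
      exact HasDerivAt.comp t h (hT t ht)
  have hconv : ConvexOn ℝ (Icc (0:ℝ) 1) (fun t => fFun (η * A t + (1 - η) * B t)) := by
    refine convexOn_of_hasDerivWithinAt2_nonneg (convex_Icc 0 1)
      (f' := fun t => fD (η * A t + (1 - η) * B t) *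
        (η * (u / fD (A t)) + (1 - η) * (v / fD (B t))))
      (f'' := fun t => -1 / ((η * A t + (1 - η) * B t) * (1 + (η * A t + (1 - η) * B t)) ^ 2)
          * (η * (u / fD (A t)) + (1 - η) * (v / fD (B t))) ^ 2
        + fD (η * A t + (1 - η) * B t) *
          (η * ((u / fD (A t)) ^ 2 / TT (A t)) + (1 - η) * ((v / fD (B t)) ^ 2 / TT (B t)))) ?_ ?_ ?_ ?_
    · exact fun t ht => (hf t ht).continuousAt.continuousWithinAt
    · exact fun t ht => (hf t (interior_subset ht)).hasDerivWithinAt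
    · intro t ht
      have ht' := interior_subset ht
      have pA := fD_pos (hpA t ht')
      have pB := fD_pos (hpB t ht')
      have eA := hpA t ht'
      have eB := hpB t ht'
      have dA := ((hasDerivAt_const t u).div
        ((hasDerivAt_fD eA).comp t (hA t ht')) pA.ne')
      have dB := ((hasDerivAt_const t v).div
        ((hasDerivAt_fD eB).comp t (hB t ht')) pB.ne')
      have := FF_pos' eA
      have := FF_pos' eB
      have d := (((hasDerivAt_fD (mix_pos h0 h1 eA eB)).comp t (hT t ht')).mul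
        ((dA.const_mul η).add (dB.const_mul (1 - η))))
      refine HasDerivAt.hasDerivWithinAt (d.congr_deriv ?_)
      simp only [Function.comp_apply, Pi.div_apply, Pi.add_apply]
      unfold TT fD
      field_simp
      ring
    · intro t ht
      exact mixF_curvature h0 h1 (hpA t (interior_subset ht)) (hpB t (interior_subset ht))
  have h := hconv.2 (left_mem_Icc.2 zero_le_one) (right_mem_Icc.2 zero_le_one) ha hb hab
  have ea : a = 1 - b := by linarith
  simp only [smul_eq_mul, mul_zero, mul_one, zero_add, hAdef, hBdef, one_mul, zero_mul,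
    add_zero] at h
  unfold mixF
  rw [show a * x0 + b * x1 = x0 + b * u by rw [hu, ea]; ring,
    show a * y0 + b * y1 = y0 + b * v by rw [hv, ea]; ring]
  rw [show x0 + u = x1 by rw [hu]; ring, show y0 + v = y1 by rw [hv]; ring] at h
  exact h

lemma continuousWithinAt_mixF {η x y : ℝ} (h0 : 0 ≤ η) (h1 : η ≤ 1) (hx : x ∈ Ico (0:ℝ) 1)
    (hy : y ∈ Ico (0:ℝ) 1) :
    Tendsto (fun ε => mixF η (x + ε) (y + ε)) (𝓝[>] 0) (𝓝 (mixF η x y)) := by
  have hg : ∀ z ∈ Ico (0:ℝ) 1, Tendsto (fun ε => z + ε) (𝓝[>] 0) (𝓝[Ico (0:ℝ) 1] z) := by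
    intro z hz
    refine tendsto_nhdsWithin_iff.2 ⟨?_, ?_⟩
    · have : Tendsto (fun ε : ℝ => z + ε) (𝓝 0) (𝓝 (z + 0)) := tendsto_const_nhds.add tendsto_id
      rw [add_zero] at this
      exact this.mono_left nhdsWithin_le_nhds
    · filter_upwards [self_mem_nhdsWithin,
        mem_nhdsWithin_of_mem_nhds (Iio_mem_nhds (sub_pos.2 hz.2))] with ε hε hε'
      exact ⟨by linarith [mem_Ioi.1 hε, hz.1], by linarith [mem_Iio.1 hε']⟩
  have hT : 0 ≤ η * finv x + (1 - η) * finv y :=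
    add_nonneg (mul_nonneg h0 (finv_nonneg hx)) (mul_nonneg (by linarith) (finv_nonneg hy))
  refine (continuousOn_fFun _ hT).tendsto.comp (tendsto_nhdsWithin_iff.2 ⟨?_, ?_⟩)
  · exact (((continuousOn_finv x hx).tendsto.comp (hg x hx)).const_mul η).add
      (((continuousOn_finv y hy).tendsto.comp (hg y hy)).const_mul (1 - η))
  · filter_upwards [(hg x hx).eventually self_mem_nhdsWithin, (hg y hy).eventually self_mem_nhdsWithin]
      with ε a b
    exact mem_Ici.2 (add_nonneg (mul_nonneg h0 (finv_nonneg a))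
      (mul_nonneg (by linarith) (finv_nonneg b)))

lemma convexOn_mixF {η : ℝ} (h0 : 0 ≤ η) (h1 : η ≤ 1) :
    ConvexOn ℝ (Ico (0:ℝ) 1 ×ˢ Ico (0:ℝ) 1) (fun p => mixF η p.1 p.2) := by
  refine ⟨(convex_Ico 0 1).prod (convex_Ico 0 1), ?_⟩
  intro p hp q hq a b ha hb hab
  obtain ⟨hp1, hp2⟩ := mem_prod.1 hp
  obtain ⟨hq1, hq2⟩ := mem_prod.1 hq
  have m1 := convex_Ico (0:ℝ) 1 hp1 hq1 ha hb hab
  have m2 := convex_Ico (0:ℝ) 1 hp2 hq2 ha hb hab
  simp only [Prod.fst_add, Prod.snd_add, Prod.smul_fst, Prod.smul_snd, smul_eq_mul] at m1 m2 ⊢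
  refine le_of_tendsto_of_tendsto (b := 𝓝[>] (0:ℝ))
    (continuousWithinAt_mixF h0 h1 m1 m2)
    (((continuousWithinAt_mixF h0 h1 hp1 hp2).const_mul a).add
      ((continuousWithinAt_mixF h0 h1 hq1 hq2).const_mul b)) ?_
  have hev : ∀ z : ℝ, z < 1 → ∀ᶠ ε in 𝓝[>] (0:ℝ), z + ε < 1 := fun z hz => by
    filter_upwards [mem_nhdsWithin_of_mem_nhds (Iio_mem_nhds (sub_pos.2 hz))] with ε hε
    linarith [mem_Iio.1 hε]
  filter_upwards [self_mem_nhdsWithin, hev _ hp1.2, hev _ hq1.2, hev _ hp2.2, hev _ hq2.2]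
    with ε hε e1 e2 e3 e4
  have hε' : (0:ℝ) < ε := hε
  have h := mixF_segment h0 h1 (x0 := p.1 + ε) (x1 := q.1 + ε) (y0 := p.2 + ε) (y1 := q.2 + ε)
    (by linarith [hp1.1]) (by linarith [hq1.1]) (by linarith [hp2.1]) (by linarith [hq2.1])
    e1 e2 e3 e4 ha hb hab
  rw [show a * (p.1 + ε) + b * (q.1 + ε) = a * p.1 + b * q.1 + ε by linear_combination ε * hab,
    show a * (p.2 + ε) + b * (q.2 + ε) = a * p.2 + b * q.2 + ε by linear_combination ε * hab] at h
  exact h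

/-- Aggregation over modes for the entropy rate. -/
theorem mix_mean_f {ι : Type*} (s : Finset ι) (hs : s.Nonempty) (a b : ι → ℝ) {η A B : ℝ} (h0 : 0 ≤ η)
    (h1 : η ≤ 1) (ha : ∀ i ∈ s, 0 ≤ a i) (hb : ∀ i ∈ s, 0 ≤ b i) (hA : 0 ≤ A) (hB : 0 ≤ B)
    (eA : fFun A = (∑ i ∈ s, fFun (a i)) / s.card) (eB : fFun B = (∑ i ∈ s, fFun (b i)) / s.card) :
    fFun (η * A + (1 - η) * B) ≤ (∑ i ∈ s, fFun (η * a i + (1 - η) * b i)) / s.card := by
  have hc : (0:ℝ) < s.card := by exact_mod_cast hs.card_pos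
  have h := (convexOn_mixF h0 h1).map_sum_le (t := s) (w := fun _ => (1:ℝ) / s.card)
    (p := fun i => (fFun (a i), fFun (b i))) (fun _ _ => by positivity)
    (by rw [Finset.sum_const, nsmul_eq_mul]; field_simp)
    (fun i hi => mem_prod.2 ⟨fFun_mem (ha i hi), fFun_mem (hb i hi)⟩)
  simp only [Prod.fst_sum, Prod.snd_sum, Prod.smul_fst, Prod.smul_snd, smul_eq_mul,
    one_div_mul_eq_div, ← Finset.sum_div] at h
  unfold mixF at h
  rw [← eA, ← eB, finv_fFun hA, finv_fFun hB] at h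
  refine h.trans_eq ?_
  congr 1
  refine Finset.sum_congr rfl fun i hi => ?_
  rw [finv_fFun (ha i hi), finv_fFun (hb i hi)]

end Vale.Agent.P369
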