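import Vale.Agent.P369.MThin
import Vale.Agent.P369.MEnt
import Vale.Agent.P369.MBound
import Vale.Agent.P369.ModesF
import Vale.Agent.P369.Min

open Finset Filter

noncomputable section

namespace Vale.Agent.P369

variable {n N : ℕ} {η s : ℝ} {p q P Q : (Fin (n + 1) → ℕ) → ℝ}

/-- Entropy photon number of a diagonal `(n+1)`-mode distribution on the box. -/
def epB (M : ℕ) (P : (Fin (n + 1) → ℕ) → ℝ) : ℝ := ginv (entB M P / ((n : ℝ) + 1))

lemma thinN_passive (hp : PassiveN (n + 1) N p) (h0 : 0 ≤ s) (h1 : s ≤ 1) :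
    PassiveN (n + 1) N (thinN N s p) := by
  have hN := hp.pos_N (Nat.succ_pos n)
  rcases h0.eq_or_lt with rfl | h0
  · rw [thinN_zero hp]; exact vacN_passive hN
  rcases h1.eq_or_lt with rfl | h1
  · rw [thinN_one hp]; exact hp
  have h := out_passiveN h0 h1 hp (vacN_passive hN)
  rw [← thinN_eq_pCN h0.le h1.le hN] at h
  exact ⟨h.nonneg, h.anti, fun k hk => thinN_supp N s p hk, thinN_total hp s⟩

lemma thinN_zero_of_eq_zero (hp : PassiveN (n + 1) N p) (h0 : 0 < s) (h1 : s ≤ 1)
    {m : Fin (n + 1) → ℕ} (h : thinN N s p m = 0) (y : ℝ) : thinN N y p m = 0 := by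
  have hP := thinN_passive hp h0.le h1
  refine Finset.sum_eq_zero fun k hk => ?_
  by_cases hkm : ∀ l, m l ≤ k l
  · have h' : thinN N s p k = 0 := hP.eq_zero_of_le h hkm
    have := (Finset.sum_eq_zero_iff_of_nonneg fun i _ => mul_nonneg (hp.nonneg i)
      (Finset.prod_nonneg fun l _ => mul_nonneg (mul_nonneg (Nat.cast_nonneg _)
        (pow_nonneg h0.le _)) (pow_nonneg (sub_nonneg.2 h1) _))).1 h' k hk
    simp [binP, h0.ne', Finset.prod_eq_zero_iff] at this
    simp [this]
  · push Not at hkm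
    obtain ⟨l, hl⟩ := hkm
    rw [Finset.prod_eq_zero (Finset.mem_univ l), mul_zero]
    simp [binP, Nat.choose_eq_zero_of_lt hl]

lemma pCN_zero_support (h0 : 0 < η) (h1 : η < 1) (hP : PassiveN (n + 1) N P)
    (hQ : PassiveN (n + 1) N Q) {m : Fin (n + 1) → ℕ} (hC : pCN N η P Q m = 0) :
    ∀ i ∈ box (n + 1) N, ∀ j ∈ box (n + 1) N, (∀ l, m l ≤ i l + j l) → P i * Q j = 0 := by
  intro i hi j hj hm
  have h := (out_passiveN h0 h1 hP hQ).eq_zero_of_le (k := fun l => i l + j l) hC hm
  have hn : ∀ a b, 0 ≤ P a * Q b * bsN η a b (fun l => i l + j l) := fun a b =>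
    mul_nonneg (mul_nonneg (hP.nonneg a) (hQ.nonneg b)) (bsN_nonneg _ _ _ _)
  have h2 := (Finset.sum_eq_zero_iff_of_nonneg fun a _ =>
    Finset.sum_nonneg fun b _ => hn a b).1 h i hi
  have h3 := (Finset.sum_eq_zero_iff_of_nonneg fun b _ => hn i b).1 h2 j hj
  refine (mul_eq_zero.1 h3).resolve_right (ne_of_gt ?_)
  have := sub_pos.2 h1
  refine Finset.prod_pos fun l _ => ?_
  rw [bsProb_top h0.le h1.le]
  positivity

/-- The output rate dominates `fFun` at the mixed roots. -/
lemma QfN_out_ge (h0 : 0 < η) (h1 : η < 1) (hp : PassiveN (n + 1) N P)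
    (hq : PassiveN (n + 1) N Q) {a b : ℝ} (ha : 0 ≤ a) (hb : 0 ≤ b) (hfa : fFun a = QfN N P)
    (hfb : fFun b = QfN N Q) :
    fFun (η * a + (1 - η) * b) ≤ QfN (2 * N) (pCN N η P Q) := by
  choose al hal hfal using exists_root_mode hp
  choose bl hbl hfbl using exists_root_mode hq
  have hcard : ((Finset.univ : Finset (Fin (n + 1))).card : ℝ) = ((n + 1 : ℕ) : ℝ) := by simp
  have h := mix_mean_f Finset.univ Finset.univ_nonempty al bl h0.le h1.le (fun l _ => hal l)
    (fun l _ => hbl l) ha hb (by rw [hfa, hcard]; simp only [hfal, QfN])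
    (by rw [hfb, hcard]; simp only [hfbl, QfN])
  refine h.trans ?_
  rw [hcard, QfN]
  exact div_le_div_of_nonneg_right (Finset.sum_le_sum fun l _ =>
    Qmode_out_ge h0 h1 hp hq l (hal l) (hbl l) (hfal l) (hfbl l)) (Nat.cast_nonneg _)

lemma eta_stationN (h0 : 0 < η) (h1 : η < 1) (hP : PassiveN (n + 1) N P)
    (hQ : PassiveN (n + 1) N Q) (A B : ℝ) (ht : 0 < η * A + (1 - η) * B)
    (hmin : ∀ y ∈ Set.Icc (0 : ℝ) 1,
      entB (2 * N) (pCN N η P Q) - ((n : ℝ) + 1) * gFun (η * A + (1 - η) * B)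
        ≤ entB (2 * N) (pCN N y P Q) - ((n : ℝ) + 1) * gFun (y * A + (1 - y) * B)) :
    -∑ m ∈ box (n + 1) (2 * N), (∑ l, GDl N η l P Q m) * Real.log (pCN N η P Q m)
      = ((n : ℝ) + 1) * (phi (η * A + (1 - η) * B) * (A - B)) := by
  have hnb : Set.Ioo (0 : ℝ) 1 ∈ nhds η := Ioo_mem_nhds h0 h1
  have hS := hasDerivAt_entB (C := fun y => pCN N y P Q) (x := η) (M := 2 * N)
    (fun m _ => pCN_hasDerivAt h0 h1 N P Q m)
    (fun m _ hm => Eventually.of_forall fun y =>
      pCN_eq_zero_of y P Q (pCN_zero_support h0 h1 hP hQ hm))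
    (eventually_of_mem hnb fun y hy => (out_passiveN hy.1 hy.2 hP hQ).total)
  have hlin : HasDerivAt (fun y => y * A + (1 - y) * B) (A - B) η :=
    (((hasDerivAt_id η).mul_const A).add (((hasDerivAt_id η).const_sub 1).mul_const B)).congr_deriv
      (by ring)
  have hg := ((hasDerivAt_gFun ht).comp η hlin).const_mul ((n : ℝ) + 1)
  have hloc : IsLocalMin (fun y => entB (2 * N) (pCN N y P Q)
      - ((n : ℝ) + 1) * gFun (y * A + (1 - y) * B)) η :=
    eventually_of_mem hnb fun y hy => hmin y (Set.Ioo_subset_Icc_self hy)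
  have := hloc.hasDerivAt_eq_zero (hS.sub hg)
  linarith

lemma left_stepN {ε α : ℝ} (hε : 0 < ε) (h0 : 0 < η) (h1 : η < 1) (hp : PassiveN (n + 1) N p)
    (hQ : PassiveN (n + 1) N Q) (hα0 : 0 < α) (hα1 : α ≤ 1) {B : ℝ} (hB : 0 ≤ B)
    (hA : 0 < epB N (thinN N α p))
    (hη : ∀ y ∈ Set.Icc (0 : ℝ) 1,
      entB (2 * N) (pCN N η (thinN N α p) Q)
          - ((n : ℝ) + 1) * gFun (η * epB N (thinN N α p) + (1 - η) * B)
        ≤ entB (2 * N) (pCN N y (thinN N α p) Q)
          - ((n : ℝ) + 1) * gFun (y * epB N (thinN N α p) + (1 - y) * B))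
    (hmin : ∀ y ∈ Set.Icc 0 α,
      entB (2 * N) (pCN N η (thinN N α p) Q)
          - ((n : ℝ) + 1) * gFun (η * epB N (thinN N α p) + (1 - η) * B) + ε * α
        ≤ entB (2 * N) (pCN N η (thinN N y p) Q)
          - ((n : ℝ) + 1) * gFun (η * epB N (thinN N y p) + (1 - η) * B) + ε * y) :
    QfN (2 * N) (pCN N η (thinN N α p) Q)
      < phi (η * epB N (thinN N α p) + (1 - η) * B)
        * ((η * epB N (thinN N α p) + (1 - η) * B)
          - (epB N (thinN N α p) - QfN N (thinN N α p) / phi (epB N (thinN N α p)))) := by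
  set P := thinN N α p with hPdef
  have hP : PassiveN (n + 1) N P := thinN_passive hp hα0.le hα1
  have hC := out_passiveN h0 h1 hP hQ
  set c : ℝ := (n : ℝ) + 1 with hc
  have hc0 : 0 < c := by rw [hc]; positivity
  set A := epB N P with hAdef
  set t := η * A + (1 - η) * B with htdef
  have ht : 0 < t := by
    have := mul_pos h0 hA
    have := mul_nonneg (sub_nonneg.2 h1.le) hB
    linarith
  have hentP : 0 < entB N P / c := by
    rcases (div_nonneg (entB_nonneg hP) hc0.le).eq_or_lt with h | h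
    · rw [hAdef, epB, ← hc, ← h, ginv_zero] at hA; exact absurd hA (lt_irrefl _)
    · exact h
  have hst := eta_stationN h0 h1 hP hQ A B ht hη
  set SA := -∑ m ∈ box (n + 1) N, thinND N α p m * Real.log (P m) with hSA
  set SC := -∑ m ∈ box (n + 1) (2 * N),
    pCN N η (thinND N α p) Q m * Real.log (pCN N η P Q m) with hSC
  have hdA : HasDerivAt (fun y => entB N (thinN N y p)) SA α :=
    hasDerivAt_entB (C := fun y => thinN N y p) (fun m _ => hasDerivAt_thinN N α p m)
      (fun m _ hm => Eventually.of_forall (thinN_zero_of_eq_zero hp hα0 hα1 hm))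
      (Eventually.of_forall fun y => thinN_total hp y)
  have hdC : HasDerivAt (fun y => entB (2 * N) (pCN N η (thinN N y p) Q)) SC α := by
    refine hasDerivAt_entB (C := fun y => pCN N η (thinN N y p) Q) (fun m _ => ?_)
      (fun m _ hm => ?_) (Eventually.of_forall fun y => ?_)
    · exact HasDerivAt.fun_sum fun i _ => HasDerivAt.fun_sum fun j _ =>
        ((hasDerivAt_thinN N α p i).mul_const (Q j)).mul_const (bsN η i j m)
    · refine Eventually.of_forall fun y => pCN_eq_zero_of η _ _ fun i hi j hj hij => ?_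
      rcases mul_eq_zero.1 (pCN_zero_support h0 h1 hP hQ hm i hi j hj hij) with h | h
      · rw [thinN_zero_of_eq_zero hp hα0 hα1 h y, zero_mul]
      · rw [h, mul_zero]
    · rw [sum_pCN h0.le h1.le, thinN_total hp, hQ.total, one_mul]
  have hg : HasDerivAt (fun y => c * gFun (η * epB N (thinN N y p) + (1 - η) * B))
      (c * (phi t * (η * (1 / phi A * (SA / c))))) α := by
    have a := (((hasDerivAt_ginv hentP).comp α (hdA.div_const c)).const_mul η).add_const
      ((1 - η) * B)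
    exact (HasDerivAt.comp α (h₂ := gFun)
      (h := fun y => η * epB N (thinN N y p) + (1 - η) * B) (hasDerivAt_gFun ht) a).const_mul c
  have hle : SC - c * (phi t * (η * (1 / phi A * (SA / c)))) + ε * 1 ≤ 0 :=
    deriv_nonpos_of_min_left hα0 ((hdC.sub hg).add ((hasDerivAt_id α).const_mul ε)) hmin
  have hQN : ∀ (M : ℕ) (R : (Fin (n + 1) → ℕ) → ℝ), ∑ l, Qmode M l R = c * QfN M R := by
    intro M R
    rw [QfN, hc]
    push_cast
    field_simp
  have eA : α * SA = c * QfN N P := by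
    rw [← hQN, hSA, mul_neg, Finset.mul_sum, ← Finset.sum_neg_distrib,
      ← Finset.sum_congr rfl fun l _ => sum_genN_log hP l, Finset.sum_comm]
    refine Finset.sum_congr rfl fun m _ => ?_
    rw [← mul_assoc, mul_thinND, ← hPdef, neg_mul, neg_neg, Finset.sum_mul]
  have eC : α * SC = η * (c * QfN (2 * N) (pCN N η P Q))
      + η * (1 - η) * (c * (phi t * (A - B))) := by
    rw [← hQN, ← hst, hSC, mul_neg, Finset.mul_sum,
      ← Finset.sum_congr rfl fun l _ => sum_genN_log hC l,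
      Finset.sum_comm (s := (Finset.univ : Finset (Fin (n + 1))))]
    simp only [Finset.mul_sum, ← Finset.sum_neg_distrib, ← Finset.sum_add_distrib, mul_neg]
    refine Finset.sum_congr rfl fun m _ => ?_
    rw [← mul_assoc, ← pCN_const_left,
      show (fun i => α * thinND N α p i) = fun i => -∑ l, genN l P i from
        funext fun i => by rw [mul_thinND, ← hPdef],
      pCN_neg_left, pCN_sum_left]
    simp only [pairN_gen_left h0.le h1.le hP, Finset.sum_sub_distrib, ← Finset.mul_sum,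
      ← Finset.sum_mul]
    ring
  have hphi := phi_pos hA
  have key : η * (QfN (2 * N) (pCN N η P Q) - phi t * (t - (A - QfN N P / phi A))) * c
      ≤ -(ε * α) := by
    have h2 := mul_le_mul_of_nonneg_left hle hα0.le
    have e : α * (SC - c * (phi t * (η * (1 / phi A * (SA / c)))) + ε * 1)
        = α * SC - phi t * (η * (1 / phi A)) * (α * SA) + ε * α := by field_simp
    rw [mul_zero, e, eA, eC] at h2
    have e2 : η * (QfN (2 * N) (pCN N η P Q) - phi t * (t - (A - QfN N P / phi A))) * c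
        = η * (c * QfN (2 * N) (pCN N η P Q)) + η * (1 - η) * (c * (phi t * (A - B)))
          - phi t * (η * (1 / phi A)) * (c * QfN N P) := by
      rw [htdef]; ring
    linarith
  by_contra hcon
  push Not at hcon
  nlinarith [mul_nonneg (mul_nonneg h0.le (sub_nonneg.2 hcon)) hc0.le, mul_pos hε hα0]

/-- The penalised functional. -/
def PsiN (N : ℕ) (p q : (Fin (n + 1) → ℕ) → ℝ) (ε : ℝ) (x : ℝ × ℝ × ℝ) : ℝ :=
  entB (2 * N) (pCN N x.1 (thinN N x.2.1 p) (thinN N x.2.2 q))
    - ((n : ℝ) + 1) * gFun (x.1 * epB N (thinN N x.2.1 p) + (1 - x.1) * epB N (thinN N x.2.2 q))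
    + ε * (x.2.1 + x.2.2)

lemma epB_nonneg (h : PassiveN (n + 1) N P) : 0 ≤ epB N P :=
  ginv_nonneg (div_nonneg (entB_nonneg h) (by positivity))

lemma gFun_epB (h : PassiveN (n + 1) N P) : ((n : ℝ) + 1) * gFun (epB N P) = entB N P := by
  rw [epB, gFun_ginv (div_nonneg (entB_nonneg h) (by positivity))]
  field_simp

lemma continuousOn_PsiN (hp : PassiveN (n + 1) N p) (hq : PassiveN (n + 1) N q) (ε : ℝ) :
    ContinuousOn (PsiN N p q ε)
      (Set.Icc (0 : ℝ) 1 ×ˢ Set.Icc (0 : ℝ) 1 ×ˢ Set.Icc (0 : ℝ) 1) := by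
  have hent : ∀ r : (Fin (n + 1) → ℕ) → ℝ,
      Continuous fun s : ℝ => entB N (thinN N s r) / ((n : ℝ) + 1) := fun r =>
    (continuous_finsetSum _ fun m _ =>
      Real.continuous_negMulLog.comp (continuous_thinN N r m)).div_const _
  have hnn : ∀ {r : (Fin (n + 1) → ℕ) → ℝ} {s : ℝ}, PassiveN (n + 1) N r → 0 ≤ s → s ≤ 1 →
      0 ≤ entB N (thinN N s r) / ((n : ℝ) + 1) := fun hr a b =>
    div_nonneg (entB_nonneg (thinN_passive hr a b)) (by positivity)
  have hA : ContinuousOn (fun x : ℝ × ℝ × ℝ => epB N (thinN N x.2.1 p))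
      (Set.Icc (0 : ℝ) 1 ×ˢ Set.Icc (0 : ℝ) 1 ×ˢ Set.Icc (0 : ℝ) 1) :=
    continuousOn_ginv.comp ((hent p).comp (continuous_fst.comp continuous_snd)).continuousOn
      fun x hx => hnn hp hx.2.1.1 hx.2.1.2
  have hB : ContinuousOn (fun x : ℝ × ℝ × ℝ => epB N (thinN N x.2.2 q))
      (Set.Icc (0 : ℝ) 1 ×ˢ Set.Icc (0 : ℝ) 1 ×ˢ Set.Icc (0 : ℝ) 1) :=
    continuousOn_ginv.comp ((hent q).comp (continuous_snd.comp continuous_snd)).continuousOn
      fun x hx => hnn hq hx.2.2.1 hx.2.2.2
  have hC : Continuous fun x : ℝ × ℝ × ℝ =>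
      entB (2 * N) (pCN N x.1 (thinN N x.2.1 p) (thinN N x.2.2 q)) :=
    continuous_finsetSum _ fun m _ => Real.continuous_negMulLog.comp
      (continuous_finsetSum _ fun i _ => continuous_finsetSum _ fun j _ =>
        (((continuous_thinN N p i).comp (continuous_fst.comp continuous_snd)).mul
          ((continuous_thinN N q j).comp (continuous_snd.comp continuous_snd))).mul
          ((continuous_bsN i j m).comp continuous_fst))
  refine ((hC.continuousOn.sub (continuousOn_const.mul (continuousOn_gFun.comp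
    ((continuous_fst.continuousOn.mul hA).add
      ((continuous_const.sub continuous_fst).continuousOn.mul hB)) fun x hx => ?_))).add
    (by fun_prop))
  simp only [Set.mem_Ici]
  exact add_nonneg (mul_nonneg hx.1.1 (epB_nonneg (thinN_passive hp hx.2.1.1 hx.2.1.2)))
    (mul_nonneg (sub_nonneg.2 hx.1.2) (epB_nonneg (thinN_passive hq hx.2.2.1 hx.2.2.2)))

lemma PsiN_nonneg (hp : PassiveN (n + 1) N p) (hq : PassiveN (n + 1) N q) {ε : ℝ} (hε : 0 < ε) :
    ∀ x ∈ Set.Icc (0 : ℝ) 1 ×ˢ Set.Icc (0 : ℝ) 1 ×ˢ Set.Icc (0 : ℝ) 1,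
      0 ≤ PsiN N p q ε x := by
  have hcpt : IsCompact (Set.Icc (0 : ℝ) 1 ×ˢ Set.Icc (0 : ℝ) 1 ×ˢ Set.Icc (0 : ℝ) 1) :=
    isCompact_Icc.prod (isCompact_Icc.prod isCompact_Icc)
  obtain ⟨⟨η, α, β⟩, hmem, hmin⟩ :=
    hcpt.exists_isMinOn ⟨(0, 0, 0), by simp⟩ (continuousOn_PsiN hp hq ε)
  intro x hx
  refine le_trans ?_ (hmin hx)
  by_contra hneg
  push Not at hneg
  obtain ⟨⟨hη0, hη1⟩, ⟨hα0, hα1⟩, ⟨hβ0, hβ1⟩⟩ := hmem
  dsimp only at hη0 hη1 hα0 hα1 hβ0 hβ1
  set P := thinN N α p with hPdef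
  set Q := thinN N β q with hQdef
  have hP : PassiveN (n + 1) N P := thinN_passive hp hα0 hα1
  have hQ : PassiveN (n + 1) N Q := thinN_passive hq hβ0 hβ1
  set A := epB N P with hAdef
  set B := epB N Q with hBdef
  have hA : 0 ≤ A := epB_nonneg hP
  have hB : 0 ≤ B := epB_nonneg hQ
  have hval : entB (2 * N) (pCN N η P Q) - ((n : ℝ) + 1) * gFun (η * A + (1 - η) * B)
      + ε * (α + β) < 0 := hneg
  have hεp : 0 ≤ ε * (α + β) := mul_nonneg hε.le (add_nonneg hα0 hβ0)
  have h2N : N ≤ 2 * N := by omega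
  have hη0' : 0 < η := by
    rcases hη0.eq_or_lt with h | h
    · subst h
      rw [pCN_zero hP hQ, entB_extend hQ.supp h2N, zero_mul, zero_add, sub_zero, one_mul, hBdef,
        gFun_epB hQ] at hval
      linarith
    · exact h
  have hη1' : η < 1 := by
    rcases hη1.eq_or_lt with h | h
    · subst h
      rw [pCN_one hP hQ, entB_extend hP.supp h2N, sub_self, zero_mul, add_zero, one_mul, hAdef,
        gFun_epB hP] at hval
      linarith
    · exact h
  have hpos : 0 < A ∨ 0 < B := by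
    by_contra h
    push Not at h
    have a0 : A = 0 := le_antisymm h.1 hA
    have b0 : B = 0 := le_antisymm h.2 hB
    have eP : entB N P = 0 := by rw [← gFun_epB hP, ← hAdef, a0, gFun_zero, mul_zero]
    have eQ : entB N Q = 0 := by rw [← gFun_epB hQ, ← hBdef, b0, gFun_zero, mul_zero]
    rw [a0, b0, entB_eq_zero hP eP, entB_eq_zero hQ eQ,
      pCN_vac hη0 hη1 (hp.pos_N (Nat.succ_pos n)), entB_vacN] at hval
    simp [gFun_zero] at hval
    linarith
  have hηmin : ∀ y ∈ Set.Icc (0 : ℝ) 1,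
      entB (2 * N) (pCN N η P Q) - ((n : ℝ) + 1) * gFun (η * A + (1 - η) * B)
        ≤ entB (2 * N) (pCN N y P Q) - ((n : ℝ) + 1) * gFun (y * A + (1 - y) * B) := by
    intro y hy
    have h := hmin (show (y, α, β) ∈ _ from ⟨hy, ⟨hα0, hα1⟩, ⟨hβ0, hβ1⟩⟩)
    simp only [Set.mem_ofPred_eq, PsiN, ← hPdef, ← hQdef, ← hAdef, ← hBdef] at h
    linarith
  have caseA : 0 < A → QfN (2 * N) (pCN N η P Q)
      < phi (η * A + (1 - η) * B) * ((η * A + (1 - η) * B) - (A - QfN N P / phi A)) := by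
    intro hA'
    have hα' : 0 < α := by
      rcases hα0.eq_or_lt with h | h
      · rw [hAdef, hPdef, ← h, thinN_zero hp, epB, entB_vacN, zero_div, ginv_zero] at hA'
        exact absurd hA' (lt_irrefl _)
      · exact h
    refine left_stepN hε hη0' hη1' hp hQ hα' hα1 hB hA' hηmin fun y hy => ?_
    have h := hmin (show (η, y, β) ∈ _ from ⟨⟨hη0, hη1⟩, ⟨hy.1, hy.2.trans hα1⟩, ⟨hβ0, hβ1⟩⟩)
    simp only [Set.mem_ofPred_eq, PsiN, ← hPdef, ← hQdef, ← hAdef, ← hBdef] at h
    linarith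
  have caseB : 0 < B → QfN (2 * N) (pCN N η P Q)
      < phi (η * A + (1 - η) * B) * ((η * A + (1 - η) * B) - (B - QfN N Q / phi B)) := by
    intro hB'
    have hβ' : 0 < β := by
      rcases hβ0.eq_or_lt with h | h
      · rw [hBdef, hQdef, ← h, thinN_zero hq, epB, entB_vacN, zero_div, ginv_zero] at hB'
        exact absurd hB' (lt_irrefl _)
      · exact h
    have et : (1 - η) * B + (1 - (1 - η)) * A = η * A + (1 - η) * B := by ring
    have h := left_stepN (η := 1 - η) hε (by linarith) (by linarith) hq hP hβ' hβ1 hA hB'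
      (fun y hy => by
        have h := hηmin (1 - y) ⟨by linarith [hy.2], by linarith [hy.1]⟩
        have e2 : (1 - y) * A + (1 - (1 - y)) * B = y * B + (1 - y) * A := by ring
        have e3 : pCN N (1 - y) P Q = pCN N y Q P := pCN_swap N y Q P
        rw [← hQdef, ← hBdef, pCN_swap, et, ← e2, ← e3]
        exact h)
      (fun y hy => by
        have h := hmin (show (η, α, y) ∈ _ from ⟨⟨hη0, hη1⟩, ⟨hα0, hα1⟩, ⟨hy.1, hy.2.trans hβ1⟩⟩)
        simp only [Set.mem_ofPred_eq, PsiN, ← hPdef, ← hQdef, ← hAdef, ← hBdef] at h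
        have e2 : (1 - η) * epB N (thinN N y q) + (1 - (1 - η)) * A
            = η * A + (1 - η) * epB N (thinN N y q) := by ring
        rw [← hQdef, ← hBdef, pCN_swap, pCN_swap, et, e2]
        linarith)
    rw [← hQdef, ← hBdef, pCN_swap, et] at h
    exact h
  obtain ⟨a, ha, haA, hfa⟩ := exists_rootN hP
  obtain ⟨b, hb, hbB, hfb⟩ := exists_rootN hQ
  rw [← epB, ← hAdef] at haA
  rw [← epB, ← hBdef] at hbB
  set t := η * A + (1 - η) * B with htdef
  have ht : 0 < t := by
    rcases hpos with h | h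
    · have := mul_pos hη0' h; have := mul_nonneg (sub_nonneg.2 hη1) hB; linarith
    · have := mul_pos (sub_pos.2 hη1') h; have := mul_nonneg hη0 hA; linarith
  have hk := key_scalar ha hb haA hbB hη0 hη1
  rw [← htdef, le_div_iff₀ (phi_pos ht)] at hk
  have hge := QfN_out_ge hη0' hη1' hP hQ ha hb hfa hfb
  have hDA : 0 < A → defect a A = A - QfN N P / phi A := fun _ => by rw [← hfa]; rfl
  have hDB : 0 < B → defect b B = B - QfN N Q / phi B := fun _ => by rw [← hfb]; rfl
  have fin : ∀ D, max (defect a A) (defect b B) = D →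
      QfN (2 * N) (pCN N η P Q) < phi t * (t - D) → False := by
    intro D hD hlt
    rw [hD, mul_comm (t - D)] at hk
    linarith
  rcases le_total (defect b B) (defect a A) with h | h
  · rcases hA.eq_or_lt with h0 | h0
    · have hB' : 0 < B := hpos.resolve_left (by rw [← h0]; exact lt_irrefl _)
      have z : defect a A = 0 :=
        le_antisymm (le_trans (defect_le ha haA) h0.symm.le) (defect_nonneg ha haA)
      refine fin (defect b B) ?_ (by rw [hDB hB']; exact caseB hB')
      exact max_eq_right (by rw [z]; exact defect_nonneg hb hbB)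
    · exact fin _ (max_eq_left h) (by rw [hDA h0]; exact caseA h0)
  · rcases hB.eq_or_lt with h0 | h0
    · have hA' : 0 < A := hpos.resolve_right (by rw [← h0]; exact lt_irrefl _)
      have z : defect b B = 0 :=
        le_antisymm (le_trans (defect_le hb hbB) h0.symm.le) (defect_nonneg hb hbB)
      refine fin (defect a A) ?_ (by rw [hDA hA']; exact caseA hA')
      exact max_eq_left (by rw [z]; exact defect_nonneg ha haA)
    · exact fin _ (max_eq_right h) (by rw [hDB h0]; exact caseB h0)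

/-- EPnI for two multimode passive distributions supported in a box. -/
theorem epni_passiveN (hp : PassiveN (n + 1) N p) (hq : PassiveN (n + 1) N q) (h0 : 0 ≤ η)
    (h1 : η ≤ 1) :
    ((n : ℝ) + 1) * gFun (η * ginv (entB N p / ((n : ℝ) + 1))
        + (1 - η) * ginv (entB N q / ((n : ℝ) + 1))) ≤ entB (2 * N) (pCN N η p q) := by
  refine le_of_forall_pos_le_add fun ε hε => ?_
  have h := PsiN_nonneg hp hq (half_pos hε) (η, 1, 1)
    ⟨⟨h0, h1⟩, ⟨zero_le_one, le_rfl⟩, ⟨zero_le_one, le_rfl⟩⟩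
  simp only [PsiN, epB, thinN_one hp, thinN_one hq] at h
  linarith

end Vale.Agent.P369
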