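import Vale.Agent.P369.Bilinear
import Vale.Agent.P369.Ent

open Finset Filter

noncomputable section

namespace Vale.Agent.P369

variable {N M : ℕ} {η s : ℝ} {p q : ℕ → ℝ}

/-- Pure loss with transmissivity `s`, as a polynomial in `s`. -/
def thin (N : ℕ) (s : ℝ) (p : ℕ → ℝ) (m : ℕ) : ℝ :=
  ∑ i ∈ range N, p i * ((i.choose m : ℝ) * s ^ m * (1 - s) ^ (i - m))

lemma Passive.pos_N (h : Passive N p) : 0 < N := by
  rcases Nat.eq_zero_or_pos N with h0 | h0
  · have := h.total; subst h0; simp at this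
  · exact h0

lemma Passive.eq_zero_of_le (h : Passive N p) {i j : ℕ} (hi : p i = 0) (hij : i ≤ j) : p j = 0 :=
  le_antisymm (hi ▸ h.antitone hij) (h.nonneg j)

lemma vac_passive (hN : 0 < N) : Passive N vac := by
  refine ⟨fun k => ?_, fun k => ?_, fun k hk => ?_, ?_⟩
  · unfold vac; split <;> norm_num
  · unfold vac; rw [if_neg (Nat.succ_ne_zero k)]; split <;> norm_num
  · exact if_neg (by omega)
  · simp [vac, hN]

lemma ent_vac (N : ℕ) : ent N vac = 0 := by
  refine Finset.sum_eq_zero fun k _ => ?_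
  unfold vac; split <;> simp

lemma sum_range_extend {N M : ℕ} (hM : N ≤ M) {f : ℕ → ℝ} (h : ∀ k, N ≤ k → f k = 0) :
    ∑ k ∈ range M, f k = ∑ k ∈ range N, f k :=
  (Finset.sum_subset (range_subset_range.2 hM) fun k _ hk => h k (by simpa using hk)).symm

lemma ent_extend (h : ∀ k, N ≤ k → p k = 0) (hM : N ≤ M) : ent M p = ent N p :=
  sum_range_extend hM fun k hk => by simp [h k hk]

lemma sum_mul_vac (hN : 0 < N) (f : ℕ → ℝ) : ∑ j ∈ range N, vac j * f j = f 0 := by
  simp [vac, hN]

lemma thin_eq_pC (h0 : 0 ≤ s) (h1 : s ≤ 1) (hN : 0 < N) (p : ℕ → ℝ) :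
    thin N s p = pC N s p vac := by
  funext m
  unfold thin pC
  refine Finset.sum_congr rfl fun i _ => ?_
  simp only [mul_assoc, ← Finset.mul_sum, sum_mul_vac hN fun j => bsProb s i j m,
    bsProb_right_zero h0 h1]

lemma thin_support (N : ℕ) (s : ℝ) (p : ℕ → ℝ) {m : ℕ} (hm : N ≤ m) : thin N s p m = 0 :=
  Finset.sum_eq_zero fun i hi => by
    rw [Nat.choose_eq_zero_of_lt (lt_of_lt_of_le (mem_range.1 hi) hm)]; simp

lemma thin_total (h : Passive N p) (s : ℝ) : ∑ m ∈ range N, thin N s p m = 1 := by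
  unfold thin
  rw [Finset.sum_comm]
  conv_rhs => rw [← h.total]
  refine Finset.sum_congr rfl fun i hi => ?_
  rw [← Finset.mul_sum, sum_range_extend (N := i + 1) (mem_range.1 hi) fun k hk => by
    rw [Nat.choose_eq_zero_of_lt (by omega)]; simp]
  have e := add_pow s (1 - s) i
  rw [add_sub_cancel, one_pow] at e
  calc p i * _ = p i * 1 := by
        congr 1
        refine Eq.trans (Finset.sum_congr rfl fun m _ => by ring) e.symm
    _ = p i := mul_one _

lemma thin_one (h : Passive N p) : thin N 1 p = p := by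
  funext m
  unfold thin
  rw [Finset.sum_eq_single m]
  · simp
  · intro i _ hi
    rcases lt_or_gt_of_ne hi with h' | h'
    · rw [Nat.choose_eq_zero_of_lt h']; simp
    · simp [Nat.sub_ne_zero_of_lt h']
  · intro hm
    rw [h.supp m (by simpa using hm)]; simp

lemma thin_zero (h : Passive N p) : thin N 0 p = vac := by
  funext m
  unfold thin vac
  cases m with
  | zero => simpa using h.total
  | succ m => simp

lemma continuous_thin (N : ℕ) (p : ℕ → ℝ) (m : ℕ) : Continuous fun s => thin N s p m := by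
  unfold thin; fun_prop

lemma sum_range_shift_gen (N : ℕ) (s : ℝ) (p : ℕ → ℝ) (m : ℕ) :
    gen (thin N s p) m = ∑ i ∈ range N, p i * (((m : ℝ) + 1) * ((i.choose (m + 1) : ℝ)
      * s ^ (m + 1) * (1 - s) ^ (i - (m + 1))) - (m : ℝ) * ((i.choose m : ℝ) * s ^ m
        * (1 - s) ^ (i - m))) := by
  unfold gen thin
  rw [Finset.mul_sum, Finset.mul_sum, ← Finset.sum_sub_distrib]
  exact Finset.sum_congr rfl fun i _ => by ring

/-- Derivative of `thin` in `s`. -/
def thinD (N : ℕ) (s : ℝ) (p : ℕ → ℝ) (m : ℕ) : ℝ :=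
  ∑ i ∈ range N, p i * ((i.choose m : ℝ) * ((m : ℝ) * s ^ (m - 1) * (1 - s) ^ (i - m)
    - ((i - m : ℕ) : ℝ) * s ^ m * (1 - s) ^ (i - m - 1)))

lemma hasDerivAt_thin (N : ℕ) (s : ℝ) (p : ℕ → ℝ) (m : ℕ) :
    HasDerivAt (fun y => thin N y p m) (thinD N s p m) s := by
  unfold thin thinD
  refine HasDerivAt.fun_sum fun i _ => ?_
  have h := ((hasDerivAt_pow m s).fun_mul (((hasDerivAt_id s).const_sub 1).pow (i - m))).const_mul
    (p i * (i.choose m : ℝ))
  simp only [id_eq, Pi.pow_apply] at h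
  refine (h.congr_of_eventuallyEq (Eventually.of_forall fun y => by ring)).congr_deriv ?_
  ring

lemma mul_thinD (N : ℕ) (s : ℝ) (p : ℕ → ℝ) (m : ℕ) :
    s * thinD N s p m = -gen (thin N s p) m := by
  rw [sum_range_shift_gen, thinD, Finset.mul_sum, ← Finset.sum_neg_distrib]
  refine Finset.sum_congr rfl fun i _ => ?_
  have hc : (i.choose (m + 1) : ℝ) * ((m : ℝ) + 1) = (i.choose m : ℝ) * ((i - m : ℕ) : ℝ) := by
    exact_mod_cast Nat.choose_succ_right_eq i m
  rw [Nat.sub_sub]
  rcases m with _ | m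
  · simp only [pow_zero, zero_add] at hc ⊢
    push_cast at hc ⊢
    linear_combination (p i * s * (1 - s) ^ (i - 1)) * hc
  · simp only [Nat.add_sub_cancel]
    linear_combination (p i * s ^ (m + 1 + 1) * (1 - s) ^ (i - (m + 1 + 1))) * hc

/-- Derivative of the entropy along a curve with constant total mass and locally constant support. -/
lemma hasDerivAt_ent {M : ℕ} {C : ℝ → ℕ → ℝ} {C' : ℕ → ℝ} {x : ℝ}
    (hd : ∀ m ∈ range M, HasDerivAt (fun y => C y m) (C' m) x)
    (hz : ∀ m ∈ range M, C x m = 0 → ∀ᶠ y in nhds x, C y m = 0)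
    (ht : ∀ᶠ y in nhds x, ∑ m ∈ range M, C y m = 1) :
    HasDerivAt (fun y => ent M (C y)) (-∑ m ∈ range M, C' m * Real.log (C x m)) x := by
  have hsum : ∑ m ∈ range M, C' m = 0 :=
    (HasDerivAt.fun_sum hd).unique ((hasDerivAt_const x (1 : ℝ)).congr_of_eventuallyEq ht)
  have h : ∀ m ∈ range M, HasDerivAt (fun y => Real.negMulLog (C y m))
      (-(C' m * Real.log (C x m)) - C' m) x := by
    intro m hm
    by_cases h0 : C x m = 0
    · have e := hz m hm h0
      have h' : C' m = 0 :=
        (hd m hm).unique ((hasDerivAt_const x (0 : ℝ)).congr_of_eventuallyEq e)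
      rw [h']
      refine ((hasDerivAt_const x (0 : ℝ)).congr_of_eventuallyEq (e.mono fun y hy => ?_)).congr_deriv
        (by simp)
      simp [hy]
    · have t : HasDerivAt (fun y => Real.negMulLog (C y m)) ((-Real.log (C x m) - 1) * C' m) x :=
        HasDerivAt.comp x (h₂ := Real.negMulLog) (h := fun y => C y m)
          (Real.hasDerivAt_negMulLog h0) (hd m hm)
      exact t.congr_deriv (by ring)
  have := HasDerivAt.fun_sum h
  rw [Finset.sum_sub_distrib, hsum, sub_zero, Finset.sum_neg_distrib] at this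
  exact this

lemma deriv_nonpos_of_min_left {f : ℝ → ℝ} {d x : ℝ} (hx : 0 < x) (hf : HasDerivAt f d x)
    (h : ∀ y ∈ Set.Icc 0 x, f x ≤ f y) : d ≤ 0 := by
  have t : Tendsto (slope f x) (nhdsWithin x (Set.Iio x)) (nhds d) :=
    hf.tendsto_slope.mono_left (nhdsWithin_mono _ fun y hy => ne_of_lt hy)
  refine le_of_tendsto t ?_
  filter_upwards [Ioo_mem_nhdsLT hx] with y hy
  rw [slope_def_field]
  exact div_nonpos_of_nonneg_of_nonpos (sub_nonneg.2 (h y ⟨hy.1.le, hy.2.le⟩))
    (sub_nonpos.2 hy.2.le)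

lemma continuous_bsProb (i j m : ℕ) : Continuous fun η => bsProb η i j m := by
  have key : ∀ i j m, Continuous fun y => (bsPoly y i j).coeff m := by
    intro i
    induction i with
    | zero => intro j m; simp only [bsPoly_coeff_left_zero]; fun_prop
    | succ i ih =>
      intro j m
      simp only [bsPoly_succ_left]
      cases m with
      | zero => simp only [coeff_lin_zero]; exact (Continuous.neg (by fun_prop)).mul (ih j 0)
      | succ m =>
        simp only [coeff_lin_succ]
        exact ((by fun_prop : Continuous fun y : ℝ => Real.sqrt y).mul (ih j m)).add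
          ((Continuous.neg (by fun_prop)).mul (ih j (m + 1)))
  simp only [bsProb_eq]
  exact continuous_const.mul ((key i j m).pow 2)

lemma bsProb_one (i j m : ℕ) : bsProb 1 i j m = if m = i then 1 else 0 := by
  rw [bsProb_eq]
  have : bsPoly 1 i j = Polynomial.X ^ i := by simp [bsPoly]
  rw [this, Polynomial.coeff_X_pow]
  split
  · subst m
    rw [Nat.add_sub_cancel_left, one_pow, mul_one, div_self]
    positivity
  · simp

lemma pC_one (hp : Passive N p) (hq : Passive N q) : pC N 1 p q = p := by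
  funext m
  unfold pC
  simp only [bsProb_one, mul_ite, mul_one, mul_zero]
  rw [Finset.sum_eq_single m]
  · simp [← Finset.mul_sum, hq.total]
  · intro i _ hi; simp [Ne.symm hi]
  · intro hm; simp [hp.supp m (by simpa using hm)]

lemma pC_zero (hp : Passive N p) (hq : Passive N q) : pC N 0 p q = q := by
  conv_rhs => rw [← pC_one hq hp]
  funext m
  rw [← pC_swap, sub_zero]

lemma pC_vac (h0 : 0 ≤ η) (h1 : η ≤ 1) (hN : 0 < N) : pC N η vac vac = vac := by
  rw [← thin_eq_pC h0 h1 hN]
  funext m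
  unfold thin
  rw [sum_mul_vac hN]
  cases m <;> simp [vac]

lemma sum_pC (h0 : 0 ≤ η) (h1 : η ≤ 1) (p q : ℕ → ℝ) :
    ∑ m ∈ range (2 * N), pC N η p q m = (∑ i ∈ range N, p i) * ∑ j ∈ range N, q j := by
  unfold pC
  rw [Finset.sum_comm, Finset.sum_mul_sum]
  refine Finset.sum_congr rfl fun i hi => ?_
  rw [Finset.sum_comm]
  refine Finset.sum_congr rfl fun j hj => ?_
  rw [← Finset.mul_sum]
  have h2 : 2 * N = (2 * N - 1) + 1 := by rw [mem_range] at hi; omega
  rw [h2, sum_bsProb h0 h1 i j _ (by rw [mem_range] at hi hj; omega), mul_one]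

lemma pC_neg_left (N : ℕ) (η : ℝ) (p q : ℕ → ℝ) (m : ℕ) :
    pC N η (fun i => -p i) q m = -pC N η p q m := by
  simp [pC, Finset.sum_neg_distrib]

lemma pC_const_left (N : ℕ) (η c : ℝ) (p q : ℕ → ℝ) (m : ℕ) :
    pC N η (fun i => c * p i) q m = c * pC N η p q m := by
  simp only [pC, Finset.mul_sum, mul_assoc]

end Vale.Agent.P369
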