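import Vale.Agent.P369.MDefs
import Vale.Agent.P369.Thin

open Finset Filter

noncomputable section

namespace Vale.Agent.P369

variable {n N : ℕ} {η s : ℝ} {P Q : (Fin n → ℕ) → ℝ}

/-- One photon-number entry of pure loss. -/
def binP (s : ℝ) (i m : ℕ) : ℝ := (i.choose m : ℝ) * s ^ m * (1 - s) ^ (i - m)

/-- Derivative of `binP` in `s`. -/
def binD (s : ℝ) (i m : ℕ) : ℝ :=
  (i.choose m : ℝ) * ((m : ℝ) * s ^ (m - 1) * (1 - s) ^ (i - m)
    - ((i - m : ℕ) : ℝ) * s ^ m * (1 - s) ^ (i - m - 1))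

/-- Pure loss of transmissivity `s` in every mode. -/
def thinN (N : ℕ) (s : ℝ) (P : (Fin n → ℕ) → ℝ) (m : Fin n → ℕ) : ℝ :=
  ∑ i ∈ box n N, P i * ∏ l, binP s (i l) (m l)

/-- Derivative of `thinN` in `s`. -/
def thinND (N : ℕ) (s : ℝ) (P : (Fin n → ℕ) → ℝ) (m : Fin n → ℕ) : ℝ :=
  ∑ i ∈ box n N, P i *
    ∑ l, (∏ l' ∈ Finset.univ.erase l, binP s (i l') (m l')) * binD s (i l) (m l)

lemma hasDerivAt_binP (s : ℝ) (i m : ℕ) : HasDerivAt (fun y => binP y i m) (binD s i m) s := by
  have h := hasDerivAt_thin (i + 1) s (fun k => if k = i then (1 : ℝ) else 0) m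
  simpa [thin, thinD, binP, binD] using h

lemma mul_binD (s : ℝ) (i m : ℕ) :
    s * binD s i m = -(((m : ℝ) + 1) * binP s i (m + 1) - (m : ℝ) * binP s i m) := by
  have h := mul_thinD (i + 1) s (fun k => if k = i then (1 : ℝ) else 0) m
  simpa [thin, thinD, binP, binD, gen] using h

lemma hasDerivAt_thinN (N : ℕ) (s : ℝ) (P : (Fin n → ℕ) → ℝ) (m : Fin n → ℕ) :
    HasDerivAt (fun y => thinN N y P m) (thinND N s P m) s := by
  refine HasDerivAt.fun_sum fun i _ => ?_
  refine HasDerivAt.const_mul (P i) ?_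
  have h := HasDerivAt.fun_finsetProd (u := Finset.univ)
    (f := fun (l : Fin n) y => binP y (i l) (m l)) (fun l _ => hasDerivAt_binP s (i l) (m l))
  simpa [smul_eq_mul] using h

lemma mul_thinND (N : ℕ) (s : ℝ) (P : (Fin n → ℕ) → ℝ) (m : Fin n → ℕ) :
    s * thinND N s P m = -∑ l, genN l (thinN N s P) m := by
  unfold thinND genN thinN
  simp only [Finset.mul_sum, ← Finset.sum_sub_distrib, ← Finset.sum_neg_distrib]
  rw [Finset.sum_comm]
  refine Finset.sum_congr rfl fun l _ => Finset.sum_congr rfl fun i _ => ?_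
  have e : ∀ m' : Fin n → ℕ, (∀ l', l' ≠ l → m' l' = m l') →
      ∏ l', binP s (i l') (m' l')
        = (∏ l' ∈ Finset.univ.erase l, binP s (i l') (m l')) * binP s (i l) (m' l) := by
    intro m' hm
    rw [← Finset.prod_erase_mul _ _ (Finset.mem_univ l)]
    congr 1
    exact Finset.prod_congr rfl fun l' hl' => by rw [hm l' (Finset.ne_of_mem_erase hl')]
  rw [e m fun _ _ => rfl, e (bump l m) fun l' hl' => bump_of_ne hl' m, bump_same]
  linear_combination (P i * ∏ l' ∈ Finset.univ.erase l, binP s (i l') (m l')) * mul_binD s (i l) (m l)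

lemma binP_eq_bsProb (h0 : 0 ≤ s) (h1 : s ≤ 1) (i m : ℕ) : binP s i m = bsProb s i 0 m := by
  rw [bsProb_right_zero h0 h1, binP]

lemma vacN_apply (k : Fin n → ℕ) : vacN k = if k = 0 then 1 else 0 := by
  unfold vacN prodDist vac
  by_cases h : k = 0
  · simp [h]
  · rw [if_neg h]
    obtain ⟨l, hl⟩ := Function.ne_iff.1 h
    exact Finset.prod_eq_zero (Finset.mem_univ l) (if_neg (by simpa using hl))

lemma zero_mem_box (hN : 0 < N) : (0 : Fin n → ℕ) ∈ box n N := mem_box.2 fun _ => hN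

lemma sum_box_vacN (hN : 0 < N) (F : (Fin n → ℕ) → ℝ) :
    ∑ k ∈ box n N, vacN k * F k = F 0 := by
  simp [vacN_apply, zero_mem_box hN]

lemma thinN_eq_pCN (h0 : 0 ≤ s) (h1 : s ≤ 1) (hN : 0 < N) (P : (Fin n → ℕ) → ℝ) :
    thinN N s P = pCN N s P vacN := by
  funext m
  unfold thinN pCN
  refine Finset.sum_congr rfl fun i _ => ?_
  simp only [mul_assoc, ← Finset.mul_sum, sum_box_vacN hN fun j => bsN s i j m]
  simp [bsN, binP_eq_bsProb h0 h1]

lemma sum_box_prod (M : ℕ) (F : Fin n → ℕ → ℝ) :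
    ∑ m ∈ box n M, ∏ l, F l (m l) = ∏ l, ∑ x ∈ range M, F l x :=
  (Finset.prod_univ_sum (fun _ : Fin n => range M) F).symm

lemma sum_binP {i M : ℕ} (h : i < M) (s : ℝ) : ∑ x ∈ range M, binP s i x = 1 := by
  rw [sum_range_extend (N := i + 1) h fun k hk => by
    rw [binP, Nat.choose_eq_zero_of_lt (by omega)]; simp]
  have e := add_pow s (1 - s) i
  rw [add_sub_cancel, one_pow] at e
  exact (Finset.sum_congr rfl fun x _ => by rw [binP]; ring).trans e.symm

lemma thinN_supp (N : ℕ) (s : ℝ) (P : (Fin n → ℕ) → ℝ) {m : Fin n → ℕ} (hm : m ∉ box n N) :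
    thinN N s P m = 0 := by
  rw [mem_box] at hm
  push Not at hm
  obtain ⟨l, hl⟩ := hm
  refine Finset.sum_eq_zero fun i hi => ?_
  rw [Finset.prod_eq_zero (Finset.mem_univ l), mul_zero]
  rw [binP, Nat.choose_eq_zero_of_lt (lt_of_lt_of_le (mem_box.1 hi l) hl)]
  simp

lemma thinN_total (h : PassiveN n N P) (s : ℝ) : ∑ m ∈ box n N, thinN N s P m = 1 := by
  unfold thinN
  rw [Finset.sum_comm]
  conv_rhs => rw [← h.total]
  refine Finset.sum_congr rfl fun i hi => ?_
  rw [← Finset.mul_sum, sum_box_prod N fun l x => binP s (i l) x,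
    Finset.prod_eq_one fun l _ => sum_binP (mem_box.1 hi l) s, mul_one]

lemma PassiveN.antitone (h : PassiveN n N P) {k m : Fin n → ℕ} (hkm : ∀ l, m l ≤ k l) :
    P k ≤ P m := by
  suffices ∀ d k, (∀ l, m l ≤ k l) → ∑ l, (k l - m l) = d → P k ≤ P m from this _ k hkm rfl
  intro d
  induction d with
  | zero =>
    intro k hk hd
    have : k = m := funext fun l => by
      have := (Finset.sum_eq_zero_iff.1 hd) l (Finset.mem_univ l)
      have := hk l
      omega
    rw [this]
  | succ d ih =>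
    intro k hk hd
    obtain ⟨l, hl⟩ : ∃ l, m l < k l := by
      by_contra hc
      push Not at hc
      rw [Finset.sum_eq_zero fun l _ => by have := hc l; omega] at hd
      omega
    set k' := Function.update k l (k l - 1) with hk'
    have hb : bump l k' = k := by
      funext j
      by_cases hj : j = l
      · subst hj; rw [bump_same, hk', Function.update_self]; omega
      · rw [bump_of_ne hj, hk', Function.update_of_ne hj]
    have hsum : ∑ j, (k' j - m j) = d := by
      rw [← Finset.sum_erase_add _ _ (Finset.mem_univ l)] at hd ⊢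
      rw [Finset.sum_congr rfl fun j hj => by
        rw [hk', Function.update_of_ne (Finset.ne_of_mem_erase hj)]]
      rw [hk', Function.update_self]
      omega
    rw [← hb]
    refine (h.anti k' l).trans (ih k' (fun j => ?_) hsum)
    by_cases hj : j = l
    · subst hj; rw [hk', Function.update_self]; omega
    · rw [hk', Function.update_of_ne hj]; exact hk j

lemma PassiveN.eq_zero_of_le (h : PassiveN n N P) {m k : Fin n → ℕ} (hm : P m = 0)
    (hk : ∀ l, m l ≤ k l) : P k = 0 :=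
  le_antisymm (hm ▸ h.antitone hk) (h.nonneg k)

lemma PassiveN.pos_N (h : PassiveN n N P) (hn : 0 < n) : 0 < N := by
  rcases Nat.eq_zero_or_pos N with h0 | h0
  · subst h0
    have := h.total
    have he : box n 0 = ∅ := Finset.eq_empty_of_forall_notMem fun k hk =>
      absurd (mem_box.1 hk ⟨0, hn⟩) (Nat.not_lt_zero _)
    simp [he] at this
  · exact h0

lemma vacN_passive (hN : 0 < N) : PassiveN n N (vacN : (Fin n → ℕ) → ℝ) := by
  refine ⟨fun k => ?_, fun k l => ?_, fun k hk => ?_, ?_⟩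
  · rw [vacN_apply]; split <;> norm_num
  · rw [vacN_apply, vacN_apply, if_neg]
    · split <;> norm_num
    · intro h
      have := congrFun h l
      rw [bump_same] at this
      simp at this
  · rw [vacN_apply, if_neg]
    rintro rfl
    exact hk (zero_mem_box hN)
  · simp [vacN_apply, zero_mem_box hN]

lemma entB_vacN (M : ℕ) : entB M (vacN : (Fin n → ℕ) → ℝ) = 0 := by
  refine Finset.sum_eq_zero fun k _ => ?_
  rw [vacN_apply]; split <;> simp

lemma entB_extend (h : ∀ k, k ∉ box n N → P k = 0) {M : ℕ} (hM : N ≤ M) :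
    entB M P = entB N P := by
  refine (Finset.sum_subset (fun k hk => mem_box.2 fun l => lt_of_lt_of_le (mem_box.1 hk l) hM)
    fun k _ hk => ?_).symm
  simp [h k hk]

lemma thinN_one (h : PassiveN n N P) : thinN N 1 P = P := by
  funext m
  unfold thinN
  rw [Finset.sum_eq_single m]
  · simp [binP]
  · intro i _ hi
    obtain ⟨l, hl⟩ := Function.ne_iff.1 hi
    rw [Finset.prod_eq_zero (Finset.mem_univ l), mul_zero]
    rcases lt_or_gt_of_ne hl with h' | h'
    · simp [binP, Nat.choose_eq_zero_of_lt h']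
    · simp [binP, Nat.sub_ne_zero_of_lt h']
  · intro hm; rw [h.supp m hm, zero_mul]

lemma thinN_zero (h : PassiveN n N P) : thinN N 0 P = vacN := by
  funext m
  rw [vacN_apply]
  unfold thinN
  split_ifs with hm
  · subst hm; simp [binP, h.total]
  · obtain ⟨l, hl⟩ := Function.ne_iff.1 hm
    refine Finset.sum_eq_zero fun i _ => ?_
    rw [Finset.prod_eq_zero (Finset.mem_univ l), mul_zero]
    simp [binP, zero_pow (show m l ≠ 0 from hl)]

lemma continuous_thinN (N : ℕ) (P : (Fin n → ℕ) → ℝ) (m : Fin n → ℕ) :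
    Continuous fun s => thinN N s P m := by
  unfold thinN binP; fun_prop

lemma continuous_bsN (i j m : Fin n → ℕ) : Continuous fun η => bsN η i j m :=
  continuous_finsetProd _ fun _ _ => continuous_bsProb _ _ _

lemma bsN_nonneg (η : ℝ) (i j m : Fin n → ℕ) : 0 ≤ bsN η i j m :=
  Finset.prod_nonneg fun _ _ => bsProb_nonneg _ _ _ _

lemma pCN_swap (N : ℕ) (η : ℝ) (P Q : (Fin n → ℕ) → ℝ) :
    pCN N (1 - η) Q P = pCN N η P Q := by
  funext m
  unfold pCN
  rw [Finset.sum_comm]
  exact Finset.sum_congr rfl fun i _ => Finset.sum_congr rfl fun j _ => by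
    unfold bsN; simp only [bsProb_swap]; ring

lemma pCN_one (hP : PassiveN n N P) (hQ : PassiveN n N Q) : pCN N 1 P Q = P := by
  funext m
  unfold pCN
  rw [Finset.sum_eq_single m]
  · simp [bsN, bsProb_one, ← Finset.mul_sum, hQ.total]
  · intro i _ hi
    obtain ⟨l, hl⟩ := Function.ne_iff.1 hi
    refine Finset.sum_eq_zero fun j _ => ?_
    rw [bsN, Finset.prod_eq_zero (Finset.mem_univ l), mul_zero]
    simp [bsProb_one, Ne.symm hl]
  · intro hm; simp [hP.supp m hm]

lemma pCN_zero (hP : PassiveN n N P) (hQ : PassiveN n N Q) : pCN N 0 P Q = Q := by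
  conv_rhs => rw [← pCN_one hQ hP]
  rw [← pCN_swap, sub_zero]

lemma pCN_vac (h0 : 0 ≤ η) (h1 : η ≤ 1) (hN : 0 < N) :
    pCN N η (vacN : (Fin n → ℕ) → ℝ) vacN = vacN := by
  rw [← thinN_eq_pCN h0 h1 hN]
  funext m
  unfold thinN
  rw [sum_box_vacN hN]
  by_cases hm : m = 0
  · subst hm; simp [binP, vacN_apply]
  · obtain ⟨l, hl⟩ := Function.ne_iff.1 hm
    rw [vacN_apply, if_neg hm, Finset.prod_eq_zero (Finset.mem_univ l)]
    simp [binP, Nat.choose_eq_zero_of_lt (Nat.pos_of_ne_zero hl)]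

lemma sum_pCN (h0 : 0 ≤ η) (h1 : η ≤ 1) (P Q : (Fin n → ℕ) → ℝ) :
    ∑ m ∈ box n (2 * N), pCN N η P Q m = (∑ i ∈ box n N, P i) * ∑ j ∈ box n N, Q j := by
  unfold pCN
  rw [Finset.sum_comm, Finset.sum_mul_sum]
  refine Finset.sum_congr rfl fun i hi => ?_
  rw [Finset.sum_comm]
  refine Finset.sum_congr rfl fun j hj => ?_
  rw [← Finset.mul_sum]
  unfold bsN
  rw [sum_box_prod (2 * N) fun l x => bsProb η (i l) (j l) x, Finset.prod_eq_one fun l _ => ?_,
    mul_one]
  have a := mem_box.1 hi l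
  have b := mem_box.1 hj l
  rw [show 2 * N = (2 * N - 1) + 1 by omega, sum_bsProb h0 h1 _ _ _ (by omega)]

lemma pCN_neg_left (N : ℕ) (η : ℝ) (P Q : (Fin n → ℕ) → ℝ) (m : Fin n → ℕ) :
    pCN N η (fun i => -P i) Q m = -pCN N η P Q m := by
  simp [pCN, Finset.sum_neg_distrib]

lemma pCN_const_left (N : ℕ) (η c : ℝ) (P Q : (Fin n → ℕ) → ℝ) (m : Fin n → ℕ) :
    pCN N η (fun i => c * P i) Q m = c * pCN N η P Q m := by
  simp only [pCN, Finset.mul_sum, mul_assoc]

lemma pCN_sum_left {ι : Type*} (t : Finset ι) (N : ℕ) (η : ℝ)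
    (P : ι → (Fin n → ℕ) → ℝ) (Q : (Fin n → ℕ) → ℝ) (m : Fin n → ℕ) :
    pCN N η (fun i => ∑ a ∈ t, P a i) Q m = ∑ a ∈ t, pCN N η (P a) Q m := by
  simp only [pCN, Finset.sum_mul]
  rw [Finset.sum_comm]
  refine (Finset.sum_congr rfl fun j _ => Finset.sum_comm).trans ?_
  rw [Finset.sum_comm]
  exact Finset.sum_congr rfl fun a _ => Finset.sum_comm

/-- Contribution of mode `l` to the derivative of the output in `η`. -/
def GDl (N : ℕ) (η : ℝ) (l : Fin n) (P Q : (Fin n → ℕ) → ℝ) (m : Fin n → ℕ) : ℝ :=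
  ∑ i ∈ box n N, ∑ j ∈ box n N, P i * Q j *
    ((∏ l' ∈ Finset.univ.erase l, bsProb η (i l') (j l') (m l'))
      * cf (i l) (j l) (GD η (m l)))

lemma pCN_hasDerivAt {x : ℝ} (h0 : 0 < x) (h1 : x < 1) (N : ℕ) (P Q : (Fin n → ℕ) → ℝ)
    (m : Fin n → ℕ) :
    HasDerivAt (fun y => pCN N y P Q m) (∑ l, GDl N x l P Q m) x := by
  have hb : ∀ a b c, HasDerivAt (fun y => bsProb y a b c) (cf a b (GD x c)) x := fun a b c => by
    have := HD_GS h0 h1 c a b
    simpa [cf_GS] using this
  have h : HasDerivAt (fun y => pCN N y P Q m)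
      (∑ i ∈ box n N, ∑ j ∈ box n N, P i * Q j *
        ∑ l, (∏ l' ∈ Finset.univ.erase l, bsProb x (i l') (j l') (m l'))
          * cf (i l) (j l) (GD x (m l))) x := by
    refine HasDerivAt.fun_sum fun i _ => HasDerivAt.fun_sum fun j _ => HasDerivAt.const_mul _ ?_
    have h := HasDerivAt.fun_finsetProd (u := Finset.univ)
      (f := fun (l : Fin n) y => bsProb y (i l) (j l) (m l)) (fun l _ => hb (i l) (j l) (m l))
    simpa [smul_eq_mul, bsN] using h
  refine h.congr_deriv ?_
  unfold GDl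
  simp only [Finset.mul_sum]
  rw [Finset.sum_comm (s := (Finset.univ : Finset (Fin n)))]
  exact Finset.sum_congr rfl fun i _ => Finset.sum_comm

lemma pCN_eq_zero_of (y : ℝ) (P Q : (Fin n → ℕ) → ℝ) {m : Fin n → ℕ}
    (h : ∀ i ∈ box n N, ∀ j ∈ box n N, (∀ l, m l ≤ i l + j l) → P i * Q j = 0) :
    pCN N y P Q m = 0 := by
  refine Finset.sum_eq_zero fun i hi => Finset.sum_eq_zero fun j hj => ?_
  by_cases hm : ∀ l, m l ≤ i l + j l
  · rw [h i hi j hj hm, zero_mul]
  · push Not at hm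
    obtain ⟨l, hl⟩ := hm
    rw [bsN, Finset.prod_eq_zero (Finset.mem_univ l) (bsProb_of_lt y hl), mul_zero]

/-- Entropy derivative along a curve of distributions on the box. -/
lemma hasDerivAt_entB {M : ℕ} {C : ℝ → (Fin n → ℕ) → ℝ} {C' : (Fin n → ℕ) → ℝ} {x : ℝ}
    (hd : ∀ m ∈ box n M, HasDerivAt (fun y => C y m) (C' m) x)
    (hz : ∀ m ∈ box n M, C x m = 0 → ∀ᶠ y in nhds x, C y m = 0)
    (ht : ∀ᶠ y in nhds x, ∑ m ∈ box n M, C y m = 1) :
    HasDerivAt (fun y => entB M (C y)) (-∑ m ∈ box n M, C' m * Real.log (C x m)) x := by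
  have hsum : ∑ m ∈ box n M, C' m = 0 :=
    (HasDerivAt.fun_sum hd).unique ((hasDerivAt_const x (1 : ℝ)).congr_of_eventuallyEq ht)
  have h : ∀ m ∈ box n M, HasDerivAt (fun y => Real.negMulLog (C y m))
      (-(C' m * Real.log (C x m)) - C' m) x := by
    intro m hm
    by_cases h0 : C x m = 0
    · have e := hz m hm h0
      have h' : C' m = 0 :=
        (hd m hm).unique ((hasDerivAt_const x (0 : ℝ)).congr_of_eventuallyEq e)
      rw [h']
      refine ((hasDerivAt_const x (0 : ℝ)).congr_of_eventuallyEq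
        (e.mono fun y hy => ?_)).congr_deriv (by simp)
      simp [hy]
    · have t : HasDerivAt (fun y => Real.negMulLog (C y m)) ((-Real.log (C x m) - 1) * C' m) x :=
        HasDerivAt.comp x (h₂ := Real.negMulLog) (h := fun y => C y m)
          (Real.hasDerivAt_negMulLog h0) (hd m hm)
      exact t.congr_deriv (by ring)
  have := HasDerivAt.fun_sum h
  rw [Finset.sum_sub_distrib, hsum, sub_zero, Finset.sum_neg_distrib] at this
  exact this

lemma erase_insertNth {n : ℕ} (f : ℕ → ℕ → ℕ → ℝ) (l : Fin (n + 1)) (x y z : ℕ)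
    (i j m : Fin n → ℕ) :
    ∏ l' ∈ Finset.univ.erase l, f (Fin.insertNth (α := fun _ => ℕ) l x i l')
        (Fin.insertNth (α := fun _ => ℕ) l y j l') (Fin.insertNth (α := fun _ => ℕ) l z m l')
      = ∏ a, f (i a) (j a) (m a) := by
  have h : Finset.univ.erase l = Finset.univ.map ⟨l.succAbove, Fin.succAbove_right_injective⟩ := by
    ext a
    simp only [Finset.mem_erase, Finset.mem_univ, and_true, Finset.mem_map, true_and,
      Function.Embedding.coeFn_mk]
    exact ⟨fun h => Fin.exists_succAbove_eq h, fun ⟨b, hb⟩ => hb ▸ Fin.succAbove_ne l b⟩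
  rw [h, Finset.prod_map]
  simp

/-- Loss in mode `l` of the first input. -/
lemma pairN_gen_left {n : ℕ} {P Q : (Fin (n + 1) → ℕ) → ℝ} (h0 : 0 ≤ η) (h1 : η ≤ 1)
    (hP : PassiveN (n + 1) N P) (l : Fin (n + 1)) (m : Fin (n + 1) → ℕ) :
    pCN N η (genN l P) Q m
      = η * genN l (pCN N η P Q) m - η * (1 - η) * GDl N η l P Q m := by
  obtain ⟨z, m', rfl⟩ : ∃ z m', Fin.insertNth l z m' = m :=
    ⟨m l, l.removeNth m, by simp⟩
  have e1 : pCN N η (genN l P) Q (Fin.insertNth l z m')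
      = ∑ i ∈ box n N, ∑ j ∈ box n N, bsN η i j m' * pC N η (gen (fib l P i)) (fib l Q j) z := by
    have := fib_pCN N η l (genN l P) Q m' z
    simp only [fib_genN] at this
    exact this
  have e2 : genN l (pCN N η P Q) (Fin.insertNth l z m')
      = ∑ i ∈ box n N, ∑ j ∈ box n N, bsN η i j m' * gen (pC N η (fib l P i) (fib l Q j)) z := by
    have := congrFun (fib_genN l (pCN N η P Q) m') z
    simp only [fib] at this
    rw [this]
    simp only [gen]
    rw [fib_pCN, fib_pCN]
    simp only [Finset.mul_sum, ← Finset.sum_sub_distrib]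
    exact Finset.sum_congr rfl fun i _ => Finset.sum_congr rfl fun j _ => by ring
  have e3 : GDl N η l P Q (Fin.insertNth l z m')
      = ∑ i ∈ box n N, ∑ j ∈ box n N, bsN η i j m' * pair N (fib l P i) (fib l Q j) (GD η z) := by
    unfold GDl
    rw [sum_box_split N l]
    refine Finset.sum_congr rfl fun i _ => ?_
    simp only [sum_box_split N l (fun b => P _ * Q b * (_ * cf _ (b l) _))]
    rw [Finset.sum_comm]
    refine Finset.sum_congr rfl fun j _ => ?_
    simp only [pair, Finset.mul_sum, fib, bsN, Fin.insertNth_apply_same,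
      erase_insertNth (fun a b c => bsProb η a b c)]
    exact Finset.sum_congr rfl fun x _ => Finset.sum_congr rfl fun y _ => by ring
  rw [e1, e2, e3]
  simp only [Finset.mul_sum, ← Finset.sum_sub_distrib]
  refine Finset.sum_congr rfl fun i _ => Finset.sum_congr rfl fun j _ => ?_
  rw [pair_gen_left h0 h1 fun x hx => fib_supp hP l i hx]
  ring

end Vale.Agent.P369
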