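import Vale.Agent.P369.Min

open Finset Matrix

noncomputable section

namespace Vale.Agent.P369

variable {N : ℕ} {η : ℝ} {p q : ℕ → ℝ}

/-- Fock-basis matrix element `⟨k, e| U_η |i, j⟩` of the beam splitter. -/
def bsMat (η : ℝ) (k e i j : ℕ) : ℝ := if k + e = i + j then bsAmp η i j k else 0

/-- Fock-basis matrix of `tr_b U_η (ρA ⊗ ρB) U_η†` for inputs supported below `N` photons. -/
def outState (N : ℕ) (η : ℝ) (ρA ρB : Matrix (Fin N) (Fin N) ℝ) :
    Matrix (Fin (2 * N)) (Fin (2 * N)) ℝ := fun k k' =>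
  ∑ e : Fin (2 * N), ∑ i : Fin N, ∑ i' : Fin N, ∑ j : Fin N, ∑ j' : Fin N,
    bsMat η k e i j * ρA i i' * ρB j j' * bsMat η k' e i' j'

/-- Von Neumann entropy: `∑ negMulLog` over the eigenvalues, with multiplicity. -/
def vnEntropy {M : ℕ} (ρ : Matrix (Fin M) (Fin M) ℝ) : ℝ :=
  (ρ.charpoly.roots.map Real.negMulLog).sum

/-- Entropy photon number of a one-mode state. -/
def photonNumber {M : ℕ} (ρ : Matrix (Fin M) (Fin M) ℝ) : ℝ :=
  Function.invFunOn (fun t : ℝ => (t + 1) * Real.log (t + 1) - t * Real.log t)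
    (Set.Ici 0) (vnEntropy ρ)

lemma photonNumber_eq {M : ℕ} (ρ : Matrix (Fin M) (Fin M) ℝ) :
    photonNumber ρ = ginv (vnEntropy ρ) := rfl

lemma vnEntropy_diagonal {M : ℕ} (p : ℕ → ℝ) :
    vnEntropy (Matrix.diagonal fun k : Fin M => p k) = ent M p := by
  unfold vnEntropy ent
  rw [Matrix.charpoly_diagonal,
    Polynomial.roots_prod _ _ (by
      rw [Finset.prod_ne_zero_iff]; exact fun i _ => Polynomial.X_sub_C_ne_zero _)]
  simp only [Polynomial.roots_X_sub_C, Multiset.bind_singleton, Multiset.map_map]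
  exact Fin.sum_univ_eq_sum_range (fun k => Real.negMulLog (p k)) M

lemma outState_diagonal (η : ℝ) (p q : ℕ → ℝ) :
    outState N η (Matrix.diagonal fun i : Fin N => p i) (Matrix.diagonal fun j : Fin N => q j)
      = Matrix.diagonal fun k : Fin (2 * N) => pC N η p q k := by
  ext k k'
  have e0 : outState N η (Matrix.diagonal fun i : Fin N => p i)
      (Matrix.diagonal fun j : Fin N => q j) k k'
      = ∑ i : Fin N, ∑ j : Fin N, ∑ e : Fin (2 * N),
        p i * q j * (bsMat η k e i j * bsMat η k' e i j) := by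
    simp only [outState, Matrix.diagonal_apply, mul_ite, ite_mul, mul_zero, zero_mul,
      Finset.sum_ite_eq, Finset.mem_univ, if_true, Finset.sum_ite_irrel, Finset.sum_const_zero]
    rw [Finset.sum_comm]
    refine Finset.sum_congr rfl fun i _ => ?_
    rw [Finset.sum_comm]
    exact Finset.sum_congr rfl fun j _ => Finset.sum_congr rfl fun e _ => by ring
  rw [e0]
  by_cases h : k = k'
  · subst h
    rw [Matrix.diagonal_apply_eq, pC,
      ← Fin.sum_univ_eq_sum_range (fun i => ∑ j ∈ range N, p i * q j * bsProb η i j k) N]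
    refine Finset.sum_congr rfl fun i _ => ?_
    rw [← Fin.sum_univ_eq_sum_range (fun j => p i * q j * bsProb η i j k) N]
    refine Finset.sum_congr rfl fun j _ => ?_
    rw [← Finset.mul_sum]
    congr 1
    rcases lt_or_ge ((i : ℕ) + j) k with hl | hl
    · rw [bsProb_of_lt η hl]
      exact Finset.sum_eq_zero fun e _ => by
        rw [bsMat, if_neg (by omega), zero_mul]
    · rw [Finset.sum_eq_single (⟨(i : ℕ) + j - k, by omega⟩ : Fin (2 * N))]
      · rw [bsMat, if_pos (show (k : ℕ) + ((i : ℕ) + j - k) = i + j by omega), bsProb, sq]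
      · intro e _ he
        rw [bsMat, if_neg fun he' => he (Fin.ext (show (e : ℕ) = (i : ℕ) + j - k by omega)),
          zero_mul]
      · simp
  · rw [Matrix.diagonal_apply_ne _ h]
    refine Finset.sum_eq_zero fun i _ => Finset.sum_eq_zero fun j _ =>
      Finset.sum_eq_zero fun e _ => ?_
    have : (k : ℕ) ≠ k' := fun he => h (Fin.ext he)
    unfold bsMat
    split_ifs <;> first | omega | simp

lemma out_nonneg (hp : Passive N p) (hq : Passive N q) (η : ℝ) (m : ℕ) : 0 ≤ pC N η p q m :=
  Finset.sum_nonneg fun i _ => Finset.sum_nonneg fun j _ =>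
    mul_nonneg (mul_nonneg (hp.nonneg i) (hq.nonneg j)) (bsProb_nonneg _ _ _ _)

lemma ent_out_nonneg (h0 : 0 ≤ η) (h1 : η ≤ 1) (hp : Passive N p) (hq : Passive N q) :
    0 ≤ ent (2 * N) (pC N η p q) := by
  refine Finset.sum_nonneg fun m hm => Real.negMulLog_nonneg (out_nonneg hp hq η m) ?_
  have h := Finset.single_le_sum (f := pC N η p q) (fun k _ => out_nonneg hp hq η k) hm
  rwa [sum_pC h0 h1, hp.total, hq.total, one_mul] at h

/-- One-mode EPnI for passive inputs, in density-matrix form. -/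
theorem epni_matrix (h0 : 0 ≤ η) (h1 : η ≤ 1) (x y : Fin N → ℝ)
    (hx : ∀ i, 0 ≤ x i) (hy : ∀ i, 0 ≤ y i) (hx' : Antitone x) (hy' : Antitone y)
    (sx : ∑ i, x i = 1) (sy : ∑ i, y i = 1) :
    η * photonNumber (Matrix.diagonal x) + (1 - η) * photonNumber (Matrix.diagonal y)
      ≤ photonNumber (outState N η (Matrix.diagonal x) (Matrix.diagonal y)) := by
  let ext : (Fin N → ℝ) → ℕ → ℝ := fun z k => if h : k < N then z ⟨k, h⟩ else 0
  have hext : ∀ z : Fin N → ℝ, (∀ i, 0 ≤ z i) → Antitone z → ∑ i, z i = 1 →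
      Passive N (ext z) := by
    intro z hz hz' hs
    refine ⟨fun k => ?_, fun k => ?_, fun k hk => dif_neg (not_lt.2 hk), ?_⟩
    · simp only [ext]; split
      · exact hz _
      · exact le_rfl
    · simp only [ext]
      by_cases h : k + 1 < N
      · rw [dif_pos h, dif_pos (show k < N by omega)]
        exact hz' (show k ≤ k + 1 by omega)
      · rw [dif_neg h]; split
        · exact hz _
        · exact le_rfl
    · rw [← hs, ← Fin.sum_univ_eq_sum_range (ext z) N]
      exact Finset.sum_congr rfl fun i _ => dif_pos i.isLt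
  have ex : ∀ z : Fin N → ℝ, (fun i : Fin N => ext z i) = z := fun z =>
    funext fun i => dif_pos i.isLt
  have hp := hext x hx hx' sx
  have hq := hext y hy hy' sy
  have key := epni_passive hp hq h0 h1
  have hC := ent_out_nonneg h0 h1 hp hq
  rw [← ex x, ← ex y, outState_diagonal]
  simp only [photonNumber_eq, vnEntropy_diagonal]
  have hA := ginv_nonneg (ent_nonneg hp)
  have hB := ginv_nonneg (ent_nonneg hq)
  have ht : 0 ≤ η * ginv (ent N (ext x)) + (1 - η) * ginv (ent N (ext y)) :=
    add_nonneg (mul_nonneg h0 hA) (mul_nonneg (sub_nonneg.2 h1) hB)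
  by_contra hlt
  push Not at hlt
  have := strictMonoOn_gFun (ginv_nonneg hC) ht hlt
  rw [gFun_ginv hC] at this
  linarith

end Vale.Agent.P369
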