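import Vale.Agent.P369.Ent

/-! Aggregation over modes: `(x, y) ↦ g (η g⁻¹ x + (1 - η) g⁻¹ y)` is convex. -/

open Real Set Filter Topology

noncomputable section

namespace Vale.Agent.P369

/-- `KK a = a (1 + a) phi a`, the ratio of `phi` to minus its derivative. -/
def KK (a : ℝ) : ℝ := a * (1 + a) * phi a

/-- The output entropy as a function of the input entropies. -/
def mixH (η x y : ℝ) : ℝ := gFun (η * ginv x + (1 - η) * ginv y)

lemma log_one_add_le_half {x : ℝ} (hx : 0 ≤ x) :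
    Real.log (1 + x) ≤ ((1 + x) - 1 / (1 + x)) / 2 := by
  have hd : ∀ y : ℝ, 0 ≤ y → HasDerivAt (fun t => ((1 + t) - 1 / (1 + t)) / 2 - Real.log (1 + t))
      (y ^ 2 / (2 * (1 + y) ^ 2)) y := by
    intro y hy
    have h0 : HasDerivAt (fun t : ℝ => 1 + t) 1 y := (hasDerivAt_id y).const_add 1
    have h1 : HasDerivAt (fun t : ℝ => Real.log (1 + t)) (1 / (1 + y)) y := h0.log (by linarith)
    have h2 := ((h0.sub ((hasDerivAt_const y (1:ℝ)).div h0 (by linarith))).div_const 2).sub h1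
    refine h2.congr_deriv ?_
    have : (1 + y) ≠ 0 := by linarith
    field_simp
    ring
  have hm : MonotoneOn (fun t => ((1 + t) - 1 / (1 + t)) / 2 - Real.log (1 + t)) (Ici (0:ℝ)) := by
    apply monotoneOn_of_deriv_nonneg (convex_Ici 0)
    · exact fun y hy => (hd y hy).continuousAt.continuousWithinAt
    · intro y hy
      rw [interior_Ici] at hy
      exact (hd y hy.le).differentiableAt.differentiableWithinAt
    · intro y hy
      rw [interior_Ici] at hy
      rw [(hd y hy.le).deriv]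
      positivity
  have := hm self_mem_Ici hx hx
  simp at this
  simpa using this

lemma KK_pos {a : ℝ} (ha : 0 < a) : 0 < KK a :=
  mul_pos (mul_pos ha (by linarith)) (phi_pos ha)

lemma hasDerivAt_KK {a : ℝ} (ha : 0 < a) : HasDerivAt KK ((1 + 2 * a) * phi a - 1) a := by
  refine (((hasDerivAt_id a).mul ((hasDerivAt_id a).const_add 1)).mul
    (hasDerivAt_phi ha)).congr_deriv ?_
  simp only [id_eq, Pi.mul_apply]
  field_simp
  ring

lemma concaveOn_KK : ConcaveOn ℝ (Ioi 0) KK := by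
  refine concaveOn_of_hasDerivWithinAt2_nonpos (convex_Ioi 0)
    (f' := fun a => (1 + 2 * a) * phi a - 1)
    (f'' := fun a => 2 * phi a + (1 + 2 * a) * (-1 / (a * (a + 1)))) ?_ ?_ ?_ ?_
  · exact fun a ha => (hasDerivAt_KK ha).continuousAt.continuousWithinAt
  · intro a ha
    rw [interior_Ioi] at ha
    exact (hasDerivAt_KK ha).hasDerivWithinAt
  · intro a ha
    rw [interior_Ioi] at ha
    have h : HasDerivAt (fun a : ℝ => 1 + 2 * a) 2 a := by
      simpa using ((hasDerivAt_id a).const_mul 2).const_add 1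
    exact ((h.mul (hasDerivAt_phi ha)).sub_const 1).hasDerivWithinAt
  · intro a ha
    rw [interior_Ioi] at ha
    have ha' : (0:ℝ) < a := ha
    have h := log_one_add_le_half (x := 1 / a) (by positivity)
    rw [← phi_eq_log ha'] at h
    have e : ((1 + 1 / a) - 1 / (1 + 1 / a)) / 2 = (1 + 2 * a) / (2 * (a * (a + 1))) := by
      field_simp; ring
    rw [e] at h
    have e2 : (1 + 2 * a) * (-1 / (a * (a + 1))) = -(2 * ((1 + 2 * a) / (2 * (a * (a + 1))))) := by
      field_simp
    rw [e2]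
    linarith

lemma mix_pos {η A B : ℝ} (h0 : 0 ≤ η) (h1 : η ≤ 1) (hA : 0 < A) (hB : 0 < B) :
    0 < η * A + (1 - η) * B := by
  rcases h1.lt_or_eq with h | h
  · have := mul_pos (sub_pos.2 h) hB
    have := mul_nonneg h0 hA.le
    linarith
  · subst h; simpa using hA

lemma mixH_curvature {η A B u v : ℝ} (h0 : 0 ≤ η) (h1 : η ≤ 1) (hA : 0 < A) (hB : 0 < B) :
    0 ≤ -1 / ((η * A + (1 - η) * B) * ((η * A + (1 - η) * B) + 1))
          * (η * (u / phi A) + (1 - η) * (v / phi B)) ^ 2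
        + phi (η * A + (1 - η) * B) *
          (η * ((u / phi A) ^ 2 / KK A) + (1 - η) * ((v / phi B) ^ 2 / KK B)) := by
  set T := η * A + (1 - η) * B with hTdef
  have hT : 0 < T := mix_pos h0 h1 hA hB
  set α := u / phi A
  set β := v / phi B
  have kA := KK_pos hA
  have kB := KK_pos hB
  have hη' : 0 ≤ 1 - η := by linarith
  set S := η * (α ^ 2 / KK A) + (1 - η) * (β ^ 2 / KK B) with hS
  have hS0 : 0 ≤ S := by
    have := div_nonneg (sq_nonneg α) kA.le
    have := div_nonneg (sq_nonneg β) kB.le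
    positivity
  have hconc : η * KK A + (1 - η) * KK B ≤ KK T := by
    have h := concaveOn_KK.2 (mem_Ioi.2 hA) (mem_Ioi.2 hB) h0 hη' (by ring)
    simpa only [smul_eq_mul] using h
  have hcs : (η * α + (1 - η) * β) ^ 2 ≤ (η * KK A + (1 - η) * KK B) * S := by
    have e : (η * KK A + (1 - η) * KK B) * S - (η * α + (1 - η) * β) ^ 2
        = η * (1 - η) * (α * KK B - β * KK A) ^ 2 / (KK A * KK B) := by
      rw [hS]; field_simp; ring
    have : 0 ≤ η * (1 - η) * (α * KK B - β * KK A) ^ 2 / (KK A * KK B) := by positivity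
    linarith
  have hle : (η * α + (1 - η) * β) ^ 2 ≤ KK T * S :=
    hcs.trans (mul_le_mul_of_nonneg_right hconc hS0)
  have e : -1 / (T * (T + 1)) * (η * α + (1 - η) * β) ^ 2 + phi T * S
      = (KK T * S - (η * α + (1 - η) * β) ^ 2) / (T * (T + 1)) := by
    unfold KK; field_simp; ring
  rw [e]
  exact div_nonneg (by linarith) (by positivity)

lemma mixH_segment {η x0 x1 y0 y1 a b : ℝ} (h0 : 0 ≤ η) (h1 : η ≤ 1) (hx0 : 0 < x0) (hx1 : 0 < x1)
    (hy0 : 0 < y0) (hy1 : 0 < y1) (ha : 0 ≤ a) (hb : 0 ≤ b) (hab : a + b = 1) :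
    mixH η (a * x0 + b * x1) (a * y0 + b * y1) ≤ a * mixH η x0 y0 + b * mixH η x1 y1 := by
  set u := x1 - x0 with hu
  set v := y1 - y0 with hv
  have hx : ∀ t ∈ Icc (0:ℝ) 1, 0 < x0 + t * u := by
    intro t ht
    rw [show x0 + t * u = (1 - t) * x0 + (1 - (1 - t)) * x1 by rw [hu]; ring]
    exact mix_pos (by linarith [ht.2]) (by linarith [ht.1]) hx0 hx1
  have hy : ∀ t ∈ Icc (0:ℝ) 1, 0 < y0 + t * v := by
    intro t ht
    rw [show y0 + t * v = (1 - t) * y0 + (1 - (1 - t)) * y1 by rw [hv]; ring]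
    exact mix_pos (by linarith [ht.2]) (by linarith [ht.1]) hy0 hy1
  set A : ℝ → ℝ := fun t => ginv (x0 + t * u) with hAdef
  set B : ℝ → ℝ := fun t => ginv (y0 + t * v) with hBdef
  have hA : ∀ t ∈ Icc (0:ℝ) 1, HasDerivAt A (u / phi (A t)) t := by
    intro t ht
    have h : HasDerivAt (fun t => x0 + t * u) u t := by
      simpa using ((hasDerivAt_id t).mul_const u).const_add x0
    refine ((hasDerivAt_ginv (hx t ht)).comp t h).congr_deriv ?_
    simp only [hAdef]; ring
  have hB : ∀ t ∈ Icc (0:ℝ) 1, HasDerivAt B (v / phi (B t)) t := by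
    intro t ht
    have h : HasDerivAt (fun t => y0 + t * v) v t := by
      simpa using ((hasDerivAt_id t).mul_const v).const_add y0
    refine ((hasDerivAt_ginv (hy t ht)).comp t h).congr_deriv ?_
    simp only [hBdef]; ring
  have hT : ∀ t ∈ Icc (0:ℝ) 1, HasDerivAt (fun t => η * A t + (1 - η) * B t)
      (η * (u / phi (A t)) + (1 - η) * (v / phi (B t))) t := fun t ht =>
    ((hA t ht).const_mul η).add ((hB t ht).const_mul (1 - η))
  have hpA : ∀ t ∈ Icc (0:ℝ) 1, 0 < A t := fun t ht => ginv_pos (hx t ht)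
  have hpB : ∀ t ∈ Icc (0:ℝ) 1, 0 < B t := fun t ht => ginv_pos (hy t ht)
  have hf : ∀ t ∈ Icc (0:ℝ) 1, HasDerivAt (fun t => gFun (η * A t + (1 - η) * B t))
      (phi (η * A t + (1 - η) * B t) * (η * (u / phi (A t)) + (1 - η) * (v / phi (B t)))) t :=
    fun t ht => by
      have h := hasDerivAt_gFun (mix_pos h0 h1 (hpA t ht) (hpB t ht))
      exact HasDerivAt.comp t h (hT t ht)
  have hconv : ConvexOn ℝ (Icc (0:ℝ) 1) (fun t => gFun (η * A t + (1 - η) * B t)) := by
    refine convexOn_of_hasDerivWithinAt2_nonneg (convex_Icc 0 1)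
      (f' := fun t => phi (η * A t + (1 - η) * B t) *
        (η * (u / phi (A t)) + (1 - η) * (v / phi (B t))))
      (f'' := fun t => -1 / ((η * A t + (1 - η) * B t) * ((η * A t + (1 - η) * B t) + 1))
          * (η * (u / phi (A t)) + (1 - η) * (v / phi (B t))) ^ 2
        + phi (η * A t + (1 - η) * B t) *
          (η * ((u / phi (A t)) ^ 2 / KK (A t)) + (1 - η) * ((v / phi (B t)) ^ 2 / KK (B t)))) ?_ ?_ ?_ ?_
    · exact fun t ht => (hf t ht).continuousAt.continuousWithinAt
    · exact fun t ht => (hf t (interior_subset ht)).hasDerivWithinAt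
    · intro t ht
      have ht' := interior_subset ht
      have pA := phi_pos (hpA t ht')
      have pB := phi_pos (hpB t ht')
      have eA := hpA t ht'
      have eB := hpB t ht'
      have dA := ((hasDerivAt_const t u).div
        ((hasDerivAt_phi eA).comp t (hA t ht')) pA.ne')
      have dB := ((hasDerivAt_const t v).div
        ((hasDerivAt_phi eB).comp t (hB t ht')) pB.ne')
      have d := (((hasDerivAt_phi (mix_pos h0 h1 eA eB)).comp t (hT t ht')).mul
        ((dA.const_mul η).add (dB.const_mul (1 - η))))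
      refine HasDerivAt.hasDerivWithinAt (d.congr_deriv ?_)
      simp only [Function.comp_apply, Pi.div_apply, Pi.add_apply]
      unfold KK
      field_simp
      ring
    · intro t ht
      exact mixH_curvature h0 h1 (hpA t (interior_subset ht)) (hpB t (interior_subset ht))
  have h := hconv.2 (left_mem_Icc.2 zero_le_one) (right_mem_Icc.2 zero_le_one) ha hb hab
  have ea : a = 1 - b := by linarith
  simp only [smul_eq_mul, mul_zero, mul_one, zero_add, hAdef, hBdef, one_mul, zero_mul,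
    add_zero] at h
  unfold mixH
  rw [show a * x0 + b * x1 = x0 + b * u by rw [hu, ea]; ring,
    show a * y0 + b * y1 = y0 + b * v by rw [hv, ea]; ring]
  rw [show x0 + u = x1 by rw [hu]; ring, show y0 + v = y1 by rw [hv]; ring] at h
  exact h

lemma continuousWithinAt_mixH {η x y : ℝ} (h0 : 0 ≤ η) (h1 : η ≤ 1) (hx : 0 ≤ x) (hy : 0 ≤ y) :
    Tendsto (fun ε => mixH η (x + ε) (y + ε)) (𝓝[>] 0) (𝓝 (mixH η x y)) := by
  have hg : ∀ z, 0 ≤ z → Tendsto (fun ε => ginv (z + ε)) (𝓝[>] 0) (𝓝 (ginv z)) := by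
    intro z hz
    refine (continuousOn_ginv z hz).tendsto.comp (tendsto_nhdsWithin_iff.2 ⟨?_, ?_⟩)
    · have : Tendsto (fun ε : ℝ => z + ε) (𝓝 0) (𝓝 (z + 0)) := tendsto_const_nhds.add tendsto_id
      rw [add_zero] at this
      exact this.mono_left nhdsWithin_le_nhds
    · filter_upwards [self_mem_nhdsWithin] with ε hε
      exact mem_Ici.2 (by linarith [mem_Ioi.1 hε])
  have hT : 0 ≤ η * ginv x + (1 - η) * ginv y :=
    add_nonneg (mul_nonneg h0 (ginv_nonneg hx)) (mul_nonneg (by linarith) (ginv_nonneg hy))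
  refine (continuousOn_gFun _ hT).tendsto.comp (tendsto_nhdsWithin_iff.2 ⟨?_, ?_⟩)
  · exact ((hg x hx).const_mul η).add ((hg y hy).const_mul (1 - η))
  · filter_upwards [self_mem_nhdsWithin] with ε hε
    have hε' : (0:ℝ) < ε := hε
    exact mem_Ici.2 (add_nonneg (mul_nonneg h0 (ginv_nonneg (by linarith)))
      (mul_nonneg (by linarith) (ginv_nonneg (by linarith))))

lemma convexOn_mixH {η : ℝ} (h0 : 0 ≤ η) (h1 : η ≤ 1) :
    ConvexOn ℝ (Ici (0:ℝ) ×ˢ Ici (0:ℝ)) (fun p => mixH η p.1 p.2) := by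
  refine ⟨(convex_Ici 0).prod (convex_Ici 0), ?_⟩
  intro p hp q hq a b ha hb hab
  obtain ⟨hp1, hp2⟩ := mem_prod.1 hp
  obtain ⟨hq1, hq2⟩ := mem_prod.1 hq
  rw [mem_Ici] at hp1 hp2 hq1 hq2
  simp only [Prod.fst_add, Prod.snd_add, Prod.smul_fst, Prod.smul_snd, smul_eq_mul]
  refine le_of_tendsto_of_tendsto (b := 𝓝[>] (0:ℝ))
    (continuousWithinAt_mixH h0 h1 (by positivity) (by positivity))
    (((continuousWithinAt_mixH h0 h1 hp1 hp2).const_mul a).add
      ((continuousWithinAt_mixH h0 h1 hq1 hq2).const_mul b)) ?_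
  filter_upwards [self_mem_nhdsWithin] with ε hε
  have hε' : (0:ℝ) < ε := hε
  have h := mixH_segment h0 h1 (x0 := p.1 + ε) (x1 := q.1 + ε) (y0 := p.2 + ε) (y1 := q.2 + ε)
    (by linarith) (by linarith) (by linarith) (by linarith) ha hb hab
  rw [show a * (p.1 + ε) + b * (q.1 + ε) = a * p.1 + b * q.1 + ε by linear_combination ε * hab,
    show a * (p.2 + ε) + b * (q.2 + ε) = a * p.2 + b * q.2 + ε by linear_combination ε * hab] at h
  exact h

/-- Aggregation over modes: the one-mode inequality adds up. -/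
theorem mix_mean {ι : Type*} (s : Finset ι) (hs : s.Nonempty) (a b : ι → ℝ) {η : ℝ} (h0 : 0 ≤ η)
    (h1 : η ≤ 1) (ha : ∀ i ∈ s, 0 ≤ a i) (hb : ∀ i ∈ s, 0 ≤ b i) :
    (s.card : ℝ) * gFun (η * ginv ((∑ i ∈ s, gFun (a i)) / s.card)
        + (1 - η) * ginv ((∑ i ∈ s, gFun (b i)) / s.card))
      ≤ ∑ i ∈ s, gFun (η * a i + (1 - η) * b i) := by
  have hc : (0:ℝ) < s.card := by exact_mod_cast hs.card_pos
  have h := (convexOn_mixH h0 h1).map_sum_le (t := s) (w := fun _ => (1:ℝ) / s.card)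
    (p := fun i => (gFun (a i), gFun (b i))) (fun _ _ => by positivity)
    (by rw [Finset.sum_const, nsmul_eq_mul]; field_simp)
    (fun i hi => mem_prod.2 ⟨gFun_nonneg (ha i hi), gFun_nonneg (hb i hi)⟩)
  simp only [Prod.fst_sum, Prod.snd_sum, Prod.smul_fst, Prod.smul_snd, smul_eq_mul,
    one_div_mul_eq_div, ← Finset.sum_div] at h
  unfold mixH at h
  rw [le_div_iff₀ hc, mul_comm] at h
  refine h.trans_eq (Finset.sum_congr rfl fun i hi => ?_)
  rw [ginv_gFun (ha i hi), ginv_gFun (hb i hi)]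

end Vale.Agent.P369
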