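import Vale.Agent.P369.Model

open Finset

noncomputable section

namespace Vale.Agent.P369

/-- Fock-diagonal entries of a product state. -/
def prodDist {n : ℕ} (p : Fin n → ℕ → ℝ) (k : Fin n → ℕ) : ℝ := ∏ l, p l (k l)

/-- Shannon entropy of the Fock-basis distribution of a diagonal `n`-mode state. -/
def entN {n : ℕ} (P : (Fin n → ℕ) → ℝ) : ℝ := ∑' k, Real.negMulLog (P k)

/-- Fock matrix element `⟨k| tr_b U_η (ρA ⊗ ρB) U_η† |k'⟩` for Fock-diagonal `n`-mode inputs. -/
def outN {n : ℕ} (η : ℝ) (P Q : (Fin n → ℕ) → ℝ) (k k' : Fin n → ℕ) : ℝ :=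
  ∑' x : (Fin n → ℕ) × (Fin n → ℕ), P x.1 * Q x.2 *
    ∑' e : Fin n → ℕ, (∏ l, bsMat η (k l) (e l) (x.1 l) (x.2 l)) *
      (∏ l, bsMat η (k' l) (e l) (x.1 l) (x.2 l))

lemma hasSum_prod_mul {ι κ : Type*} {f : ι → ℝ} {g : κ → ℝ} {a b : ℝ} (hf : HasSum f a)
    (hg : HasSum g b) (hf0 : ∀ x, 0 ≤ f x) (hg0 : ∀ y, 0 ≤ g y) :
    HasSum (fun x : ι × κ => f x.1 * g x.2) (a * b) :=
  hf.mul hg (Summable.mul_of_nonneg hf.summable hg.summable hf0 hg0)

lemma hasSum_pi_prod {α : Type*} : ∀ {n : ℕ} (f : Fin n → α → ℝ) (a : Fin n → ℝ),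
    (∀ l x, 0 ≤ f l x) → (∀ l, HasSum (f l) (a l)) →
      HasSum (fun k : Fin n → α => ∏ l, f l (k l)) (∏ l, a l) := by
  intro n
  induction n with
  | zero =>
    intro f a _ _
    simp only [Finset.univ_eq_empty, Finset.prod_empty]
    exact hasSum_unique (fun _ : Fin 0 → α => (1 : ℝ))
  | succ n ih =>
    intro f a hf ha
    have hr := ih (fun l => f l.succ) (fun l => a l.succ) (fun l => hf l.succ) fun l => ha l.succ
    have hnn : ∀ k : Fin n → α, 0 ≤ ∏ l, f l.succ (k l) := fun k =>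
      Finset.prod_nonneg fun l _ => hf l.succ (k l)
    have hp := hasSum_prod_mul (ha 0) hr (hf 0) hnn
    refine (Fin.consEquiv fun _ => α).hasSum_iff.1 ?_
    simp only [Function.comp_def, Fin.consEquiv_apply, Fin.prod_univ_succ, Fin.cons_zero,
      Fin.cons_succ]
    exact hp

lemma hasSum_negMulLog_prodDist : ∀ {n : ℕ} (p : Fin n → ℕ → ℝ) (S : Fin n → ℝ),
    (∀ l k, 0 ≤ p l k) → (∀ l, HasSum (p l) 1) →
      (∀ l, HasSum (fun k => Real.negMulLog (p l k)) (S l)) →
        HasSum (fun k => Real.negMulLog (prodDist p k)) (∑ l, S l) := by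
  intro n
  induction n with
  | zero =>
    intro p S _ _ _
    simp only [prodDist, Finset.univ_eq_empty, Finset.prod_empty, Finset.sum_empty,
      Real.negMulLog_one]
    exact hasSum_zero
  | succ n ih =>
    intro p S h0 h1 hS
    have hE := ih (fun l => p l.succ) (fun l => S l.succ) (fun l => h0 l.succ) (fun l => h1 l.succ)
      fun l => hS l.succ
    have hP : HasSum (prodDist fun l => p l.succ) 1 := by
      have := hasSum_pi_prod (fun l => p l.succ) (fun _ => (1 : ℝ)) (fun l => h0 l.succ)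
        fun l => h1 l.succ
      have e : (prodDist fun l => p l.succ) = fun k : Fin n → ℕ => ∏ l, p l.succ (k l) := rfl
      rw [e]
      simpa only [Finset.prod_const_one] using this
    have hnn : ∀ k, 0 ≤ prodDist (fun l => p l.succ) k := fun k =>
      Finset.prod_nonneg fun l _ => h0 l.succ _
    have le1 : ∀ {ι : Type} (f : ι → ℝ), (∀ x, 0 ≤ f x) → HasSum f 1 →
        ∀ x, 0 ≤ Real.negMulLog (f x) := fun f hf hs x =>
      Real.negMulLog_nonneg (hf x) (le_hasSum hs x fun y _ => hf y)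
    have t1 := hasSum_prod_mul (hS 0) hP (le1 _ (h0 0) (h1 0)) hnn
    have t2 := hasSum_prod_mul (h1 0) hE (h0 0) (le1 _ hnn hP)
    rw [mul_one] at t1
    rw [one_mul] at t2
    have h := t1.add t2
    refine (Fin.consEquiv fun _ => ℕ).hasSum_iff.1 ?_
    simp only [Function.comp_def, Fin.consEquiv_apply, prodDist, Fin.prod_univ_succ, Fin.cons_zero,
      Fin.cons_succ, Fin.sum_univ_succ, Real.negMulLog_mul]
    exact h.congr_fun fun x => by simp only [prodDist]; ring

lemma tsum_bsMat_sq {n : ℕ} (η : ℝ) (k i j : Fin n → ℕ) :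
    ∑' e : Fin n → ℕ, (∏ l, bsMat η (k l) (e l) (i l) (j l)) *
      (∏ l, bsMat η (k l) (e l) (i l) (j l)) = ∏ l, bsProb η (i l) (j l) (k l) := by
  rw [tsum_eq_single (fun l => i l + j l - k l)]
  · rw [← Finset.prod_mul_distrib]
    refine Finset.prod_congr rfl fun l _ => ?_
    unfold bsMat bsProb
    dsimp only
    split_ifs with h
    · rw [sq]
    · have := bsProb_of_lt η (show i l + j l < k l by omega)
      unfold bsProb at this
      rw [this, zero_mul]
  · intro e he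
    obtain ⟨l, hl⟩ := Function.ne_iff.1 he
    rw [Finset.prod_eq_zero (Finset.mem_univ l), zero_mul]
    exact if_neg fun h => hl (by omega)

lemma outN_offdiag {n : ℕ} (η : ℝ) (P Q : (Fin n → ℕ) → ℝ) {k k' : Fin n → ℕ} (h : k ≠ k') :
    outN η P Q k k' = 0 := by
  obtain ⟨l, hl⟩ := Function.ne_iff.1 h
  have e0 : ∀ i j e : Fin n → ℕ, (∏ l, bsMat η (k l) (e l) (i l) (j l)) *
      (∏ l, bsMat η (k' l) (e l) (i l) (j l)) = 0 := by
    intro i j e
    rw [← Finset.prod_mul_distrib]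
    refine Finset.prod_eq_zero (Finset.mem_univ l) ?_
    unfold bsMat
    split_ifs <;> first | omega | simp
  simp [outN, e0]

/-- On product inputs the output is the product of the one-mode outputs. -/
lemma outN_prod {n : ℕ} (η : ℝ) (p q : Fin n → ℕ → ℝ) (k : Fin n → ℕ) (c : Fin n → ℝ)
    (hp : ∀ l i, 0 ≤ p l i) (hq : ∀ l i, 0 ≤ q l i)
    (hc : ∀ l, HasSum (fun ij : ℕ × ℕ => p l ij.1 * q l ij.2 * bsProb η ij.1 ij.2 (k l)) (c l)) :
    outN η (prodDist p) (prodDist q) k k = ∏ l, c l := by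
  have hb : ∀ (l : Fin n) (x : ℕ × ℕ), 0 ≤ p l x.1 * q l x.2 * bsProb η x.1 x.2 (k l) :=
    fun l x => mul_nonneg (mul_nonneg (hp l x.1) (hq l x.2))
      (bsProb_nonneg η x.1 x.2 (k l))
  have h := hasSum_pi_prod (α := ℕ × ℕ) _ c hb hc
  unfold outN
  rw [← h.tsum_eq, ← (Equiv.arrowProdEquivProdArrow (Fin n) (fun _ => ℕ) (fun _ => ℕ)).tsum_eq]
  refine tsum_congr fun x => ?_
  simp only [tsum_bsMat_sq, prodDist, Finset.prod_mul_distrib]
  rfl

end Vale.Agent.P369
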