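import Vale.Agent.P369.Thermal
import Vale.Agent.P369.Product

open Finset

noncomputable section

namespace Vale.Agent.P369

/-- Kraus amplitude of pure loss with transmissivity `s`: `i` photons keep `m`. -/
def lossA (s : ℝ) (i m : ℕ) : ℝ :=
  if m ≤ i then Real.sqrt (i.choose m : ℝ) * Real.sqrt s ^ m * Real.sqrt (1 - s) ^ (i - m) else 0

/-- Matrix element `⟨m| Λ_s(|i⟩⟨i'|) |m'⟩` of the pure-loss channel. -/
def lossEl (s : ℝ) (i i' m m' : ℕ) : ℝ :=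
  if i + m' = i' + m then lossA s i m * lossA s i' m' else 0

/-- Pure loss on `L × L` matrices in the Fock basis. -/
def lossMap {L : ℕ} (s : ℝ) (X : Matrix (Fin L) (Fin L) ℂ) : Matrix (Fin L) (Fin L) ℂ :=
  fun m m' => ∑ i : Fin L, ∑ i' : Fin L, (lossEl s i i' m m' : ℂ) * X i i'

/-- Matrix element of loss followed by amplification. -/
def compEl (p c : ℝ) (i i' m m' : ℕ) : ℝ :=
  ∑ l ∈ range (i + 1), ∑ l' ∈ range (i' + 1),
    lossEl p i i' l l' * ((1 - c) * lossEl (1 - c) m m' l l')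

/-- Matrix element `⟨m| Φ(|i⟩⟨i'|) |m'⟩` of the beam splitter with environment `∑ q_l |l⟩⟨l|`. -/
def envEl (η : ℝ) (q : ℕ → ℝ) (i i' m m' : ℕ) : ℝ :=
  ∑' le : ℕ × ℕ, q le.1 * (bsMat η m le.2 i le.1 * bsMat η m' le.2 i' le.1)

/-- `⟨v| tr_b U_η (X ⊗ ∑ q_l |l⟩⟨l|) U_η† |v⟩` for a vector `v`. -/
def outForm {N : ℕ} (η : ℝ) (q : ℕ → ℝ) (X : Matrix (Fin N) (Fin N) ℂ) (v : ℕ → ℂ) : ℝ :=
  ∑' le : ℕ × ℕ, q le.1 * (∑ i : Fin N, ∑ i' : Fin N, X i i' *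
    (∑' m : ℕ, (starRingEnd ℂ) (v m) * (bsMat η m le.2 i le.1 : ℂ)) *
    (starRingEnd ℂ) (∑' m : ℕ, (starRingEnd ℂ) (v m) * (bsMat η m le.2 i' le.1 : ℂ))).re

end Vale.Agent.P369
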