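import Vale.Agent.P369.Ent

/-! Finite rearrangement inequalities and comparison of entropies of sequences. -/

open Finset Real Filter Topology

noncomputable section

namespace Vale.Agent.P369

/-- The indices `j` with `j + 1 ∈ R`. -/
def predSet (R : Finset ℕ) : Finset ℕ := (R.erase 0).image (fun j => j - 1)

lemma mem_predSet {R : Finset ℕ} {j : ℕ} : j ∈ predSet R ↔ j + 1 ∈ R := by
  simp only [predSet, Finset.mem_image, Finset.mem_erase]
  constructor
  · rintro ⟨a, ⟨h0, ha⟩, rfl⟩
    rwa [Nat.sub_add_cancel (Nat.pos_of_ne_zero h0)]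
  · intro h
    exact ⟨j + 1, ⟨Nat.succ_ne_zero j, h⟩, by simp⟩

lemma card_predSet (R : Finset ℕ) : (predSet R).card + (if 0 ∈ R then 1 else 0) = R.card := by
  rw [predSet, Finset.card_image_of_injOn, Finset.card_erase_eq_ite]
  · split_ifs with h
    · have := Finset.card_pos.2 ⟨0, h⟩; omega
    · omega
  · intro a ha b hb hab
    simp only [Finset.coe_erase, Set.mem_sdiff, Set.mem_singleton_iff] at ha hb
    simp only at hab
    omega

lemma sum_predSet (R : Finset ℕ) (f : ℕ → ℝ) :
    ∑ i ∈ R, f i = (if 0 ∈ R then f 0 else 0) + ∑ j ∈ predSet R, f (j + 1) := by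
  have e : ∑ j ∈ predSet R, f (j + 1) = ∑ i ∈ R.erase 0, f i := by
    rw [predSet, Finset.sum_image]
    · refine Finset.sum_congr rfl fun i hi => ?_
      rw [Nat.sub_add_cancel (Nat.pos_of_ne_zero (Finset.mem_erase.1 hi).1)]
    · intro a ha b hb hab
      simp only [Finset.coe_erase, Set.mem_sdiff, Set.mem_singleton_iff] at ha hb
      simp only at hab
      omega
  rw [e]
  split_ifs with h
  · rw [Finset.add_sum_erase _ _ h]
  · rw [Finset.erase_eq_of_notMem h, zero_add]

lemma predSet_bound {R : Finset ℕ} {n : ℕ} (h : R ⊆ range (n + 1)) : predSet R ⊆ range n := by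
  intro j hj
  have := h (mem_predSet.1 hj)
  simp only [Finset.mem_range] at this ⊢
  omega

/-- A sum of an antitone sequence over a set is at most the prefix sum of the same size. -/
lemma sum_le_prefix {f : ℕ → ℝ} (hf : Antitone f) (S : Finset ℕ) :
    ∑ k ∈ S, f k ≤ ∑ k ∈ range S.card, f k := by
  induction S using Finset.induction_on_max with
  | empty => simp
  | insert a s hlt ih =>
    have hn : a ∉ s := fun h => lt_irrefl a (hlt a h)
    have hcard : s.card ≤ a := by
      have := Finset.card_le_card (show s ⊆ range a from fun x hx => Finset.mem_range.2 (hlt x hx))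
      simpa using this
    rw [Finset.sum_insert hn, Finset.card_insert_of_notMem hn, Finset.sum_range_succ, add_comm]
    exact add_le_add ih (hf hcard)

/-- Abel summation: prefix domination and antitone nonnegative weights. -/
lemma abel_le {a b c : ℕ → ℝ} {L : ℕ} (ha : ∀ k, k < L → a (k + 1) ≤ a k) (ha0 : ∀ k, 0 ≤ a k)
    (h : ∀ n, n ≤ L → ∑ k ∈ range n, b k ≤ ∑ k ∈ range n, c k) :
    ∑ k ∈ range L, a k * b k ≤ ∑ k ∈ range L, a k * c k := by
  have key : ∀ n, n ≤ L → a n * (∑ k ∈ range n, c k - ∑ k ∈ range n, b k)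
      ≤ ∑ k ∈ range n, a k * c k - ∑ k ∈ range n, a k * b k := by
    intro n
    induction n with
    | zero => simp
    | succ n ih =>
      intro hn
      have h1 := ih (by omega)
      have h2 := h (n + 1) hn
      simp only [Finset.sum_range_succ] at h2 ⊢
      calc a (n + 1) * (∑ k ∈ range n, c k + c n - (∑ k ∈ range n, b k + b n))
          ≤ a n * (∑ k ∈ range n, c k + c n - (∑ k ∈ range n, b k + b n)) :=
            mul_le_mul_of_nonneg_right (ha n (by omega)) (sub_nonneg.2 h2)
        _ = a n * (∑ k ∈ range n, c k - ∑ k ∈ range n, b k) + (a n * c n - a n * b n) := by ring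
        _ ≤ _ := by linarith
  have h1 := key L le_rfl
  have h2 : 0 ≤ a L * (∑ k ∈ range L, c k - ∑ k ∈ range L, b k) :=
    mul_nonneg (ha0 L) (sub_nonneg.2 (h L le_rfl))
  linarith

/-- Decreasing rearrangement of a nonnegative sequence below `N`. -/
lemma exists_rearr (N : ℕ) (p : ℕ → ℝ) (hp : ∀ i, i < N → 0 ≤ p i) :
    ∃ (σ : Equiv.Perm (Fin N)) (P : ℕ → ℝ), Antitone P ∧ (∀ k, 0 ≤ P k) ∧ (∀ k, N ≤ k → P k = 0) ∧
      ∀ i : Fin N, P i = p (σ i) := by
  set g : Fin N → ℝ := fun i => -p i with hg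
  refine ⟨Tuple.sort g, fun k => if h : k < N then p (Tuple.sort g ⟨k, h⟩) else 0, ?_, ?_, ?_, ?_⟩
  · intro a b hab
    simp only
    by_cases hb : b < N
    · rw [dif_pos hb, dif_pos (show a < N by omega)]
      have := Tuple.monotone_sort g (show (⟨a, by omega⟩ : Fin N) ≤ ⟨b, hb⟩ from hab)
      simp only [hg, Function.comp_apply, neg_le_neg_iff] at this
      exact this
    · rw [dif_neg hb]
      split_ifs
      · exact hp _ (Fin.isLt _)
      · exact le_rfl
  · intro k
    simp only
    split_ifs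
    · exact hp _ (Fin.isLt _)
    · exact le_rfl
  · intro k hk
    exact dif_neg (not_lt.2 hk)
  · intro i
    simp only [i.isLt, dite_true, Fin.eta]

/-- Prefix sums of a rearrangement are sums over sets. -/
lemma prefix_rearr {N : ℕ} {p P : ℕ → ℝ} (σ : Equiv.Perm (Fin N)) (h : ∀ i : Fin N, P i = p (σ i))
    {n : ℕ} (hn : n ≤ N) :
    ∃ S : Finset ℕ, S ⊆ range N ∧ S.card = n ∧ ∑ k ∈ range n, P k = ∑ k ∈ S, p k := by
  let f : Fin n ↪ ℕ := ⟨fun k => (σ (Fin.castLE hn k) : ℕ), fun a b hab =>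
    Fin.castLE_injective hn (σ.injective (Fin.ext hab))⟩
  refine ⟨Finset.univ.map f, ?_, by simp, ?_⟩
  · intro x hx
    obtain ⟨k, -, rfl⟩ := Finset.mem_map.1 hx
    exact Finset.mem_range.2 (Fin.isLt _)
  · rw [Finset.sum_map, ← Fin.sum_univ_eq_sum_range]
    exact Finset.sum_congr rfl fun k _ => h (Fin.castLE hn k)

/-- Sums over sets are dominated by prefix sums of the decreasing rearrangement. -/
lemma sum_le_rearr {N : ℕ} {p P : ℕ → ℝ} (σ : Equiv.Perm (Fin N)) (h : ∀ i : Fin N, P i = p (σ i))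
    (hP : Antitone P) {S : Finset ℕ} (hS : S ⊆ range N) :
    ∑ k ∈ S, p k ≤ ∑ k ∈ range S.card, P k := by
  set T : Finset ℕ := ((univ : Finset (Fin N)).filter fun i => ((σ i : Fin N) : ℕ) ∈ S).map Fin.valEmbedding
    with hT
  have e1 : ∑ k ∈ T, P k = ∑ k ∈ S, p k := by
    rw [hT, Finset.sum_map]
    refine Finset.sum_bij (fun i _ => ((σ i : Fin N) : ℕ)) ?_ ?_ ?_ ?_
    · intro i hi; exact (Finset.mem_filter.1 hi).2
    · intro i _ j _ hij; exact σ.injective (Fin.ext hij)
    · intro k hk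
      refine ⟨σ.symm ⟨k, Finset.mem_range.1 (hS hk)⟩, ?_, ?_⟩
      · simp [hk]
      · simp
    · intro i _; exact h i
  have e2 : T.card = S.card := by
    rw [hT, Finset.card_map]
    refine Finset.card_bij (fun i _ => ((σ i : Fin N) : ℕ)) ?_ ?_ ?_
    · intro i hi; exact (Finset.mem_filter.1 hi).2
    · intro i _ j _ hij; exact σ.injective (Fin.ext hij)
    · intro k hk
      exact ⟨σ.symm ⟨k, Finset.mem_range.1 (hS hk)⟩, by simp [hk], by simp⟩
  rw [← e1, ← e2]
  exact sum_le_prefix hP T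

lemma perm_sum {N : ℕ} {p P : ℕ → ℝ} (σ : Equiv.Perm (Fin N)) (h : ∀ i : Fin N, P i = p (σ i))
    (F : ℝ → ℝ) : ∑ k ∈ range N, F (P k) = ∑ k ∈ range N, F (p k) := by
  rw [← Fin.sum_univ_eq_sum_range (fun k => F (P k)), ← Fin.sum_univ_eq_sum_range (fun k => F (p k))]
  simp only [h]
  exact Equiv.sum_comp σ fun i : Fin N => F (p i)

/-- Pairing of two nonnegative sequences is dominated by the pairing of their majorants. -/
lemma sum_mul_le_majorant {L : ℕ} {u v u' v' : ℕ → ℝ} (hu : ∀ k, k < L → 0 ≤ u k)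
    (hv' : Antitone v') (hv0 : ∀ k, 0 ≤ v' k)
    (hU : ∀ S, S ⊆ range L → ∑ k ∈ S, u k ≤ ∑ k ∈ range S.card, u' k)
    (hV : ∀ S, S ⊆ range L → ∑ k ∈ S, v k ≤ ∑ k ∈ range S.card, v' k) :
    ∑ k ∈ range L, u k * v k ≤ ∑ k ∈ range L, u' k * v' k := by
  obtain ⟨σ, us, us_anti, us0, -, us_eq⟩ := exists_rearr L u hu
  set vs : ℕ → ℝ := fun k => if h : k < L then v (σ ⟨k, h⟩) else 0 with hvs
  have vs_eq : ∀ i : Fin L, vs i = v (σ i) := fun i => by simp [hvs]
  have e : ∑ k ∈ range L, u k * v k = ∑ k ∈ range L, us k * vs k := by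
    rw [← Fin.sum_univ_eq_sum_range (fun k => u k * v k),
      ← Fin.sum_univ_eq_sum_range (fun k => us k * vs k)]
    simp only [us_eq, vs_eq]
    exact (Equiv.sum_comp σ fun i : Fin L => u i * v i).symm
  rw [e]
  refine (abel_le (c := v') (fun k _ => us_anti (Nat.le_succ k)) us0 fun n hn => ?_).trans ?_
  · obtain ⟨S, hS, hc, hs⟩ := prefix_rearr σ vs_eq hn
    rw [hs]
    exact (hV S hS).trans_eq (by rw [hc])
  · simp only [mul_comm _ (v' _)]
    refine abel_le (fun k _ => hv' (Nat.le_succ k)) hv0 fun n hn => ?_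
    obtain ⟨S, hS, hc, hs⟩ := prefix_rearr σ us_eq hn
    rw [hs]
    exact (hU S hS).trans_eq (by rw [hc])

/-- `negMulLog x ≤ m x + exp (-m-1)`. -/
lemma negMulLog_le_affine {x : ℝ} (hx : 0 ≤ x) (m : ℝ) :
    negMulLog x ≤ m * x + Real.exp (-m - 1) := by
  rcases hx.eq_or_lt with rfl | hx
  · simp [Real.exp_nonneg]
  · have hy : 0 < Real.exp (-m - 1) := Real.exp_pos _
    have h := Real.log_le_sub_one_of_pos (div_pos hy hx)
    rw [Real.log_div hy.ne' hx.ne', Real.log_exp] at h
    have h2 := mul_le_mul_of_nonneg_left h hx.le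
    have e : x * (Real.exp (-m - 1) / x - 1) = Real.exp (-m - 1) - x := by field_simp
    rw [e] at h2
    unfold negMulLog
    linarith

lemma summable_negMulLog {C : ℕ → ℝ} (h0 : ∀ k, 0 ≤ C k) (h1 : HasSum C 1)
    (hm : Summable fun k : ℕ => (k : ℝ) * C k) : Summable fun k => negMulLog (C k) := by
  have he : Summable fun k : ℕ => Real.exp (-(k : ℝ) - 1) := by
    have := (summable_geometric_of_lt_one (Real.exp_pos (-1)).le
      (Real.exp_lt_one_iff.2 (by norm_num : (-1:ℝ) < 0))).mul_left (Real.exp (-1))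
    refine this.congr fun k => ?_
    rw [← Real.exp_nat_mul, ← Real.exp_add]
    ring_nf
  exact (hm.add he).of_nonneg_of_le
    (fun k => negMulLog_nonneg (h0 k) (le_hasSum h1 k fun j _ => h0 j))
    fun k => negMulLog_le_affine (h0 k) k

/-- Tangent bound for `negMulLog` at a floored point. -/
lemma negMulLog_tangent {d E δ : ℝ} (hd : 0 ≤ d) (hE : 0 ≤ E) (hE1 : E ≤ 1) (hδ : 0 < δ)
    (hδ1 : δ ≤ Real.exp (-1)) :
    negMulLog d ≤ negMulLog E + (-Real.log (max E δ) - 1) * (d - E) + negMulLog δ := by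
  set y := max E δ with hy
  have hy0 : 0 < y := lt_max_of_lt_right hδ
  have ht : negMulLog d ≤ negMulLog y + (-Real.log y - 1) * (d - y) := by
    rcases hd.eq_or_lt with rfl | hd
    · simp only [negMulLog, Real.log_zero, mul_zero]
      linarith
    · have h := Real.log_le_sub_one_of_pos (div_pos hy0 hd)
      rw [Real.log_div hy0.ne' hd.ne'] at h
      have h2 := mul_le_mul_of_nonneg_left h hd.le
      have e : d * (y / d - 1) = y - d := by field_simp
      rw [e] at h2
      unfold negMulLog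
      linarith
  rcases le_or_gt δ E with h | h
  · have : y = E := max_eq_left h
    rw [this] at ht ⊢
    have := negMulLog_nonneg hδ.le (hδ1.trans (Real.exp_le_one_iff.2 (by norm_num)))
    linarith
  · have e : y = δ := max_eq_right h.le
    rw [e] at ht ⊢
    have hlog : Real.log δ ≤ -1 := (Real.log_le_iff_le_exp hδ).2 hδ1
    have := negMulLog_nonneg hE hE1
    have : 0 ≤ (-Real.log δ - 1) * (δ - E) := mul_nonneg (by linarith) (by linarith)
    linarith

/-- A sequence whose set sums are dominated by the prefix sums of an antitone one has more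
entropy. -/
theorem entropy_le_of_majorized {C D : ℕ → ℝ} (hC0 : ∀ k, 0 ≤ C k) (hD0 : ∀ k, 0 ≤ D k)
    (hC : HasSum C 1) (hD : HasSum D 1) (hCm : Summable fun k : ℕ => (k : ℝ) * C k)
    (hDm : Summable fun k : ℕ => (k : ℝ) * D k)
    (hmaj : ∀ K : Finset ℕ, ∑ k ∈ K, C k ≤ ∑ k ∈ range K.card, D k) :
    ∑' k, negMulLog (D k) ≤ ∑' k, negMulLog (C k) := by
  have sC := summable_negMulLog hC0 hC hCm
  have sD := summable_negMulLog hD0 hD hDm
  set μ := ∑' k : ℕ, (k : ℝ) * C k with hμ
  set err : ℕ → ℝ := fun M => (2 * μ + 2) * (Real.log ((M : ℝ) + 4) / M) with herr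
  have step : ∀ M : ℕ, 1 ≤ M → ∑ k ∈ range M, negMulLog (D k) ≤ ∑' k, negMulLog (C k) + err M := by
    intro M hM
    obtain ⟨σ, E, hEa, hE0, -, hEeq⟩ := exists_rearr M C fun k _ => hC0 k
    set δ : ℝ := 1 / ((M : ℝ) + 4) ^ 2 with hδ
    have hM0 : (1 : ℝ) ≤ M := by exact_mod_cast hM
    have hδ0 : 0 < δ := by positivity
    have hδ1 : δ ≤ Real.exp (-1) := by
      rw [hδ, Real.exp_neg, inv_eq_one_div]
      refine one_div_le_one_div_of_le (Real.exp_pos 1) ?_
      nlinarith [Real.exp_one_lt_d9]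
    set G : ℝ := -Real.log δ - 1 with hG
    set h : ℕ → ℝ := fun k => Real.log (max (E k) δ) - Real.log δ with hh
    have hh0 : ∀ k, 0 ≤ h k := fun k =>
      sub_nonneg.2 (Real.log_le_log hδ0 (le_max_right _ _))
    have hha : ∀ k, k < M → h (k + 1) ≤ h k := fun k _ =>
      sub_le_sub_right (Real.log_le_log (lt_max_of_lt_right hδ0)
        (max_le_max (hEa (Nat.le_succ k)) le_rfl)) _
    have hpre : ∀ n, n ≤ M → ∑ k ∈ range n, E k ≤ ∑ k ∈ range n, D k := fun n hn => by
      obtain ⟨S, -, hc, hs⟩ := prefix_rearr σ hEeq hn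
      rw [hs]
      exact (hmaj S).trans_eq (by rw [hc])
    have hE1 : ∀ k, E k ≤ 1 := fun k => by
      rcases lt_or_ge k M with hk | hk
      · rw [show E k = C (σ ⟨k, hk⟩) from hEeq ⟨k, hk⟩]
        exact le_hasSum hC _ fun j _ => hC0 j
      · exact (hEa hk).trans ((hEa (Nat.zero_le M)).trans (by
          rw [show E 0 = C (σ ⟨0, hM⟩) from hEeq ⟨0, hM⟩]
          exact le_hasSum hC _ fun j _ => hC0 j))
    have h1 : ∑ k ∈ range M, negMulLog (D k) ≤ ∑ k ∈ range M, negMulLog (E k)
        + ∑ k ∈ range M, (G - h k) * (D k - E k) + M * negMulLog δ := by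
      have := Finset.sum_le_sum (s := range M) fun k _ =>
        negMulLog_tangent (hD0 k) (hE0 k) (hE1 k) hδ0 hδ1
      rw [Finset.sum_add_distrib, Finset.sum_add_distrib, Finset.sum_const, Finset.card_range,
        nsmul_eq_mul] at this
      refine this.trans_eq ?_
      congr 2
      refine Finset.sum_congr rfl fun k _ => ?_
      simp only [hG, hh]; ring
    have h2 : ∑ k ∈ range M, (G - h k) * (D k - E k)
        ≤ G * (∑ k ∈ range M, D k - ∑ k ∈ range M, E k) := by
      have := abel_le hha hh0 hpre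
      have e : ∑ k ∈ range M, (G - h k) * (D k - E k)
          = G * (∑ k ∈ range M, D k - ∑ k ∈ range M, E k)
            - (∑ k ∈ range M, h k * D k - ∑ k ∈ range M, h k * E k) := by
        simp only [mul_sub, sub_mul, Finset.sum_sub_distrib, ← Finset.mul_sum]
        ring
      linarith
    have hEs : ∑ k ∈ range M, E k = ∑ k ∈ range M, C k := by
      simpa using perm_sum σ hEeq (fun x => x)
    have hEn : ∑ k ∈ range M, negMulLog (E k) = ∑ k ∈ range M, negMulLog (C k) :=
      perm_sum σ hEeq negMulLog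
    have h3 : (M : ℝ) * (∑ k ∈ range M, D k - ∑ k ∈ range M, E k) ≤ μ := by
      have hd1 := sum_le_hasSum (range M) (fun k _ => hD0 k) hD
      have ht : HasSum (fun k => if k < M then 0 else C k) (1 - ∑ k ∈ range M, C k) := by
        have h5 := hC.sub (hasSum_sum_of_ne_finset_zero (s := range M)
          (f := fun k => if k < M then C k else 0)
          (fun k hk => if_neg (by simpa using hk)))
        rw [Finset.sum_congr rfl (g := C) fun k hk => if_pos (Finset.mem_range.1 hk)] at h5
        refine h5.congr_fun fun k => ?_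
        split_ifs <;> simp
      have h6 : (M : ℝ) * (1 - ∑ k ∈ range M, C k) ≤ μ := by
        refine hasSum_le (fun k => ?_) (ht.mul_left (M : ℝ)) hCm.hasSum
        split_ifs with hk
        · rw [mul_zero]; exact mul_nonneg (Nat.cast_nonneg _) (hC0 k)
        · exact mul_le_mul_of_nonneg_right (by exact_mod_cast Nat.le_of_not_lt hk) (hC0 k)
      rw [hEs]
      refine le_trans (mul_le_mul_of_nonneg_left ?_ (Nat.cast_nonneg M)) h6
      linarith
    have hG0 : 0 ≤ G := by
      have := (Real.log_le_iff_le_exp hδ0).2 hδ1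
      simp only [hG]; linarith
    have hlogδ : Real.log δ = -(2 * Real.log ((M : ℝ) + 4)) := by
      rw [hδ, one_div, Real.log_inv, Real.log_pow]; norm_num
    have hL : 0 ≤ Real.log ((M : ℝ) + 4) := Real.log_nonneg (by linarith)
    have hμ0 : 0 ≤ μ := tsum_nonneg fun k => mul_nonneg (Nat.cast_nonneg _) (hC0 k)
    have hMp : (0 : ℝ) < M := by linarith
    have h4 : G * (∑ k ∈ range M, D k - ∑ k ∈ range M, E k)
        ≤ 2 * μ * (Real.log ((M : ℝ) + 4) / M) := by
      calc G * (∑ k ∈ range M, D k - ∑ k ∈ range M, E k) ≤ G * (μ / M) := by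
            refine mul_le_mul_of_nonneg_left ?_ hG0
            rw [le_div_iff₀ hMp, mul_comm]; exact h3
        _ ≤ (2 * Real.log ((M : ℝ) + 4)) * (μ / M) := by
            refine mul_le_mul_of_nonneg_right ?_ (by positivity)
            simp only [hG, hlogδ]; linarith
        _ = 2 * μ * (Real.log ((M : ℝ) + 4) / M) := by ring
    have h5 : (M : ℝ) * negMulLog δ ≤ 2 * (Real.log ((M : ℝ) + 4) / M) := by
      have hMδ : (M : ℝ) * δ ≤ 1 / M := by
        rw [hδ, mul_one_div, div_le_div_iff₀ (by positivity) hMp]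
        nlinarith
      calc (M : ℝ) * negMulLog δ = (M : ℝ) * δ * (2 * Real.log ((M : ℝ) + 4)) := by
            rw [negMulLog, hlogδ]; ring
        _ ≤ 1 / M * (2 * Real.log ((M : ℝ) + 4)) :=
            mul_le_mul_of_nonneg_right hMδ (by linarith)
        _ = 2 * (Real.log ((M : ℝ) + 4) / M) := by ring
    have h7 : ∑ k ∈ range M, negMulLog (C k) ≤ ∑' k, negMulLog (C k) :=
      sC.sum_le_tsum _ fun k _ => negMulLog_nonneg (hC0 k) (le_hasSum hC k fun j _ => hC0 j)
    simp only [herr]
    linarith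
  have herr0 : Tendsto err atTop (𝓝 0) := by
    have h1 : Tendsto (fun x : ℝ => Real.log x / x) atTop (𝓝 0) := by
      simpa using Real.tendsto_pow_log_div_mul_add_atTop 1 0 1 one_ne_zero
    have h2 : Tendsto (fun M : ℕ => Real.log ((M : ℝ) + 4) / ((M : ℝ) + 4)) atTop (𝓝 0) :=
      h1.comp (tendsto_natCast_atTop_atTop.atTop_add tendsto_const_nhds)
    have h3 : Tendsto (fun M : ℕ => 1 + 4 * (1 / (M : ℝ))) atTop (𝓝 1) := by
      simpa using ((tendsto_one_div_atTop_nhds_zero_nat (𝕜 := ℝ)).const_mul 4).const_add 1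
    have h4 := (h2.mul h3).const_mul (2 * μ + 2)
    rw [zero_mul, mul_zero] at h4
    refine h4.congr' ((eventually_ge_atTop 1).mono fun M hM => ?_)
    have : (0 : ℝ) < M := by exact_mod_cast hM
    simp only [herr]
    field_simp
  have hlim := sD.hasSum.tendsto_sum_nat
  refine le_of_tendsto_of_tendsto hlim
    (by simpa using herr0.const_add (∑' k, negMulLog (C k))) ?_
  exact (eventually_ge_atTop 1).mono step

end Vale.Agent.P369
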