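import Vale.Agent.P369.Model
import Vale.Agent.P369.Rearr

/-!
A rearrangement inequality for the beam-splitter probabilities: both inputs and both outputs are
restricted to finite sets of photon numbers, and the total probability is largest for initial
segments of the same sizes.
-/

open Finset

noncomputable section

namespace Vale.Agent.P369

variable {η : ℝ}

/-- Probability of `i, l` photons going to `m, e` photons. -/
def bs4 (η : ℝ) (i l m e : ℕ) : ℝ := if m + e = i + l then bsProb η i l m else 0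

lemma bs4_nonneg (η : ℝ) (i l m e : ℕ) : 0 ≤ bs4 η i l m e := by
  unfold bs4; split_ifs <;> [exact bsProb_nonneg _ _ _ _; exact le_rfl]

/-- Shift to the right in the first argument. -/
def sh0 (g : ℕ → ℕ → ℕ → ℕ → ℝ) : ℕ → ℕ → ℕ → ℕ → ℝ
  | 0, _, _, _ => 0
  | i + 1, l, m, e => g i l m e

/-- Shift to the right in the second argument. -/
def sh1 (g : ℕ → ℕ → ℕ → ℕ → ℝ) : ℕ → ℕ → ℕ → ℕ → ℝ
  | _, 0, _, _ => 0
  | i, l + 1, m, e => g i l m e

/-- Shift to the right in the third argument. -/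
def sh2 (g : ℕ → ℕ → ℕ → ℕ → ℝ) : ℕ → ℕ → ℕ → ℕ → ℝ
  | _, _, 0, _ => 0
  | i, l, m + 1, e => g i l m e

/-- Shift to the right in the fourth argument. -/
def sh3 (g : ℕ → ℕ → ℕ → ℕ → ℝ) : ℕ → ℕ → ℕ → ℕ → ℝ
  | _, _, _, 0 => 0
  | i, l, m, e + 1 => g i l m e

/-- The recursion of the beam-splitter probabilities in symmetric form. -/
lemma bs4_rec (h0 : 0 ≤ η) (h1 : η ≤ 1) (i l m e : ℕ) :
    bs4 η i l m e - η * (sh0 (sh2 (bs4 η)) i l m e + sh1 (sh3 (bs4 η)) i l m e)
      - (1 - η) * (sh0 (sh3 (bs4 η)) i l m e + sh1 (sh2 (bs4 η)) i l m e)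
      + sh0 (sh1 (sh2 (sh3 (bs4 η)))) i l m e
      = if i = 0 ∧ l = 0 ∧ m = 0 ∧ e = 0 then 1 else 0 := by
  by_cases hc : m + e = i + l
  · have hz : ∀ {a b c : ℕ}, a + b < c → bsProb η a b c = 0 := fun h => bsProb_of_lt η h
    rcases i with _ | i <;> rcases l with _ | l <;> rcases m with _ | m <;> rcases e with _ | e <;>
      simp only [sh0, sh1, sh2, sh3, bs4] at * <;>
      first
      | omega
      | (simp (config := { arith := true }) at hc ⊢
         all_goals
          first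
          | (simp [bsProb_zero h0 h1]; done)
          | (simp (disch := omega) [hc, hz, bsProb_rec h0 h1, bsProb_rec_zero h0 h1,
              bsProb_rec_left_zero h0 h1, bsProb_rec_right_zero h0 h1,
              bsProb_right_zero h0 h1, bsProb_left_zero h0 h1, pow_succ]
             <;> ring))
  · have hne : ¬(i = 0 ∧ l = 0 ∧ m = 0 ∧ e = 0) := by omega
    rw [if_neg hne]
    rcases i with _ | i <;> rcases l with _ | l <;> rcases m with _ | m <;> rcases e with _ | e <;>
      first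
      | omega
      | simp (disch := omega) [sh0, sh1, sh2, sh3, bs4, if_neg]

/-- Four-fold sum over initial segments. -/
def sum4 (r b k e : ℕ) (F : ℕ → ℕ → ℕ → ℕ → ℝ) : ℝ :=
  ∑ i ∈ range r, ∑ l ∈ range b, ∑ m ∈ range k, ∑ j ∈ range e, F i l m j

lemma sum4_congr {r b k e : ℕ} {F F' : ℕ → ℕ → ℕ → ℕ → ℝ} (h : ∀ i l m j, F i l m j = F' i l m j) :
    sum4 r b k e F = sum4 r b k e F' := by unfold sum4; simp only [h]

lemma sum_shift_mul {M : ℕ} (g f : ℕ → ℝ) (hf : f M = 0) :
    ∑ a ∈ range M, g a * f (a + 1)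
      = ∑ a ∈ range M, (match a with | 0 => 0 | c + 1 => g c) * f a := by
  have h := Finset.sum_range_succ' (fun a => (match a with | 0 => 0 | c + 1 => g c) * f a) M
  rw [Finset.sum_range_succ] at h
  simp only [hf, mul_zero, zero_mul, add_zero] at h
  exact h.symm

section Shift

variable {M : ℕ} (g f : ℕ → ℕ → ℕ → ℕ → ℝ)

lemma sum4_sh0 (hf : ∀ l m e, f M l m e = 0) :
    sum4 M M M M (fun i l m e => g i l m e * f (i + 1) l m e)
      = sum4 M M M M fun i l m e => sh0 g i l m e * f i l m e := by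
  unfold sum4
  rw [Finset.sum_comm, Finset.sum_comm (f := fun i l => ∑ m ∈ range M, ∑ e ∈ range M,
    sh0 g i l m e * f i l m e)]
  refine Finset.sum_congr rfl fun l _ => ?_
  rw [Finset.sum_comm, Finset.sum_comm (f := fun i m => ∑ e ∈ range M, sh0 g i l m e * f i l m e)]
  refine Finset.sum_congr rfl fun m _ => ?_
  rw [Finset.sum_comm, Finset.sum_comm (f := fun i e => sh0 g i l m e * f i l m e)]
  refine Finset.sum_congr rfl fun e _ => ?_
  rw [sum_shift_mul (fun i => g i l m e) (fun i => f i l m e) (hf l m e)]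
  exact Finset.sum_congr rfl fun i _ => by cases i <;> rfl

lemma sum4_sh1 (hf : ∀ i m e, f i M m e = 0) :
    sum4 M M M M (fun i l m e => g i l m e * f i (l + 1) m e)
      = sum4 M M M M fun i l m e => sh1 g i l m e * f i l m e := by
  unfold sum4
  refine Finset.sum_congr rfl fun i _ => ?_
  rw [Finset.sum_comm, Finset.sum_comm (f := fun l m => ∑ e ∈ range M,
    sh1 g i l m e * f i l m e)]
  refine Finset.sum_congr rfl fun m _ => ?_
  rw [Finset.sum_comm, Finset.sum_comm (f := fun l e => sh1 g i l m e * f i l m e)]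
  refine Finset.sum_congr rfl fun e _ => ?_
  rw [sum_shift_mul (fun l => g i l m e) (fun l => f i l m e) (hf i m e)]
  exact Finset.sum_congr rfl fun l _ => by cases l <;> rfl

lemma sum4_sh2 (hf : ∀ i l e, f i l M e = 0) :
    sum4 M M M M (fun i l m e => g i l m e * f i l (m + 1) e)
      = sum4 M M M M fun i l m e => sh2 g i l m e * f i l m e := by
  unfold sum4
  refine Finset.sum_congr rfl fun i _ => Finset.sum_congr rfl fun l _ => ?_
  rw [Finset.sum_comm, Finset.sum_comm (f := fun m e => sh2 g i l m e * f i l m e)]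
  refine Finset.sum_congr rfl fun e _ => ?_
  rw [sum_shift_mul (fun m => g i l m e) (fun m => f i l m e) (hf i l e)]
  exact Finset.sum_congr rfl fun m _ => by cases m <;> rfl

lemma sum4_sh3 (hf : ∀ i l m, f i l m M = 0) :
    sum4 M M M M (fun i l m e => g i l m e * f i l m (e + 1))
      = sum4 M M M M fun i l m e => sh3 g i l m e * f i l m e := by
  unfold sum4
  refine Finset.sum_congr rfl fun i _ => Finset.sum_congr rfl fun l _ =>
    Finset.sum_congr rfl fun m _ => ?_
  rw [sum_shift_mul (g i l m) (f i l m) (hf i l m)]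
  exact Finset.sum_congr rfl fun e _ => by cases e <;> rfl

end Shift

/-- The recursion as an operator on functions of four indices. -/
def denOp (η : ℝ) (f : ℕ → ℕ → ℕ → ℕ → ℝ) (i l m e : ℕ) : ℝ :=
  f i l m e - η * (f (i + 1) l (m + 1) e + f i (l + 1) m (e + 1))
    - (1 - η) * (f (i + 1) l m (e + 1) + f i (l + 1) (m + 1) e)
    + f (i + 1) (l + 1) (m + 1) (e + 1)

/-- A function of bounded support is recovered from its image under `denOp`. -/
lemma denOp_inv (h0 : 0 ≤ η) (h1 : η ≤ 1) {M : ℕ} (hM : 0 < M) (f : ℕ → ℕ → ℕ → ℕ → ℝ)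
    (hf : ∀ i l m e, M ≤ i ∨ M ≤ l ∨ M ≤ m ∨ M ≤ e → f i l m e = 0) :
    sum4 M M M M (fun i l m e => bs4 η i l m e * denOp η f i l m e) = f 0 0 0 0 := by
  have v0 : ∀ i l m e, M ≤ i → f i l m e = 0 := fun i l m e h => hf i l m e (Or.inl h)
  have v1 : ∀ i l m e, M ≤ l → f i l m e = 0 := fun i l m e h => hf i l m e (Or.inr (Or.inl h))
  have v2 : ∀ i l m e, M ≤ m → f i l m e = 0 := fun i l m e h =>
    hf i l m e (Or.inr (Or.inr (Or.inl h)))
  have v3 : ∀ i l m e, M ≤ e → f i l m e = 0 := fun i l m e h =>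
    hf i l m e (Or.inr (Or.inr (Or.inr h)))
  set g := bs4 η with hg
  have t02 : sum4 M M M M (fun i l m e => g i l m e * f (i + 1) l (m + 1) e)
      = sum4 M M M M fun i l m e => sh0 (sh2 g) i l m e * f i l m e :=
    (sum4_sh2 g (fun i l m e => f (i + 1) l m e) fun i l e => v2 _ _ _ _ le_rfl).trans
      (sum4_sh0 (sh2 g) f fun l m e => v0 _ _ _ _ le_rfl)
  have t13 : sum4 M M M M (fun i l m e => g i l m e * f i (l + 1) m (e + 1))
      = sum4 M M M M fun i l m e => sh1 (sh3 g) i l m e * f i l m e :=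
    (sum4_sh3 g (fun i l m e => f i (l + 1) m e) fun i l m => v3 _ _ _ _ le_rfl).trans
      (sum4_sh1 (sh3 g) f fun i m e => v1 _ _ _ _ le_rfl)
  have t03 : sum4 M M M M (fun i l m e => g i l m e * f (i + 1) l m (e + 1))
      = sum4 M M M M fun i l m e => sh0 (sh3 g) i l m e * f i l m e :=
    (sum4_sh3 g (fun i l m e => f (i + 1) l m e) fun i l m => v3 _ _ _ _ le_rfl).trans
      (sum4_sh0 (sh3 g) f fun l m e => v0 _ _ _ _ le_rfl)
  have t12 : sum4 M M M M (fun i l m e => g i l m e * f i (l + 1) (m + 1) e)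
      = sum4 M M M M fun i l m e => sh1 (sh2 g) i l m e * f i l m e :=
    (sum4_sh2 g (fun i l m e => f i (l + 1) m e) fun i l e => v2 _ _ _ _ le_rfl).trans
      (sum4_sh1 (sh2 g) f fun i m e => v1 _ _ _ _ le_rfl)
  have tall : sum4 M M M M (fun i l m e => g i l m e * f (i + 1) (l + 1) (m + 1) (e + 1))
      = sum4 M M M M fun i l m e => sh0 (sh1 (sh2 (sh3 g))) i l m e * f i l m e :=
    (((sum4_sh3 g (fun i l m e => f (i + 1) (l + 1) (m + 1) e)
      fun i l m => v3 _ _ _ _ le_rfl).trans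
      (sum4_sh2 (sh3 g) (fun i l m e => f (i + 1) (l + 1) m e)
        fun i l e => v2 _ _ _ _ le_rfl)).trans
      (sum4_sh1 (sh2 (sh3 g)) (fun i l m e => f (i + 1) l m e)
        fun i m e => v1 _ _ _ _ le_rfl)).trans
      (sum4_sh0 (sh1 (sh2 (sh3 g))) f fun l m e => v0 _ _ _ _ le_rfl)
  have key : sum4 M M M M (fun i l m e => g i l m e * denOp η f i l m e)
      = sum4 M M M M fun i l m e =>
        (if i = 0 ∧ l = 0 ∧ m = 0 ∧ e = 0 then 1 else 0) * f i l m e := by
    have e1 : ∀ i l m e, (if i = 0 ∧ l = 0 ∧ m = 0 ∧ e = 0 then (1 : ℝ) else 0) * f i l m e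
        = g i l m e * f i l m e
          - η * (sh0 (sh2 g) i l m e * f i l m e + sh1 (sh3 g) i l m e * f i l m e)
          - (1 - η) * (sh0 (sh3 g) i l m e * f i l m e + sh1 (sh2 g) i l m e * f i l m e)
          + sh0 (sh1 (sh2 (sh3 g))) i l m e * f i l m e := fun i l m e => by
      rw [← bs4_rec h0 h1 i l m e, hg]; ring
    have e2 : ∀ i l m e, g i l m e * denOp η f i l m e = g i l m e * f i l m e
        - η * (g i l m e * f (i + 1) l (m + 1) e + g i l m e * f i (l + 1) m (e + 1))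
        - (1 - η) * (g i l m e * f (i + 1) l m (e + 1) + g i l m e * f i (l + 1) (m + 1) e)
        + g i l m e * f (i + 1) (l + 1) (m + 1) (e + 1) := fun i l m e => by
      rw [denOp]; ring
    rw [sum4_congr e1, sum4_congr e2]
    simp only [sum4] at t02 t13 t03 t12 tall ⊢
    simp only [Finset.sum_add_distrib, Finset.sum_sub_distrib, ← Finset.mul_sum]
    rw [t02, t13, t03, t12, tall]
  rw [key]
  unfold sum4
  rw [Finset.sum_eq_single_of_mem 0 (Finset.mem_range.2 hM),
    Finset.sum_eq_single_of_mem 0 (Finset.mem_range.2 hM),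
    Finset.sum_eq_single_of_mem 0 (Finset.mem_range.2 hM),
    Finset.sum_eq_single_of_mem 0 (Finset.mem_range.2 hM)] <;> simp +contextual

lemma mem_predSet_iterate (R : Finset ℕ) : ∀ a j, j ∈ predSet^[a] R ↔ j + a ∈ R := by
  intro a
  induction a with
  | zero => simp
  | succ a ih =>
    intro j
    rw [Function.iterate_succ_apply', mem_predSet, ih, show j + 1 + a = j + (a + 1) by omega]

lemma double_diff_nonneg {α β : Type*} [DecidableEq α] [DecidableEq β] {A A' : Finset α}
    {C C' : Finset β} (hA : A' ⊆ A) (hC : C' ⊆ C) (F : α → β → ℝ) (hF : ∀ a c, 0 ≤ F a c) :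
    0 ≤ (∑ a ∈ A, ∑ c ∈ C, F a c) - (∑ a ∈ A', ∑ c ∈ C, F a c)
      - (∑ a ∈ A, ∑ c ∈ C', F a c) + ∑ a ∈ A', ∑ c ∈ C', F a c := by
  rw [← Finset.sum_sdiff hA (f := fun a => ∑ c ∈ C, F a c),
    ← Finset.sum_sdiff hA (f := fun a => ∑ c ∈ C', F a c)]
  have : ∑ a ∈ A \ A', ∑ c ∈ C', F a c ≤ ∑ a ∈ A \ A', ∑ c ∈ C, F a c :=
    Finset.sum_le_sum fun a _ => Finset.sum_le_sum_of_subset_of_nonneg hC fun c _ _ => hF a c
  linarith

/-- Total probability between initial segments. -/
def rect4 (η : ℝ) (r b k e : ℕ) : ℝ := sum4 r b k e (bs4 η)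

lemma rect4_pairing (η : ℝ) (r b k e : ℕ) : rect4 η r b k e
    = ∑ p ∈ range r ×ˢ range k, ∑ q ∈ range b ×ˢ range e, bs4 η p.1 q.1 p.2 q.2 := by
  simp only [rect4, sum4, Finset.sum_product]
  exact Finset.sum_congr rfl fun i _ => Finset.sum_comm

lemma rect4_pairing' (η : ℝ) (r b k e : ℕ) : rect4 η r b k e
    = ∑ p ∈ range r ×ˢ range e, ∑ q ∈ range b ×ˢ range k, bs4 η p.1 q.1 q.2 p.2 := by
  simp only [rect4, sum4, Finset.sum_product]
  refine Finset.sum_congr rfl fun i _ => ?_
  rw [Finset.sum_comm (t := range b)]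
  exact Finset.sum_congr rfl fun l _ => Finset.sum_comm

/-- The recursion applied to `rect4` along the prefix sizes. -/
lemma rect4_step (h0 : 0 ≤ η) (h1 : η ≤ 1) {r r' b b' k k' e e' : ℕ} (hr : r' ≤ r) (hb : b' ≤ b)
    (hk : k' ≤ k) (he : e' ≤ e) :
    (if r = r' + 1 ∧ b = b' + 1 ∧ k = k' + 1 ∧ e = e' + 1 then (1 : ℝ) else 0)
      ≤ rect4 η r b k e - η * (rect4 η r' b k' e + rect4 η r b' k e')
        - (1 - η) * (rect4 η r' b k e' + rect4 η r b' k' e) + rect4 η r' b' k' e' := by
  by_cases h : r = r' + 1 ∧ b = b' + 1 ∧ k = k' + 1 ∧ e = e' + 1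
  · rw [if_pos h]
    obtain ⟨rfl, rfl, rfl, rfl⟩ := h
    have hsum : sum4 (r' + 1) (b' + 1) (k' + 1) (e' + 1)
        (fun i l m j => if i = 0 ∧ l = 0 ∧ m = 0 ∧ j = 0 then (1 : ℝ) else 0) = 1 := by
      simp [sum4, Finset.sum_range_succ']
    rw [← sum4_congr fun i l m j => bs4_rec h0 h1 i l m j] at hsum
    simp only [sum4, Finset.sum_add_distrib, Finset.sum_sub_distrib, ← Finset.mul_sum] at hsum
    refine le_of_eq (hsum.symm.trans ?_)
    simp only [rect4, sum4]
    simp [Finset.sum_range_succ', sh0, sh1, sh2, sh3]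
  · rw [if_neg h]
    have hR := Finset.range_subset_range.2 hr
    have hB := Finset.range_subset_range.2 hb
    have hK := Finset.range_subset_range.2 hk
    have hE := Finset.range_subset_range.2 he
    have x1 := double_diff_nonneg (Finset.product_subset_product hR hK)
      (Finset.product_subset_product hB hE) (fun p q => bs4 η p.1 q.1 p.2 q.2)
      fun p q => bs4_nonneg _ _ _ _ _
    have x2 := double_diff_nonneg (Finset.product_subset_product hR hE)
      (Finset.product_subset_product hB hK) (fun p q => bs4 η p.1 q.1 q.2 p.2)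
      fun p q => bs4_nonneg _ _ _ _ _
    simp only [← rect4_pairing] at x1
    simp only [← rect4_pairing'] at x2
    have y1 := mul_nonneg h0 x1
    have y2 := mul_nonneg (sub_nonneg.2 h1) x2
    linarith

/-- Four-set rearrangement inequality for the beam splitter. -/
theorem riesz4 (h0 : 0 ≤ η) (h1 : η ≤ 1) (R B K E : Finset ℕ) :
    ∑ i ∈ R, ∑ l ∈ B, ∑ m ∈ K, ∑ e ∈ E, bs4 η i l m e
      ≤ rect4 η R.card B.card K.card E.card := by
  obtain ⟨M, hM0, hM⟩ : ∃ M, 0 < M ∧ ∀ j, M ≤ j → j ∉ R ∧ j ∉ B ∧ j ∉ K ∧ j ∉ E :=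
    ⟨(R ∪ B ∪ K ∪ E).sup id + 1, Nat.succ_pos _, fun j hj => by
      have hle : ∀ x ∈ R ∪ B ∪ K ∪ E, x < j := fun x hx => by
        have := Finset.le_sup (f := id) hx
        simp only [id] at this
        omega
      refine ⟨?_, ?_, ?_, ?_⟩ <;> intro hjm <;> exact lt_irrefl j (hle j (by simp [hjm]))⟩
  set c : Finset ℕ → ℕ → ℕ := fun S a => (predSet^[a] S).card with hc
  set f : ℕ → ℕ → ℕ → ℕ → ℝ := fun i l m e => rect4 η (c R i) (c B l) (c K m) (c E e) with hf
  have hempty : ∀ (S : Finset ℕ) a, M ≤ a → (∀ j, M ≤ j → j ∉ S) → c S a = 0 := fun S a ha hS => by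
    simp only [hc, Finset.card_eq_zero, Finset.eq_empty_iff_forall_notMem, mem_predSet_iterate]
    exact fun j => hS _ (by omega)
  have hvan : ∀ i l m e, M ≤ i ∨ M ≤ l ∨ M ≤ m ∨ M ≤ e → f i l m e = 0 := by
    intro i l m e h
    simp only [hf, rect4, sum4]
    rcases h with h | h | h | h
    · simp [hempty R i h fun j hj => (hM j hj).1]
    · simp [hempty B l h fun j hj => (hM j hj).2.1]
    · simp [hempty K m h fun j hj => (hM j hj).2.2.1]
    · simp [hempty E e h fun j hj => (hM j hj).2.2.2]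
  have hstep : ∀ i l m e, (if i ∈ R ∧ l ∈ B ∧ m ∈ K ∧ e ∈ E then (1 : ℝ) else 0)
      ≤ denOp η f i l m e := by
    intro i l m e
    have hs : ∀ (S : Finset ℕ) a, c S (a + 1) + (if a ∈ S then 1 else 0) = c S a := fun S a => by
      have hh := card_predSet (predSet^[a] S)
      simp only [mem_predSet_iterate, zero_add] at hh
      simp only [hc, Function.iterate_succ_apply']
      exact hh
    have hiff : ∀ (S : Finset ℕ) a, a ∈ S ↔ c S a = c S (a + 1) + 1 := fun S a => by
      have := hs S a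
      by_cases ha : a ∈ S <;> simp only [ha, if_true, if_false, true_iff, false_iff] at this ⊢ <;>
        omega
    have hle : ∀ (S : Finset ℕ) a, c S (a + 1) ≤ c S a := fun S a => by
      have := hs S a; omega
    have := rect4_step h0 h1 (hle R i) (hle B l) (hle K m) (hle E e)
    simpa only [← hiff, denOp, hf] using this
  have hc0 : ∀ S, c S 0 = S.card := fun S => rfl
  have hsub : ∀ S : Finset ℕ, (∀ j, M ≤ j → j ∉ S) → S ⊆ range M := fun S hS j hj =>
    Finset.mem_range.2 (not_le.1 fun h => hS j h hj)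
  calc ∑ i ∈ R, ∑ l ∈ B, ∑ m ∈ K, ∑ e ∈ E, bs4 η i l m e
      = sum4 M M M M fun i l m e =>
          bs4 η i l m e * (if i ∈ R ∧ l ∈ B ∧ m ∈ K ∧ e ∈ E then (1 : ℝ) else 0) := by
        simp only [sum4, mul_ite, mul_one, mul_zero, ite_and, Finset.sum_ite_irrel,
          Finset.sum_const_zero, Finset.sum_ite_mem,
          Finset.inter_eq_right.2 (hsub R fun j hj => (hM j hj).1),
          Finset.inter_eq_right.2 (hsub B fun j hj => (hM j hj).2.1),
          Finset.inter_eq_right.2 (hsub K fun j hj => (hM j hj).2.2.1),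
          Finset.inter_eq_right.2 (hsub E fun j hj => (hM j hj).2.2.2)]
    _ ≤ sum4 M M M M fun i l m e => bs4 η i l m e * denOp η f i l m e :=
        Finset.sum_le_sum fun i _ => Finset.sum_le_sum fun l _ => Finset.sum_le_sum fun m _ =>
          Finset.sum_le_sum fun e _ =>
            mul_le_mul_of_nonneg_left (hstep i l m e) (bs4_nonneg _ _ _ _ _)
    _ = f 0 0 0 0 := denOp_inv h0 h1 hM0 f hvan
    _ = rect4 η R.card B.card K.card E.card := by simp only [hf, hc0]

/-- Three-set rearrangement inequality: both inputs arbitrary. -/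
theorem riesz3 (h0 : 0 ≤ η) (h1 : η ≤ 1) (R B K : Finset ℕ) :
    ∑ i ∈ R, ∑ l ∈ B, ∑ m ∈ K, bsProb η i l m
      ≤ ∑ i ∈ range R.card, ∑ l ∈ range B.card, ∑ m ∈ range K.card, bsProb η i l m := by
  obtain ⟨M, hMR, hMc⟩ : ∃ M, (∀ i ∈ R, ∀ l ∈ B, i + l < M) ∧ R.card + B.card ≤ M :=
    ⟨R.sup id + B.sup id + R.card + B.card + 1, fun i hi l hl => by
      have := Finset.le_sup (f := id) hi
      have := Finset.le_sup (f := id) hl
      simp only [id] at *
      omega, by omega⟩
  have key : ∀ i l, i + l < M → ∀ m, ∑ e ∈ range M, bs4 η i l m e = bsProb η i l m := by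
    intro i l hil m
    rcases lt_or_ge (i + l) m with hm | hm
    · simp [bs4, bsProb_of_lt η hm]
    · have hmem : i + l - m ∈ range M := Finset.mem_range.2 (by omega)
      rw [Finset.sum_eq_single_of_mem (f := fun e => bs4 η i l m e) (i + l - m) hmem fun e _ he =>
        if_neg (by omega)]
      exact if_pos (by omega)
  have h := riesz4 h0 h1 R B K (range M)
  rw [Finset.card_range, rect4, sum4] at h
  calc ∑ i ∈ R, ∑ l ∈ B, ∑ m ∈ K, bsProb η i l m
      = ∑ i ∈ R, ∑ l ∈ B, ∑ m ∈ K, ∑ e ∈ range M, bs4 η i l m e :=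
        Finset.sum_congr rfl fun i hi => Finset.sum_congr rfl fun l hl =>
          Finset.sum_congr rfl fun m _ => (key i l (hMR i hi l hl) m).symm
    _ ≤ _ := h
    _ = _ := Finset.sum_congr rfl fun i hi => Finset.sum_congr rfl fun l hl =>
          Finset.sum_congr rfl fun m _ => key i l (by
            simp only [Finset.mem_range] at hi hl; omega) m

/-- A sequence whose set sums are maximal on initial segments is antitone. -/
lemma antitone_of_sets {u : ℕ → ℝ} (h : ∀ S : Finset ℕ, ∑ l ∈ S, u l ≤ ∑ l ∈ range S.card, u l) :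
    Antitone u := by
  refine antitone_nat_of_succ_le fun l => ?_
  have hn : l + 1 ∉ range l := by simp
  have := h (insert (l + 1) (range l))
  rw [Finset.sum_insert hn, Finset.card_insert_of_notMem hn, Finset.card_range,
    Finset.sum_range_succ] at this
  linarith

/-- For Fock-diagonal inputs in any order, every set sum of the output is at most the prefix sum of
the same size for the decreasingly rearranged inputs. -/
theorem pC_rearr_sets (h0 : 0 ≤ η) (h1 : η ≤ 1) {N : ℕ} {a b P Q : ℕ → ℝ}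
    (ha : ∀ i, i < N → 0 ≤ a i) (hb : ∀ l, l < N → 0 ≤ b l) (σ τ : Equiv.Perm (Fin N))
    (hσ : ∀ i : Fin N, P i = a (σ i)) (hτ : ∀ i : Fin N, Q i = b (τ i))
    (hP : Antitone P) (hQ : Antitone Q) (hQ0 : ∀ l, 0 ≤ Q l) (K : Finset ℕ) :
    ∑ m ∈ K, pC N η a b m ≤ ∑ m ∈ range K.card, pC N η P Q m := by
  have e : ∀ (c d : ℕ → ℝ) (T : Finset ℕ), ∑ m ∈ T, pC N η c d m
      = ∑ i ∈ range N, c i * ∑ l ∈ range N, d l * ∑ m ∈ T, bsProb η i l m := fun c d T => by
    unfold pC
    simp only [Finset.mul_sum]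
    rw [Finset.sum_comm]
    refine Finset.sum_congr rfl fun i _ => ?_
    rw [Finset.sum_comm]
    exact Finset.sum_congr rfl fun l _ => Finset.sum_congr rfl fun m _ => by ring
  set w : ℕ → ℕ → ℝ := fun r l => ∑ i ∈ range r, ∑ m ∈ range K.card, bsProb η i l m with hw
  have hw0 : ∀ r l, 0 ≤ w r l := fun r l =>
    Finset.sum_nonneg fun i _ => Finset.sum_nonneg fun m _ => bsProb_nonneg _ _ _ _
  have hwS : ∀ (R B T : Finset ℕ), T.card = K.card →
      ∑ l ∈ B, ∑ i ∈ R, ∑ m ∈ T, bsProb η i l m ≤ ∑ l ∈ range B.card, w R.card l := by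
    intro R B T hT
    have := riesz3 h0 h1 R B T
    rw [hT] at this
    rw [Finset.sum_comm, hw]
    simp only
    rw [Finset.sum_comm (s := range B.card)]
    exact this
  have hwa : ∀ r, Antitone (w r) := fun r => antitone_of_sets fun S => by
    have := hwS (range r) S (range K.card) (Finset.card_range _)
    rwa [Finset.card_range] at this
  set v : ℕ → ℝ := fun i => ∑ l ∈ range N, Q l * ∑ m ∈ range K.card, bsProb η i l m with hv
  have hv0 : ∀ i, 0 ≤ v i := fun i => Finset.sum_nonneg fun l _ =>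
    mul_nonneg (hQ0 l) (Finset.sum_nonneg fun m _ => bsProb_nonneg _ _ _ _)
  have inner : ∀ (d : ℕ → ℝ), (∀ l, l < N → 0 ≤ d l) →
      (∀ S, S ⊆ range N → ∑ l ∈ S, d l ≤ ∑ l ∈ range S.card, Q l) →
      ∀ (T : Finset ℕ), T.card = K.card → ∀ R : Finset ℕ,
      ∑ i ∈ R, ∑ l ∈ range N, d l * ∑ m ∈ T, bsProb η i l m ≤ ∑ i ∈ range R.card, v i := by
    intro d hd hdQ T hT R
    simp only [hv]
    rw [Finset.sum_comm, Finset.sum_comm (s := range R.card)]
    simp only [← Finset.mul_sum]
    exact sum_mul_le_majorant hd (hwa R.card) (hw0 _) hdQ fun B _ => hwS R B T hT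
  have hva : Antitone v := antitone_of_sets fun S =>
    inner Q (fun l _ => hQ0 l) (fun B _ => sum_le_prefix hQ B) _ (Finset.card_range _) S
  rw [e, e]
  exact sum_mul_le_majorant ha hva hv0 (fun S hS => sum_le_rearr σ hσ hP hS)
    fun R _ => inner b hb (fun S hS => sum_le_rearr τ hτ hQ hS) K rfl R

end Vale.Agent.P369
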