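import Vale.Agent.P369.ThermalN
import Vale.Agent.P369.MMin

/-!
Two Fock-diagonal `n`-mode inputs in any order (also correlated between the modes) against their
mode-by-mode decreasing rearrangements.
-/

open Finset Real Filter Topology

noncomputable section

namespace Vale.Agent.P369

/-- Both one-mode inputs sorted majorise the output. -/
def RieszHyp (N : ℕ) (η : ℝ) : Prop :=
  ∀ (p q P Q : ℕ → ℝ) (σ τ : Equiv.Perm (Fin N)), (∀ i, 0 ≤ p i) → (∀ i, 0 ≤ q i) →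
    (∀ i : Fin N, P i = p (σ i)) → (∀ i : Fin N, Q i = q (τ i)) → Antitone P → Antitone Q →
      ∀ K : Finset ℕ, ∑ m ∈ K, pC N η p q m ≤ ∑ m ∈ range K.card, pC N η P Q m

variable {n N : ℕ} {η : ℝ} {a b a' b' : (Fin (n + 1) → ℕ) → ℝ}

lemma pCN_nonneg_of (ha : ∀ k, 0 ≤ a k) (hb : ∀ k, 0 ≤ b k) (η : ℝ) (m : Fin (n + 1) → ℕ) :
    0 ≤ pCN N η a b m :=
  Finset.sum_nonneg fun i _ => Finset.sum_nonneg fun j _ =>
    mul_nonneg (mul_nonneg (ha i) (hb j)) (bsN_nonneg_lim _ _ _ _)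

/-- Sorting the fibres of one mode in both inputs does not increase the output entropy. -/
lemma entB_pCN_sort_le (hR : RieszHyp N η) (h0 : 0 ≤ η) (h1 : η ≤ 1) (ha : ∀ k, 0 ≤ a k)
    (hb : ∀ k, 0 ≤ b k) (ha' : ∀ k, 0 ≤ a' k) (hb' : ∀ k, 0 ≤ b' k) (l : Fin (n + 1))
    (hA : ∀ i, ∃ σ : Equiv.Perm (Fin N), Antitone (fib l a' i) ∧
      ∀ x : Fin N, fib l a' i x = fib l a i (σ x))
    (hB : ∀ i, ∃ σ : Equiv.Perm (Fin N), Antitone (fib l b' i) ∧
      ∀ x : Fin N, fib l b' i x = fib l b i (σ x)) :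
    entB (2 * N) (pCN N η a' b') ≤ entB (2 * N) (pCN N η a b) := by
  unfold entB
  rw [sum_box_split (2 * N) l, sum_box_split (2 * N) l]
  refine Finset.sum_le_sum fun m _ => ?_
  set C : ℕ → ℝ := fib l (pCN N η a b) m with hC
  set D : ℕ → ℝ := fib l (pCN N η a' b') m with hD
  have supp : ∀ (u v : (Fin (n + 1) → ℕ) → ℝ) z, 2 * N ≤ z → fib l (pCN N η u v) m z = 0 :=
    fun u v z hz => pCN_supp_lim _ _ _ _ fun hm =>
      absurd ((insertNth_mem_box l z m).1 hm).1 (not_lt.2 hz)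
  have hs : ∀ (u : ℕ → ℝ), (∀ z, 2 * N ≤ z → u z = 0) →
      HasSum u (∑ z ∈ range (2 * N), u z) := fun u hu =>
    hasSum_sum_of_ne_finset_zero fun z hz => hu z (by simpa using hz)
  have hm : ∀ (u : ℕ → ℝ), (∀ z, 2 * N ≤ z → u z = 0) →
      Summable fun z : ℕ => (z : ℝ) * u z := fun u hu =>
    summable_of_ne_finset_zero (s := range (2 * N)) fun z hz => by
      rw [hu z (by simpa using hz), mul_zero]
  have ht : ∀ (u : ℕ → ℝ), (∀ z, 2 * N ≤ z → u z = 0) →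
      ∑' z, negMulLog (u z) = ∑ z ∈ range (2 * N), negMulLog (u z) := fun u hu =>
    tsum_eq_sum fun z hz => by rw [hu z (by simpa using hz), negMulLog_zero]
  have sC := supp a b
  have sD := supp a' b'
  have mass : ∀ (u v : (Fin (n + 1) → ℕ) → ℝ), ∑ z ∈ range (2 * N), fib l (pCN N η u v) m z
      = ∑ i ∈ box n N, ∑ j ∈ box n N, bsN η i j m *
          ((∑ x ∈ range N, fib l u i x) * ∑ y ∈ range N, fib l v j y) := by
    intro u v
    simp only [fib_pCN]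
    rw [Finset.sum_comm]
    refine Finset.sum_congr rfl fun i _ => ?_
    rw [Finset.sum_comm]
    exact Finset.sum_congr rfl fun j _ => by rw [← Finset.mul_sum, sum_pC h0 h1]
  have hmass : ∑ z ∈ range (2 * N), D z = ∑ z ∈ range (2 * N), C z := by
    rw [hC, hD, mass, mass]
    refine Finset.sum_congr rfl fun i _ => Finset.sum_congr rfl fun j _ => ?_
    obtain ⟨σ, -, hσ⟩ := hA i
    obtain ⟨τ, -, hτ⟩ := hB j
    rw [show ∑ x ∈ range N, fib l a' i x = ∑ x ∈ range N, fib l a i x from perm_sum σ hσ fun y => y,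
      show ∑ x ∈ range N, fib l b' j x = ∑ x ∈ range N, fib l b j x from perm_sum τ hτ fun y => y]
  change ∑ z ∈ range (2 * N), negMulLog (D z) ≤ ∑ z ∈ range (2 * N), negMulLog (C z)
  rw [← ht D sD, ← ht C sC]
  refine entropy_le_of_majorized_mass (fun z => pCN_nonneg_of ha hb η _)
    (fun z => pCN_nonneg_of ha' hb' η _) (hs C sC) (hmass ▸ hs D sD) (hm C sC) (hm D sD) fun K => ?_
  simp only [hC, hD, fib_pCN]
  rw [Finset.sum_comm, Finset.sum_comm (s := range K.card)]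
  refine Finset.sum_le_sum fun i _ => ?_
  rw [Finset.sum_comm, Finset.sum_comm (s := range K.card)]
  refine Finset.sum_le_sum fun j _ => ?_
  rw [← Finset.mul_sum, ← Finset.mul_sum]
  refine mul_le_mul_of_nonneg_left ?_ (bsN_nonneg_lim _ _ _ _)
  obtain ⟨σ, hσa, hσ⟩ := hA i
  obtain ⟨τ, hτa, hτ⟩ := hB j
  exact hR _ _ _ _ σ τ (fun x => ha _) (fun y => hb _) hσ hτ hσa hτa K

/-- Rearranging both inputs in all modes, one after another. -/
theorem exists_passiveN_pair (hR : RieszHyp N η) (h0 : 0 ≤ η) (h1 : η ≤ 1)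
    (ha : ∀ k, 0 ≤ a k) (has : ∀ k, k ∉ box (n + 1) N → a k = 0)
    (ha1 : ∑ i ∈ box (n + 1) N, a i = 1)
    (hb : ∀ k, 0 ≤ b k) (hbs : ∀ k, k ∉ box (n + 1) N → b k = 0)
    (hb1 : ∑ i ∈ box (n + 1) N, b i = 1) :
    ∃ P Q, PassiveN (n + 1) N P ∧ PassiveN (n + 1) N Q ∧ entB N P = entB N a ∧
      entB N Q = entB N b ∧ entB (2 * N) (pCN N η P Q) ≤ entB (2 * N) (pCN N η a b) := by
  classical
  suffices h : ∀ L : Finset (Fin (n + 1)), ∃ P Q : (Fin (n + 1) → ℕ) → ℝ, (∀ k, 0 ≤ P k) ∧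
      (∀ k, k ∉ box (n + 1) N → P k = 0) ∧ ∑ i ∈ box (n + 1) N, P i = 1 ∧ entB N P = entB N a ∧
      (∀ l ∈ L, ∀ k, P (bump l k) ≤ P k) ∧ (∀ k, 0 ≤ Q k) ∧
      (∀ k, k ∉ box (n + 1) N → Q k = 0) ∧ ∑ i ∈ box (n + 1) N, Q i = 1 ∧ entB N Q = entB N b ∧
      (∀ l ∈ L, ∀ k, Q (bump l k) ≤ Q k) ∧
      entB (2 * N) (pCN N η P Q) ≤ entB (2 * N) (pCN N η a b) by
    obtain ⟨P, Q, p0, ps, p1, pe, pa, q0, qs, q1, qe, qa, hle⟩ := h Finset.univ
    exact ⟨P, Q, ⟨p0, fun k l => pa l (Finset.mem_univ l) k, ps, p1⟩,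
      ⟨q0, fun k l => qa l (Finset.mem_univ l) k, qs, q1⟩, pe, qe, hle⟩
  intro L
  induction L using Finset.induction_on with
  | empty => exact ⟨a, b, ha, has, ha1, rfl, by simp, hb, hbs, hb1, rfl, by simp, le_rfl⟩
  | insert l L hl ih =>
    obtain ⟨P, Q, p0, ps, p1, pe, pa, q0, qs, q1, qe, qa, hle⟩ := ih
    obtain ⟨P', p0', ps', p1', pe', pl, pk, pσ⟩ := exists_sortMode l p0 ps
    obtain ⟨Q', q0', qs', q1', qe', ql, qk, qσ⟩ := exists_sortMode l q0 qs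
    refine ⟨P', Q', p0', ps', p1'.trans p1, pe'.trans pe, fun l' hl' => ?_, q0', qs',
      q1'.trans q1, qe'.trans qe, fun l' hl' => ?_,
      (entB_pCN_sort_le hR h0 h1 p0 q0 p0' q0' l pσ qσ).trans hle⟩
    · rcases Finset.mem_insert.1 hl' with rfl | h
      · exact pl
      · exact pk l' (pa l' h)
    · rcases Finset.mem_insert.1 hl' with rfl | h
      · exact ql
      · exact qk l' (qa l' h)

/-- EPnI for any two Fock-diagonal inputs in the box, from the one-mode rearrangement bound. -/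
theorem epni_diagN_of (hR : RieszHyp N η) (h0 : 0 ≤ η) (h1 : η ≤ 1)
    (ha : ∀ k, 0 ≤ a k) (has : ∀ k, k ∉ box (n + 1) N → a k = 0)
    (ha1 : ∑ i ∈ box (n + 1) N, a i = 1)
    (hb : ∀ k, 0 ≤ b k) (hbs : ∀ k, k ∉ box (n + 1) N → b k = 0)
    (hb1 : ∑ i ∈ box (n + 1) N, b i = 1) :
    ((n : ℝ) + 1) * gFun (η * ginv (entB N a / ((n : ℝ) + 1))
        + (1 - η) * ginv (entB N b / ((n : ℝ) + 1)))
      ≤ entB (2 * N) (pCN N η a b) := by
  obtain ⟨P, Q, hP, hQ, eP, eQ, hle⟩ := exists_passiveN_pair hR h0 h1 ha has ha1 hb hbs hb1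
  rw [← eP, ← eQ]
  exact (epni_passiveN hP hQ h0 h1).trans hle

end Vale.Agent.P369
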