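import Vale.Agent.P369.Riesz
import Vale.Agent.P369.RieszN

/-!
The entropy photon-number inequality for arbitrary pairs of Fock-diagonal inputs in a box.
-/

open Finset

noncomputable section

namespace Vale.Agent.P369

variable {η : ℝ}

/-- Sorting both one-mode inputs majorises the output. -/
theorem rieszHyp (h0 : 0 ≤ η) (h1 : η ≤ 1) (N : ℕ) : RieszHyp N η := by
  intro p q P Q σ τ hp hq hσ hτ hPa hQa K
  set Q' : ℕ → ℝ := fun k => if k < N then Q k else 0 with hQ'
  have hQn : ∀ k, k < N → 0 ≤ Q k := fun k hk => by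
    rw [show Q k = Q ((⟨k, hk⟩ : Fin N) : ℕ) from rfl, hτ]; exact hq _
  have hQ0 : ∀ k, 0 ≤ Q' k := fun k => by
    simp only [hQ']; split_ifs with h <;> [exact hQn k h; exact le_rfl]
  have hQ'a : Antitone Q' := by
    intro x y hxy
    simp only [hQ']
    split_ifs with hy hx hx
    · exact hQa hxy
    · omega
    · exact hQn x hx
    · exact le_rfl
  have e : ∀ m, pC N η P Q' m = pC N η P Q m := fun m =>
    Finset.sum_congr rfl fun i _ => Finset.sum_congr rfl fun l hl => by
      simp only [hQ', if_pos (Finset.mem_range.1 hl)]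
  have hτ' : ∀ i : Fin N, Q' i = q (τ i) := fun i => by simp [hQ', hτ i]
  have := pC_rearr_sets h0 h1 (fun i _ => hp i) (fun l _ => hq l) σ τ hσ hτ' hPa hQ'a hQ0 K
  simpa only [e] using this

/-- Entropy photon-number inequality for any two `n`-mode Fock-diagonal inputs with finitely many
photons: any order of the eigenvalues, any correlation between the modes. -/
theorem epni_diagN {n N : ℕ} {a b : (Fin (n + 1) → ℕ) → ℝ} (h0 : 0 ≤ η) (h1 : η ≤ 1)
    (ha : ∀ k, 0 ≤ a k) (has : ∀ k, k ∉ box (n + 1) N → a k = 0)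
    (ha1 : ∑ i ∈ box (n + 1) N, a i = 1)
    (hb : ∀ k, 0 ≤ b k) (hbs : ∀ k, k ∉ box (n + 1) N → b k = 0)
    (hb1 : ∑ i ∈ box (n + 1) N, b i = 1) :
    ((n : ℝ) + 1) * gFun (η * ginv (entB N a / ((n : ℝ) + 1))
        + (1 - η) * ginv (entB N b / ((n : ℝ) + 1)))
      ≤ entB (2 * N) (pCN N η a b) :=
  epni_diagN_of (rieszHyp h0 h1 N) h0 h1 ha has ha1 hb hbs hb1

end Vale.Agent.P369
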