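import Mathlib

open Real Set Filter

noncomputable section

namespace Vale.Agent.P369

/-- `phi a = log (1 + 1/a)`, the derivative of `gFun` at `a > 0`. -/
def phi (a : ℝ) : ℝ := Real.log (a + 1) - Real.log a

/-- `gFun t = (t+1) log (t+1) - t log t`. -/
def gFun (t : ℝ) : ℝ := (t + 1) * Real.log (t + 1) - t * Real.log t

/-- `fFun a = a * log (1 + 1/a)`. -/
def fFun (a : ℝ) : ℝ := a * phi a

/-- `FF a = (1+a) log (1+1/a) - 1`. -/
def FF (a : ℝ) : ℝ := (1 + a) * phi a - 1

lemma phi_eq_log {a : ℝ} (ha : 0 < a) : phi a = Real.log (1 + 1 / a) := by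
  unfold phi
  rw [← Real.log_div (by linarith) ha.ne']
  congr 1
  field_simp

lemma phi_pos {a : ℝ} (ha : 0 < a) : 0 < phi a := by
  unfold phi
  have := Real.log_lt_log ha (by linarith : a < a + 1)
  linarith

lemma phi_lower {a : ℝ} (ha : 0 < a) : 2 / (2 * a + 1) < phi a := by
  rw [phi_eq_log ha]
  have h := Real.lt_log_one_add_of_pos (x := 1 / a) (by positivity)
  refine lt_of_eq_of_lt ?_ h
  field_simp
  ring

lemma log_one_add_le_cubic {x : ℝ} (hx : 0 ≤ x) :
    Real.log (1 + x) ≤ x - x ^ 2 / 2 + x ^ 3 / 3 := by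
  have hd : ∀ y : ℝ, 0 ≤ y → HasDerivAt (fun t => t - t ^ 2 / 2 + t ^ 3 / 3 - Real.log (1 + t))
      (y ^ 3 / (1 + y)) y := by
    intro y hy
    have h1 : HasDerivAt (fun t : ℝ => Real.log (1 + t)) (1 / (1 + y)) y :=
      ((hasDerivAt_id y).const_add 1).log (by simp only [id_eq]; linarith)
    have h2 := (((hasDerivAt_id y).sub ((hasDerivAt_pow 2 y).div_const 2)).add
      ((hasDerivAt_pow 3 y).div_const 3)).sub h1
    refine h2.congr_deriv ?_
    have : (1 + y) ≠ 0 := by linarith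
    field_simp
    ring
  have hm : MonotoneOn (fun t => t - t ^ 2 / 2 + t ^ 3 / 3 - Real.log (1 + t)) (Ici (0:ℝ)) := by
    apply monotoneOn_of_deriv_nonneg (convex_Ici 0)
    · exact fun y hy => (hd y hy).continuousAt.continuousWithinAt
    · intro y hy
      rw [interior_Ici] at hy
      exact (hd y hy.le).differentiableAt.differentiableWithinAt
    · intro y hy
      rw [interior_Ici] at hy
      rw [(hd y hy.le).deriv]
      have : (0:ℝ) < y := hy
      positivity
  have := hm (self_mem_Ici) hx hx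
  simp at this
  linarith

lemma FF_pos {a : ℝ} (ha : 0 < a) : 1 / (2 * a + 1) < FF a := by
  have h := phi_lower ha
  have h2 : (1 + a) * (2 / (2 * a + 1)) < (1 + a) * phi a := by nlinarith
  have h3 : (1 + a) * (2 / (2 * a + 1)) - 1 = 1 / (2 * a + 1) := by field_simp; ring
  unfold FF; linarith

lemma FF_pos' {a : ℝ} (ha : 0 < a) : 0 < FF a :=
  lt_trans (by positivity) (FF_pos ha)

lemma hasDerivAt_phi {a : ℝ} (ha : 0 < a) : HasDerivAt phi (-1 / (a * (a + 1))) a := by
  unfold phi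
  have h1 : HasDerivAt (fun t : ℝ => Real.log (t + 1)) (1 / (a + 1)) a :=
    ((hasDerivAt_id a).add_const 1).log (by simp only [id_eq]; linarith)
  refine (h1.sub (Real.hasDerivAt_log ha.ne')).congr_deriv ?_
  field_simp
  ring

lemma hasDerivAt_FF {a : ℝ} (ha : 0 < a) :
    HasDerivAt FF ((a * FF a - 1) / (a * (1 + a))) a := by
  have h : HasDerivAt FF (1 * phi a + (1 + a) * (-1 / (a * (a + 1)))) a :=
    (((hasDerivAt_id a).const_add 1).mul (hasDerivAt_phi ha)).sub_const 1
  refine h.congr_deriv ?_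
  unfold FF
  field_simp
  ring

/-- A function with positive derivative wherever it is nonnegative and with asymptotically
nonpositive values is negative. -/
lemma barrier {u u' : ℝ → ℝ} (hu : ∀ a, 0 < a → HasDerivAt u (u' a) a)
    (hpos : ∀ a, 0 < a → 0 ≤ u a → 0 < u' a) (c : ℝ)
    (htail : ∀ b, 1 ≤ b → u b ≤ c / b) : ∀ a, 0 < a → u a < 0 := by
  intro a ha
  by_contra hcon
  push Not at hcon
  have key : ∀ x, 0 < x → 0 ≤ u x → ∀ y, x ≤ y → u x ≤ u y := by
    intro x hx hux y hxy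
    have := image_le_of_deriv_right_lt_deriv_boundary (f := fun t => -u t)
      (f' := fun t => -u' t) (a := x) (b := y)
      (B := fun _ => -u x) (B' := fun _ => 0)
      (fun t ht => ((hu t (lt_of_lt_of_le hx ht.1)).neg).continuousAt.continuousWithinAt)
      (fun t ht => ((hu t (lt_of_lt_of_le hx ht.1)).neg).hasDerivWithinAt)
      le_rfl (fun _ => hasDerivAt_const _ _)
      (fun t ht he => by
        have htp := lt_of_lt_of_le hx ht.1
        have : u t = u x := by simpa using he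
        have := hpos t htp (by linarith)
        linarith)
      (right_mem_Icc.2 hxy)
    simpa using this
  have hd := hpos a ha hcon
  obtain ⟨x, hax, hux⟩ : ∃ x, a < x ∧ u a < u x := by
    have h2 := (hu a ha).tendsto_slope
    have h3 : ∀ᶠ x in nhdsWithin a (Ioi a), 0 < slope u a x :=
      (h2.mono_left (nhdsWithin_mono _ (fun x hx => ne_of_gt hx))).eventually_const_lt hd
    obtain ⟨x, hx, hxa⟩ := (h3.and self_mem_nhdsWithin).exists
    refine ⟨x, hxa, ?_⟩
    rw [slope_def_field] at hx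
    have hxa' : 0 < x - a := by simpa using hxa
    have := (div_pos_iff_of_pos_right hxa').1 hx
    linarith
  have hux0 : 0 < u x := lt_of_le_of_lt hcon hux
  set b := max (max x 1) (2 * |c| / u x + 1) with hb
  have hb1 : 1 ≤ b := le_trans (le_max_right _ _) (le_max_left _ _)
  have hbx : x ≤ b := le_trans (le_max_left _ _) (le_max_left _ _)
  have h4 := key x (ha.trans hax) hux0.le b hbx
  have h5 := htail b hb1
  have h6 : 2 * |c| / u x + 1 ≤ b := le_max_right _ _
  have h7 : c / b < u x := by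
    rw [div_lt_iff₀ (by linarith)]
    have h8 : 2 * |c| + u x ≤ u x * b := by
      have := mul_le_mul_of_nonneg_left h6 hux0.le
      field_simp at this
      linarith
    linarith [le_abs_self c, abs_nonneg c]
  linarith

lemma FF_upper_series {b : ℝ} (hb : 0 < b) :
    FF b ≤ 1 / (2 * b) - 1 / (6 * b ^ 2) + 1 / (3 * b ^ 3) := by
  have h := log_one_add_le_cubic (x := 1 / b) (by positivity)
  rw [← phi_eq_log hb] at h
  have h2 : (1 + b) * phi b ≤ (1 + b) * (1 / b - (1 / b) ^ 2 / 2 + (1 / b) ^ 3 / 3) := by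
    nlinarith
  have h3 : (1 + b) * (1 / b - (1 / b) ^ 2 / 2 + (1 / b) ^ 3 / 3) - 1
      = 1 / (2 * b) - 1 / (6 * b ^ 2) + 1 / (3 * b ^ 3) := by field_simp; ring
  unfold FF; linarith

lemma H_neg {a : ℝ} (ha : 0 < a) : 2 * a * (2 + 3 * a) * FF a - (1 + 3 * a) < 0 := by
  refine barrier (u := fun a => 2 * a * (2 + 3 * a) * FF a - (1 + 3 * a))
    (u' := fun a => (4 + 12 * a) * FF a + 2 * a * (2 + 3 * a) *
      ((a * FF a - 1) / (a * (1 + a))) - 3) ?_ ?_ 10 ?_ a ha
  · intro a ha
    have h1 : HasDerivAt (fun t : ℝ => 2 * t * (2 + 3 * t)) (4 + 12 * a) a := by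
      refine ((((hasDerivAt_id a).const_mul 2)).mul
        (((hasDerivAt_id a).const_mul 3).const_add 2)).congr_deriv ?_
      simp; ring
    have h2 : HasDerivAt (fun t : ℝ => 1 + 3 * t) 3 a := by
      simpa using ((hasDerivAt_id a).const_mul 3).const_add 1
    exact (h1.mul (hasDerivAt_FF ha)).sub h2
  · intro a ha hu
    have e : (4 + 12 * a) * FF a + 2 * a * (2 + 3 * a) *
      ((a * FF a - 1) / (a * (1 + a))) - 3 =
        ((4 + 12 * a) * (1 + a) * FF a + 2 * (2 + 3 * a) * (a * FF a - 1) - 3 * (1 + a)) / (1 + a) := by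
      field_simp
    rw [e]
    apply div_pos _ (by linarith)
    nlinarith [mul_le_mul_of_nonneg_left hu (by positivity : (0:ℝ) ≤ 2 + 10 * a + 9 * a ^ 2)]
  · intro b hb
    have hb0 : 0 < b := by linarith
    have h := FF_upper_series hb0
    have h2 : 2 * b * (2 + 3 * b) * FF b ≤ 2 * b * (2 + 3 * b) *
        (1 / (2 * b) - 1 / (6 * b ^ 2) + 1 / (3 * b ^ 3)) :=
      mul_le_mul_of_nonneg_left h (by positivity)
    have h3 : 2 * b * (2 + 3 * b) * (1 / (2 * b) - 1 / (6 * b ^ 2) + 1 / (3 * b ^ 3))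
        - (1 + 3 * b) = (4 * b + 4) / (3 * b ^ 2) := by field_simp; ring
    have h4 : (4 * b + 4) / (3 * b ^ 2) ≤ 10 / b := by
      rw [div_le_div_iff₀ (by positivity) hb0]; nlinarith
    linarith

lemma two_aF_lt {a : ℝ} (ha : 0 < a) : 2 * a * FF a < 1 := by
  have := H_neg ha
  have := FF_pos' ha
  nlinarith

lemma aF_lt {a : ℝ} (ha : 0 < a) : a * FF a < 1 := by
  have := two_aF_lt ha; linarith

lemma G1_neg {a : ℝ} (ha : 0 < a) : 2 * a * (1 + a) * FF a ^ 2 + a * FF a - 1 < 0 := by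
  refine barrier (u := fun a => 2 * a * (1 + a) * FF a ^ 2 + a * FF a - 1)
    (u' := fun a => ((1 + 4 * a) * (2 * a * (1 + a) * FF a ^ 2 + a * FF a - 1)
      + ((1 + 3 * a) - 2 * a * (2 + 3 * a) * FF a)) / (a * (1 + a))) ?_ ?_ 1 ?_ a ha
  · intro a ha
    have h1 : HasDerivAt (fun t : ℝ => 2 * t * (1 + t)) (2 + 4 * a) a := by
      refine ((((hasDerivAt_id a).const_mul 2)).mul ((hasDerivAt_id a).const_add 1)).congr_deriv ?_
      simp; ring
    refine (((h1.mul ((hasDerivAt_FF ha).pow 2)).add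
      ((hasDerivAt_id a).mul (hasDerivAt_FF ha))).sub_const 1).congr_deriv ?_
    simp only [id_eq, Pi.pow_apply, Nat.cast_ofNat]
    field_simp
    ring
  · intro a ha hu
    have := H_neg ha
    apply div_pos _ (by positivity)
    nlinarith
  · intro b hb
    have hb0 : 0 < b := by linarith
    have h1 := two_aF_lt hb0
    have hF := FF_pos' hb0
    have h2 : b * FF b * FF b ≤ 1 / 2 * FF b := by nlinarith
    have h3 : (b * FF b) ^ 2 ≤ 1 / 4 := by nlinarith [mul_pos hb0 hF]
    have h4 : FF b ≤ 1 / (2 * b) := by rw [le_div_iff₀ (by positivity)]; linarith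
    have h5 : 1 / (2 * b) ≤ 1 / b := one_div_le_one_div_of_le hb0 (by linarith)
    nlinarith

lemma K_pos {a : ℝ} (ha : 0 < a) : 0 < 2 * (1 + 3 * a) * FF a - 3 := by
  have := barrier (u := fun a => 3 - 2 * (1 + 3 * a) * FF a)
    (u' := fun a => -(6 * a * (1 + a) * FF a + 2 * (1 + 3 * a) * (a * FF a - 1)) / (a * (1 + a)))
    ?_ ?_ 1 ?_ a ha
  · linarith
  · intro a ha
    have h1 : HasDerivAt (fun t : ℝ => 2 * (1 + 3 * t)) 6 a := by
      refine ((((hasDerivAt_id a).const_mul 3).const_add 1).const_mul 2).congr_deriv ?_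
      norm_num
    refine ((h1.mul (hasDerivAt_FF ha)).const_sub 3).congr_deriv ?_
    field_simp
  · intro a ha hu
    apply div_pos _ (by positivity)
    have := FF_pos' ha
    nlinarith [mul_le_mul_of_nonneg_left hu (by positivity : (0:ℝ) ≤ a * (4 + 6 * a))]
  · intro b hb
    have hb0 : 0 < b := by linarith
    have h := FF_pos hb0
    have h2 : 2 * (1 + 3 * b) * (1 / (2 * b + 1)) ≤ 2 * (1 + 3 * b) * FF b := by
      nlinarith
    have h3 : 3 - 2 * (1 + 3 * b) * (1 / (2 * b + 1)) = 1 / (2 * b + 1) := by field_simp; ring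
    have h4 : 1 / (2 * b + 1) ≤ 1 / b := one_div_le_one_div_of_le hb0 (by linarith)
    linarith

lemma G2_neg {a : ℝ} (ha : 0 < a) :
    2 * a ^ 2 * FF a ^ 2 - (1 + 5 * a) * FF a + 2 < 0 := by
  refine barrier (u := fun a => 2 * a ^ 2 * FF a ^ 2 - (1 + 5 * a) * FF a + 2)
    (u' := fun a => (2 * (1 + 2 * a) * (2 * a ^ 2 * FF a ^ 2 - (1 + 5 * a) * FF a + 2)
      + (1 + a) * (2 * (1 + 3 * a) * FF a - 3)) / (a * (1 + a))) ?_ ?_ 1 ?_ a ha
  · intro a ha
    have h1 : HasDerivAt (fun t : ℝ => 2 * t ^ 2) (4 * a) a := by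
      refine ((hasDerivAt_pow 2 a).const_mul 2).congr_deriv ?_
      norm_num; ring
    have h2 : HasDerivAt (fun t : ℝ => 1 + 5 * t) 5 a := by
      simpa using ((hasDerivAt_id a).const_mul 5).const_add 1
    refine (((h1.mul ((hasDerivAt_FF ha).pow 2)).sub (h2.mul (hasDerivAt_FF ha))).add_const
      2).congr_deriv ?_
    simp only [Pi.pow_apply, Nat.cast_ofNat]
    field_simp
    ring
  · intro a ha hu
    have := K_pos ha
    apply div_pos _ (by positivity)
    nlinarith
  · intro b hb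
    have hb0 : 0 < b := by linarith
    have h1 := two_aF_lt hb0
    have hF := FF_pos' hb0
    have h2 := FF_pos hb0
    have h3 : b / (2 * b + 1) ≤ b * FF b := by
      have := mul_le_mul_of_nonneg_left h2.le hb0.le
      rwa [mul_one_div] at this
    have h4 : 1 - 2 * (b * FF b) ≤ 1 / (2 * b + 1) := by
      have : 1 - 2 * (b / (2 * b + 1)) = 1 / (2 * b + 1) := by field_simp; ring
      linarith
    have h5 : (1 - 2 * (b * FF b)) * (2 - b * FF b) ≤ 2 * (1 / (2 * b + 1)) := by
      apply le_trans (mul_le_mul_of_nonneg_left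
        (show 2 - b * FF b ≤ 2 by nlinarith) (by linarith))
      linarith
    have h6 : 2 * (1 / (2 * b + 1)) ≤ 1 / b := by
      rw [mul_one_div, div_le_div_iff₀ (by positivity) hb0]; linarith
    nlinarith

lemma G3_pos {a : ℝ} (ha : 0 < a) : 0 < 2 + (1 - 3 * a) * FF a - 2 * a * FF a ^ 2 := by
  have h1 := two_aF_lt ha
  have hF := FF_pos' ha
  nlinarith

lemma aFF_sq_lt {a : ℝ} (ha : 0 < a) : a * FF a ^ 2 + 2 * a * FF a < 1 := by
  have h := G1_neg ha
  have h2 := FF_pos ha
  have hF := FF_pos' ha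
  have h3 : 1 < FF a * (2 * a + 1) := by
    rwa [div_lt_iff₀ (by positivity)] at h2
  nlinarith [mul_lt_mul_of_pos_left h3 (mul_pos ha hF)]

end Vale.Agent.P369
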