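import Vale.Agent.P369.Kernel

open PowerSeries Finset

noncomputable section

namespace Vale.Agent.P369

/-- Two-variable formal power series, in `s` (outer) and `t` (inner). -/
abbrev BS := PowerSeries (PowerSeries ℝ)

/-- Coefficient of `s^k t^l`. -/
def cf (k l : ℕ) (φ : BS) : ℝ := coeff l (coeff k φ)

/-- The variable `s`. -/
def sX : BS := PowerSeries.X

/-- The variable `t`. -/
def tX : BS := PowerSeries.C PowerSeries.X

/-- Real constants. -/
def cR (a : ℝ) : BS := PowerSeries.C (PowerSeries.C a)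

lemma bsExt {φ ψ : BS} (h : ∀ k l, cf k l φ = cf k l ψ) : φ = ψ :=
  PowerSeries.ext fun k => PowerSeries.ext fun l => h k l

lemma cf_add (k l : ℕ) (φ ψ : BS) : cf k l (φ + ψ) = cf k l φ + cf k l ψ := by simp [cf]

lemma cf_sub (k l : ℕ) (φ ψ : BS) : cf k l (φ - ψ) = cf k l φ - cf k l ψ := by simp [cf]

lemma cf_cR_mul (k l : ℕ) (a : ℝ) (φ : BS) : cf k l (cR a * φ) = a * cf k l φ := by
  unfold cf cR; rw [coeff_C_mul, coeff_C_mul]

lemma cf_sX_zero (l : ℕ) (φ : BS) : cf 0 l (sX * φ) = 0 := by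
  unfold cf sX; rw [coeff_zero_X_mul, map_zero]

lemma cf_sX_succ (k l : ℕ) (φ : BS) : cf (k + 1) l (sX * φ) = cf k l φ := by
  unfold cf sX; rw [coeff_succ_X_mul]

lemma cf_tX_zero (k : ℕ) (φ : BS) : cf k 0 (tX * φ) = 0 := by
  unfold cf tX; rw [coeff_C_mul, coeff_zero_X_mul]

lemma cf_tX_succ (k l : ℕ) (φ : BS) : cf k (l + 1) (tX * φ) = cf k l φ := by
  unfold cf tX; rw [coeff_C_mul, coeff_succ_X_mul]

lemma cf_mul (k l : ℕ) (φ ψ : BS) : cf k l (φ * ψ) =
    ∑ x ∈ antidiagonal k, ∑ y ∈ antidiagonal l, cf x.1 y.1 φ * cf x.2 y.2 ψ := by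
  unfold cf
  rw [coeff_mul, map_sum]
  simp only [coeff_mul]

/-- `∑_{k,l} P(m | k,l) s^k t^l`. -/
def GS (η : ℝ) (m : ℕ) : BS := PowerSeries.mk fun k => PowerSeries.mk fun l => bsProb η k l m

lemma cf_GS (η : ℝ) (k l m : ℕ) : cf k l (GS η m) = bsProb η k l m := by simp [cf, GS]

/-- `α = 1 - (1-η) s - η t`. -/
def alpha (η : ℝ) : BS := 1 - cR (1 - η) * sX - cR η * tX

/-- `β = η s + (1-η) t - s t`. -/
def beta (η : ℝ) : BS := cR η * sX + cR (1 - η) * tX - sX * tX

lemma alpha_sub_beta (η : ℝ) : alpha η - beta η = (1 - sX) * (1 - tX) := by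
  unfold alpha beta
  have h : cR (1 - η) = 1 - cR η := by simp [cR, map_sub]
  rw [h]; ring

variable {η : ℝ}

lemma alpha_mul_GS_zero (h0 : 0 ≤ η) (h1 : η ≤ 1) : alpha η * GS η 0 = 1 := by
  apply bsExt
  intro k l
  simp only [alpha, sub_mul, one_mul, mul_assoc, cf_sub, cf_cR_mul]
  rcases k with _ | k <;> rcases l with _ | l
  · simp only [cf_sX_zero, cf_tX_zero, cf_GS, bsProb_zero h0 h1]
    simp [cf]
  · simp only [cf_sX_zero, cf_tX_succ, cf_GS, bsProb_left_zero h0 h1]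
    simp [cf, pow_succ]
    ring
  · simp only [cf_sX_succ, cf_tX_zero, cf_GS, bsProb_right_zero h0 h1]
    simp [cf, pow_succ, coeff_one]
    ring
  · simp only [cf_sX_succ, cf_tX_succ, cf_GS, bsProb_rec_zero h0 h1]
    simp [cf, coeff_one]
    ring

lemma alpha_mul_GS_succ (h0 : 0 ≤ η) (h1 : η ≤ 1) (m : ℕ) :
    alpha η * GS η (m + 1) = beta η * GS η m := by
  apply bsExt
  intro k l
  simp only [alpha, beta, add_mul, sub_mul, one_mul, mul_assoc, cf_sub, cf_add, cf_cR_mul]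
  rcases k with _ | k <;> rcases l with _ | l
  · simp only [cf_sX_zero, cf_tX_zero, cf_GS]
    simp [bsProb_of_lt η (show 0 + 0 < m + 1 by omega)]
  · simp only [cf_sX_zero, cf_tX_succ, cf_GS, bsProb_rec_left_zero h0 h1]
    ring
  · simp only [cf_sX_succ, cf_tX_zero, cf_GS, bsProb_rec_right_zero h0 h1]
    ring
  · simp only [cf_sX_succ, cf_tX_succ, cf_GS, bsProb_rec h0 h1]
    ring

lemma GS_eq (h0 : 0 ≤ η) (h1 : η ≤ 1) : ∀ m, GS η m = beta η ^ m * GS η 0 ^ (m + 1) := by
  intro m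
  induction m with
  | zero => simp
  | succ m ih =>
    calc GS η (m + 1) = (alpha η * GS η 0) * GS η (m + 1) := by rw [alpha_mul_GS_zero h0 h1, one_mul]
      _ = (alpha η * GS η (m + 1)) * GS η 0 := by ring
      _ = beta η * GS η m * GS η 0 := by rw [alpha_mul_GS_succ h0 h1]
      _ = _ := by rw [ih]; ring

/-- The mixing kernel `W_m = (m+1) β^m G₀^(m+2)`. -/
def WS (η : ℝ) (m : ℕ) : BS := cR ((m : ℝ) + 1) * (beta η ^ m * GS η 0 ^ (m + 2))

lemma GS_diff (h0 : 0 ≤ η) (h1 : η ≤ 1) (m : ℕ) :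
    cR ((m : ℝ) + 1) * (GS η m - GS η (m + 1)) = (1 - sX) * (1 - tX) * WS η m := by
  rw [← alpha_sub_beta η, WS, GS_eq h0 h1 m, GS_eq h0 h1 (m + 1)]
  linear_combination (-(cR ((m : ℝ) + 1) * beta η ^ m * GS η 0 ^ (m + 1))) * alpha_mul_GS_zero h0 h1

lemma GS_shift (h0 : 0 ≤ η) (h1 : η ≤ 1) (m : ℕ) :
    cR ((m : ℝ) + 1) * GS η (m + 1)
      = cR η * (sX * (1 - tX) * WS η m) + cR (1 - η) * (tX * (1 - sX) * WS η m) := by
  rw [WS, GS_eq h0 h1 (m + 1), beta]
  have h : cR (1 - η) = 1 - cR η := by simp [cR, map_sub]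
  rw [h]; ring

lemma cR_natCast (n : ℕ) : cR (n : ℝ) = (n : BS) := by simp [cR]

lemma WS_eq_sum (h0 : 0 ≤ η) (h1 : η ≤ 1) (m : ℕ) :
    WS η m = ∑ a ∈ Finset.range (m + 1), GS η a * GS η (m - a) := by
  have e : ∀ a ∈ Finset.range (m + 1), GS η a * GS η (m - a) = beta η ^ m * GS η 0 ^ (m + 2) := by
    intro a ha
    rw [Finset.mem_range] at ha
    rw [GS_eq h0 h1 a, GS_eq h0 h1 (m - a)]
    calc beta η ^ a * GS η 0 ^ (a + 1) * (beta η ^ (m - a) * GS η 0 ^ (m - a + 1))
        = beta η ^ (a + (m - a)) * GS η 0 ^ ((a + 1) + (m - a + 1)) := by ring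
      _ = _ := by congr 2 <;> omega
  rw [Finset.sum_congr rfl e, Finset.sum_const, Finset.card_range, WS, nsmul_eq_mul]
  congr 1
  rw [← Nat.cast_add_one, cR_natCast]

lemma cf_WS_nonneg (h0 : 0 ≤ η) (h1 : η ≤ 1) (k l m : ℕ) : 0 ≤ cf k l (WS η m) := by
  rw [WS_eq_sum h0 h1]
  have : ∀ s : Finset ℕ, cf k l (∑ a ∈ s, GS η a * GS η (m - a))
      = ∑ a ∈ s, cf k l (GS η a * GS η (m - a)) := fun s => by simp [cf]
  rw [this]
  refine Finset.sum_nonneg fun a _ => ?_
  rw [cf_mul]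
  exact Finset.sum_nonneg fun x _ => Finset.sum_nonneg fun y _ => by
    simp only [cf_GS]; exact mul_nonneg (bsProb_nonneg _ _ _ _) (bsProb_nonneg _ _ _ _)

lemma cf_WS_of_lt (h0 : 0 ≤ η) (h1 : η ≤ 1) {k l m : ℕ} (h : k + l < m) :
    cf k l (WS η m) = 0 := by
  rw [WS_eq_sum h0 h1]
  have : ∀ s : Finset ℕ, cf k l (∑ a ∈ s, GS η a * GS η (m - a))
      = ∑ a ∈ s, cf k l (GS η a * GS η (m - a)) := fun s => by simp [cf]
  rw [this]
  refine Finset.sum_eq_zero fun a ha => ?_
  rw [cf_mul]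
  refine Finset.sum_eq_zero fun x hx => Finset.sum_eq_zero fun y hy => ?_
  rw [HasAntidiagonal.mem_antidiagonal] at hx hy
  rw [Finset.mem_range] at ha
  simp only [cf_GS]
  rcases lt_or_ge (x.1 + y.1) a with h' | h'
  · rw [bsProb_of_lt η h', zero_mul]
  · rw [bsProb_of_lt η (show x.2 + y.2 < m - a by omega), mul_zero]

lemma sum_bsProb (h0 : 0 ≤ η) (h1 : η ≤ 1) : ∀ k l N : ℕ, k + l ≤ N →
    ∑ m ∈ Finset.range (N + 1), bsProb η k l m = 1 := by
  suffices ∀ n k l N : ℕ, k + l = n → k + l ≤ N →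
      ∑ m ∈ Finset.range (N + 1), bsProb η k l m = 1 from fun k l N h => this _ k l N rfl h
  intro n
  induction n using Nat.strong_induction_on with
  | _ n ih =>
    intro k l N hn hN
    rcases k with _ | k <;> rcases l with _ | l
    · rw [Finset.sum_range_succ']
      have : ∀ m, bsProb η 0 0 (m + 1) = 0 := fun m => bsProb_of_lt η (by omega)
      simp [this, bsProb_zero h0 h1]
    · obtain ⟨N, rfl⟩ : ∃ N', N = N' + 1 := ⟨N - 1, by omega⟩
      have a1 := ih (0 + l) (by omega) 0 l N rfl (by omega)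
      have a2 := ih (0 + l) (by omega) 0 l (N + 1) rfl (by omega)
      rw [Finset.sum_range_succ'] at a2
      rw [Finset.sum_range_succ', Finset.sum_congr rfl fun m _ => bsProb_rec_left_zero h0 h1 l m,
        Finset.sum_add_distrib, ← Finset.mul_sum, ← Finset.mul_sum, a1]
      have hz : bsProb η 0 (l + 1) 0 = η * bsProb η 0 l 0 := by
        simp only [bsProb_left_zero h0 h1]; simp [pow_succ]; ring
      rw [hz]
      linear_combination η * a2
    · obtain ⟨N, rfl⟩ : ∃ N', N = N' + 1 := ⟨N - 1, by omega⟩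
      have a1 := ih (k + 0) (by omega) k 0 N rfl (by omega)
      have a2 := ih (k + 0) (by omega) k 0 (N + 1) rfl (by omega)
      rw [Finset.sum_range_succ'] at a2
      rw [Finset.sum_range_succ', Finset.sum_congr rfl fun m _ => bsProb_rec_right_zero h0 h1 k m,
        Finset.sum_add_distrib, ← Finset.mul_sum, ← Finset.mul_sum, a1]
      have hz : bsProb η (k + 1) 0 0 = (1 - η) * bsProb η k 0 0 := by
        simp only [bsProb_right_zero h0 h1]; simp [pow_succ]; ring
      rw [hz]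
      linear_combination (1 - η) * a2
    · obtain ⟨N, rfl⟩ : ∃ N', N = N' + 1 := ⟨N - 1, by omega⟩
      have a1 := ih (k + (l + 1)) (by omega) k (l + 1) N rfl (by omega)
      have a2 := ih (k + (l + 1)) (by omega) k (l + 1) (N + 1) rfl (by omega)
      have b1 := ih (k + 1 + l) (by omega) (k + 1) l N rfl (by omega)
      have b2 := ih (k + 1 + l) (by omega) (k + 1) l (N + 1) rfl (by omega)
      have c1 := ih (k + l) (by omega) k l N rfl (by omega)
      rw [Finset.sum_range_succ'] at a2 b2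
      rw [Finset.sum_range_succ', Finset.sum_congr rfl fun m _ => bsProb_rec h0 h1 k l m,
        bsProb_rec_zero h0 h1]
      simp only [Finset.sum_add_distrib, Finset.sum_sub_distrib, ← Finset.mul_sum]
      rw [a1, b1, c1]
      linear_combination (1 - η) * a2 + η * b2

lemma sum_cf_WS (h0 : 0 ≤ η) (h1 : η ≤ 1) (k l N : ℕ) (hN : k + l ≤ N) :
    ∑ m ∈ Finset.range (N + 1), cf k l (WS η m) = ((k : ℝ) + 1) * ((l : ℝ) + 1) := by
  suffices key : ∀ n k l : ℕ, k + l = n → n ≤ N →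
      ∑ m ∈ Finset.range (N + 1), cf k l (WS η m) = ((k : ℝ) + 1) * ((l : ℝ) + 1) from
    key _ k l rfl hN
  intro n
  induction n using Nat.strong_induction_on with
  | _ n ih =>
    intro k l hn hnN
    have htel : ∀ M : ℕ, ∑ m ∈ Finset.range M, ((m : ℝ) + 1) *
        (bsProb η k l m - bsProb η k l (m + 1)) =
        ∑ m ∈ Finset.range M, bsProb η k l m - (M : ℝ) * bsProb η k l M := by
      intro M
      induction M with
      | zero => simp
      | succ M ihM => rw [Finset.sum_range_succ, ihM, Finset.sum_range_succ]; push_cast; ring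
    have hsum : ∑ m ∈ Finset.range (N + 1), cf k l ((1 - sX) * (1 - tX) * WS η m) = 1 := by
      simp_rw [← GS_diff h0 h1, cf_cR_mul, cf_sub, cf_GS]
      rw [htel, sum_bsProb h0 h1 k l N (by omega),
        bsProb_of_lt η (show k + l < N + 1 by omega)]
      simp
    have e : ∀ φ : BS, (1 - sX) * (1 - tX) * φ = φ - sX * φ - tX * φ + sX * (tX * φ) :=
      fun φ => by ring
    simp_rw [e, cf_add, cf_sub, Finset.sum_add_distrib, Finset.sum_sub_distrib] at hsum
    rcases k with _ | k <;> rcases l with _ | l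
    · simp only [cf_sX_zero, cf_tX_zero, Finset.sum_const_zero] at hsum
      simp; linarith
    · have a := ih (0 + l) (by omega) 0 l rfl (by omega)
      simp only [cf_sX_zero, cf_tX_succ, Finset.sum_const_zero] at hsum
      push_cast at a ⊢; linarith
    · have a := ih (k + 0) (by omega) k 0 rfl (by omega)
      simp only [cf_sX_succ, cf_tX_zero, Finset.sum_const_zero] at hsum
      push_cast at a ⊢; linarith
    · have a := ih (k + (l + 1)) (by omega) k (l + 1) rfl (by omega)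
      have b := ih (k + 1 + l) (by omega) (k + 1) l rfl (by omega)
      have c := ih (k + l) (by omega) k l rfl (by omega)
      simp only [cf_sX_succ, cf_tX_succ] at hsum
      push_cast at a b c ⊢; linarith

end Vale.Agent.P369
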