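import Vale.Agent.P369.Model
import Vale.Agent.P369.Rearr

/-!
A Fock-diagonal input in any order against its decreasing rearrangement, when the other input is a
finite mixture of thermal states.
-/

open Finset Real Filter Topology

noncomputable section

namespace Vale.Agent.P369

/-- Thermal distribution. -/
def geo (z : ℝ) (l : ℕ) : ℝ := (1 - z) * z ^ l

/-- Pure-loss kernel with transmission `p`. -/
def lossK (p : ℝ) : ℕ → ℕ → ℝ
  | 0, 0 => 1
  | 0, _ + 1 => 0
  | i + 1, 0 => (1 - p) * lossK p i 0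
  | i + 1, l + 1 => (1 - p) * lossK p i (l + 1) + p * lossK p i l

/-- Pure-amplifier kernel with parameter `c`. -/
def ampK (c : ℝ) : ℕ → ℕ → ℝ
  | 0, 0 => 1 - c
  | _ + 1, 0 => 0
  | 0, m + 1 => c * ampK c 0 m
  | l + 1, m + 1 => c * ampK c (l + 1) m + (1 - c) * ampK c l m

/-- Loss followed by amplification. -/
def compK (p c : ℝ) (i m : ℕ) : ℝ := ∑ l ∈ range (i + 1), lossK p i l * ampK c l m

variable {p c : ℝ}

lemma lossK_nonneg (h0 : 0 ≤ p) (h1 : p ≤ 1) : ∀ i l, 0 ≤ lossK p i l := by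
  intro i
  induction i with
  | zero => intro l; cases l <;> simp [lossK]
  | succ i ih =>
    intro l
    cases l with
    | zero => exact mul_nonneg (sub_nonneg.2 h1) (ih 0)
    | succ l => exact add_nonneg (mul_nonneg (sub_nonneg.2 h1) (ih _)) (mul_nonneg h0 (ih _))

lemma lossK_of_lt : ∀ {i l : ℕ}, i < l → lossK p i l = 0 := by
  intro i
  induction i with
  | zero => intro l hl; cases l with | zero => omega | succ l => rfl
  | succ i ih =>
    intro l hl
    cases l with
    | zero => omega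
    | succ l => simp [lossK, ih (show i < l + 1 by omega), ih (show i < l by omega)]

lemma sum_lossK (p : ℝ) : ∀ i, ∑ l ∈ range (i + 1), lossK p i l = 1 := by
  intro i
  induction i with
  | zero => simp [lossK]
  | succ i ih =>
    rw [Finset.sum_range_succ']
    simp only [lossK, Finset.sum_add_distrib, ← Finset.mul_sum, ih]
    have e := Finset.sum_range_succ' (fun l => lossK p i l) (i + 1)
    rw [Finset.sum_range_succ, lossK_of_lt (Nat.lt_succ_self i), add_zero, ih] at e
    linear_combination -(1 - p) * e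

lemma ampK_nonneg (h0 : 0 ≤ c) (h1 : c ≤ 1) : ∀ l m, 0 ≤ ampK c l m := by
  intro l m
  induction m generalizing l with
  | zero => cases l <;> simp [ampK, h1]
  | succ m ih =>
    cases l with
    | zero => exact mul_nonneg h0 (ih 0)
    | succ l => exact add_nonneg (mul_nonneg h0 (ih _)) (mul_nonneg (sub_nonneg.2 h1) (ih _))

/-! ### Set optimality of the two kernels -/

lemma loss_col_le (h0 : 0 ≤ p) (h1 : p ≤ 1) :
    ∀ n l, p * ∑ i ∈ range n, lossK p i l ≤ 1 := by
  intro n
  induction n with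
  | zero => simp
  | succ n ih =>
    intro l
    rw [Finset.sum_range_succ']
    cases l with
    | zero =>
      simp only [lossK, ← Finset.mul_sum]
      have h := mul_le_mul_of_nonneg_left (ih 0) (sub_nonneg.2 h1)
      linarith
    | succ l =>
      simp only [lossK, Finset.sum_add_distrib, ← Finset.mul_sum, add_zero]
      have := mul_le_mul_of_nonneg_left (ih (l + 1)) (sub_nonneg.2 h1)
      have := mul_le_mul_of_nonneg_left (ih l) h0
      linarith

/-- Sums of a kernel over an initial rectangle. -/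
def rect (K : ℕ → ℕ → ℝ) (r k : ℕ) : ℝ := ∑ i ∈ range r, ∑ j ∈ range k, K i j

lemma rect_mono {K : ℕ → ℕ → ℝ} (hK : ∀ i j, 0 ≤ K i j) {r r' k k' : ℕ} (hr : r ≤ r') (hk : k ≤ k') :
    rect K r k ≤ rect K r' k' := by
  refine (Finset.sum_le_sum fun i _ => ?_).trans (Finset.sum_le_sum_of_subset_of_nonneg
    (Finset.range_subset_range.2 hr) fun i _ _ => Finset.sum_nonneg fun j _ => hK i j)
  exact Finset.sum_le_sum_of_subset_of_nonneg (Finset.range_subset_range.2 hk) fun j _ _ => hK i j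

lemma rect_loss_succ (r k : ℕ) : rect (lossK p) (r + 1) (k + 1) =
    1 + (1 - p) * rect (lossK p) r (k + 1) + p * rect (lossK p) r k := by
  simp only [rect]
  rw [Finset.sum_range_succ']
  simp only [Finset.sum_range_succ' _ k, lossK, Finset.sum_add_distrib, ← Finset.mul_sum,
    Finset.sum_const_zero, zero_add]
  ring

lemma rect_loss_row_gap (h0 : 0 ≤ p) (h1 : p ≤ 1) (r k : ℕ) :
    p * (rect (lossK p) r (k + 1) - rect (lossK p) r k) ≤ 1 := by
  simp only [rect, Finset.sum_range_succ, Finset.sum_add_distrib, add_sub_cancel_left]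
  exact loss_col_le h0 h1 r k

lemma sum_loss_split (R K : Finset ℕ) : ∑ i ∈ R, ∑ k ∈ K, lossK p i k =
    (if 0 ∈ R then (if 0 ∈ K then 1 else 0) else 0)
      + (1 - p) * (∑ i ∈ predSet R, ∑ k ∈ K, lossK p i k)
      + p * ∑ i ∈ predSet R, ∑ k ∈ predSet K, lossK p i k := by
  rw [sum_predSet R fun i => ∑ k ∈ K, lossK p i k, Finset.mul_sum, Finset.mul_sum, add_assoc,
    ← Finset.sum_add_distrib]
  congr 1
  · congr 1
    rw [sum_predSet K fun k => lossK p 0 k]
    simp [lossK]
  · refine Finset.sum_congr rfl fun i _ => ?_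
    rw [sum_predSet K fun k => lossK p (i + 1) k, sum_predSet K fun k => lossK p i k]
    simp only [lossK, Finset.sum_add_distrib, ← Finset.mul_sum]
    split_ifs <;> ring

/-- Set optimality of the loss kernel. -/
lemma loss_opt (h0 : 0 ≤ p) (h1 : p ≤ 1) : ∀ (n : ℕ) (R : Finset ℕ), R ⊆ range n → ∀ K : Finset ℕ,
    ∑ i ∈ R, ∑ k ∈ K, lossK p i k ≤ rect (lossK p) R.card K.card := by
  intro n
  induction n with
  | zero =>
    intro R hR K
    rw [Finset.range_zero, Finset.subset_empty] at hR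
    subst hR
    simp [rect]
  | succ n ih =>
    intro R hR K
    have hn := lossK_nonneg h0 h1
    have hR' := predSet_bound hR
    have i1 := mul_le_mul_of_nonneg_left (ih _ hR' K) (sub_nonneg.2 h1)
    have i2 := mul_le_mul_of_nonneg_left (ih _ hR' (predSet K)) h0
    have cR := card_predSet R
    have cK := card_predSet K
    have hsplit := sum_loss_split (p := p) R K
    by_cases hr : 0 ∈ R <;> by_cases hk : 0 ∈ K <;> simp only [hr, hk, if_true, if_false] at cR cK hsplit
    · rw [← cR, ← cK, rect_loss_succ]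
      rw [← cK] at i1
      linarith
    · rw [add_zero] at cK
      rw [cK] at i2
      rcases Nat.eq_zero_or_pos K.card with hz | hz
      · rw [Finset.card_eq_zero.1 hz]
        simp [rect]
      obtain ⟨k', hk'⟩ : ∃ k', K.card = k' + 1 := ⟨K.card - 1, by omega⟩
      rw [← cR, hk', rect_loss_succ]
      rw [hk'] at i1 i2
      have := rect_loss_row_gap h0 h1 (predSet R).card k'
      linarith
    · rw [add_zero] at cR
      rw [cR] at i1 i2
      have := mul_le_mul_of_nonneg_left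
        (rect_mono hn (le_refl R.card) (show (predSet K).card ≤ K.card by omega)) h0
      linarith
    · rw [add_zero] at cR cK
      rw [cR] at i1 i2
      rw [cK] at i2
      linarith

lemma rect_amp_succ (r k : ℕ) : rect (ampK c) (r + 1) (k + 1) =
    (1 - c) + c * rect (ampK c) (r + 1) k + (1 - c) * rect (ampK c) r k := by
  simp only [rect]
  rw [Finset.sum_range_succ', Finset.sum_range_succ' _ r]
  simp only [Finset.sum_range_succ' _ k, ampK, Finset.sum_add_distrib, ← Finset.mul_sum,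
    Finset.sum_const_zero, add_zero]
  ring

lemma sum_amp_split (R K : Finset ℕ) : ∑ i ∈ R, ∑ k ∈ K, ampK c i k =
    (if 0 ∈ K then (if 0 ∈ R then 1 - c else 0) else 0)
      + c * (∑ i ∈ R, ∑ k ∈ predSet K, ampK c i k)
      + (1 - c) * ∑ i ∈ predSet R, ∑ k ∈ predSet K, ampK c i k := by
  rw [Finset.sum_comm, sum_predSet K fun k => ∑ i ∈ R, ampK c i k, Finset.mul_sum, Finset.mul_sum,
    add_assoc]
  congr 1
  · congr 1
    rw [sum_predSet R fun i => ampK c i 0]
    simp [ampK]
  · rw [Finset.sum_comm, sum_predSet R, sum_predSet R, ← Finset.mul_sum]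
    rw [add_assoc, Finset.mul_sum (predSet R), ← Finset.sum_add_distrib]
    congr 1
    · split_ifs <;> simp [ampK, Finset.mul_sum]
    · refine Finset.sum_congr rfl fun i _ => ?_
      simp only [ampK, Finset.sum_add_distrib, ← Finset.mul_sum]

/-- Set optimality of the amplifier kernel. -/
lemma amp_opt (h0 : 0 ≤ c) (h1 : c ≤ 1) : ∀ (n : ℕ) (K : Finset ℕ), K ⊆ range n → ∀ R : Finset ℕ,
    ∑ i ∈ R, ∑ k ∈ K, ampK c i k ≤ rect (ampK c) R.card K.card := by
  intro n
  induction n with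
  | zero =>
    intro K hK R
    rw [Finset.range_zero, Finset.subset_empty] at hK
    subst hK
    simp [rect]
  | succ n ih =>
    intro K hK R
    have hn := ampK_nonneg h0 h1
    have hK' := predSet_bound hK
    have i1 := mul_le_mul_of_nonneg_left (ih _ hK' R) h0
    have i2 := mul_le_mul_of_nonneg_left (ih _ hK' (predSet R)) (sub_nonneg.2 h1)
    have cR := card_predSet R
    have cK := card_predSet K
    have hsplit := sum_amp_split (c := c) R K
    by_cases hr : 0 ∈ R <;> by_cases hk : 0 ∈ K <;> simp only [hr, hk, if_true, if_false] at cR cK hsplit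
    · rw [← cR, ← cK, rect_amp_succ]
      rw [← cR] at i1
      linarith
    · rw [add_zero] at cK
      rw [cK] at i1 i2
      have := mul_le_mul_of_nonneg_left
        (rect_mono hn (show (predSet R).card ≤ R.card by omega) (le_refl K.card)) (sub_nonneg.2 h1)
      linarith
    · rw [add_zero] at cR
      rw [cR] at i2
      have := rect_mono hn (le_refl R.card) (show (predSet K).card ≤ K.card by omega)
      linarith
    · rw [add_zero] at cR cK
      rw [cR, cK] at i2
      rw [cK] at i1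
      linarith

lemma amp_prefix_antitone (h0 : 0 ≤ c) (h1 : c ≤ 1) (k : ℕ) :
    Antitone fun l => ∑ m ∈ range k, ampK c l m := by
  refine antitone_nat_of_succ_le fun l => ?_
  induction k with
  | zero => simp
  | succ k ih =>
    have hl : ∑ m ∈ range k, ampK c l m ≤ ∑ m ∈ range (k + 1), ampK c l m :=
      Finset.sum_le_sum_of_subset_of_nonneg (Finset.range_subset_range.2 (Nat.le_succ k))
        fun j _ _ => ampK_nonneg h0 h1 l j
    refine le_trans ?_ hl
    rw [Finset.sum_range_succ']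
    simp only [ampK, Finset.sum_add_distrib, ← Finset.mul_sum, add_zero]
    have := mul_le_mul_of_nonneg_left ih h0
    linarith

/-! ### The composite kernel -/

lemma compK_eq (i m : ℕ) {n : ℕ} (hn : i < n) :
    compK p c i m = ∑ l ∈ range n, lossK p i l * ampK c l m := by
  refine Finset.sum_subset (Finset.range_subset_range.2 hn) fun l _ hl => ?_
  rw [lossK_of_lt (by simpa [Finset.mem_range] using hl), zero_mul]

lemma compK_nonneg (h0 : 0 ≤ p) (h1 : p ≤ 1) (h2 : 0 ≤ c) (h3 : c ≤ 1) (i m : ℕ) :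
    0 ≤ compK p c i m :=
  Finset.sum_nonneg fun l _ => mul_nonneg (lossK_nonneg h0 h1 i l) (ampK_nonneg h2 h3 l m)

lemma compK_sets (h0 : 0 ≤ p) (h1 : p ≤ 1) (h2 : 0 ≤ c) (h3 : c ≤ 1) (R K : Finset ℕ) :
    ∑ i ∈ R, ∑ m ∈ K, compK p c i m ≤ rect (compK p c) R.card K.card := by
  obtain ⟨n, hnR, hnr⟩ : ∃ n, (∀ i ∈ R, i < n) ∧ R.card ≤ n :=
    ⟨R.sup id + 1 + R.card, fun i hi => by
      have := Finset.le_sup (f := id) hi
      simp only [id] at this
      omega, by omega⟩
  have e : ∀ (S T : Finset ℕ), (∀ i ∈ S, i < n) → ∑ i ∈ S, ∑ m ∈ T, compK p c i m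
      = ∑ l ∈ range n, (∑ i ∈ S, lossK p i l) * ∑ m ∈ T, ampK c l m := by
    intro S T hS
    rw [Finset.sum_congr rfl fun i hi => Finset.sum_congr rfl fun m _ => compK_eq i m (hS i hi)]
    simp only [Finset.sum_mul_sum]
    rw [Finset.sum_comm (s := range n)]
    exact Finset.sum_congr rfl fun i _ => Finset.sum_comm
  rw [e R K hnR, rect, e (range R.card) (range K.card)
    fun i hi => lt_of_lt_of_le (Finset.mem_range.1 hi) hnr]
  refine sum_mul_le_majorant (fun l _ => Finset.sum_nonneg fun i _ => lossK_nonneg h0 h1 i l)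
    (amp_prefix_antitone h2 h3 _) (fun l => Finset.sum_nonneg fun m _ => ampK_nonneg h2 h3 l m)
    (fun S _ => ?_) (fun S _ => ?_)
  · rw [Finset.sum_comm, Finset.sum_comm (s := range S.card)]
    exact loss_opt h0 h1 (R.sup id + 1) R (fun i hi => Finset.mem_range.2 (Nat.lt_succ_of_le
      (Finset.le_sup (f := id) hi))) S
  · exact amp_opt h2 h3 (K.sup id + 1) K (fun i hi => Finset.mem_range.2 (Nat.lt_succ_of_le
      (Finset.le_sup (f := id) hi))) S

lemma compK_prefix_antitone (h0 : 0 ≤ p) (h1 : p ≤ 1) (h2 : 0 ≤ c) (h3 : c ≤ 1) (k : ℕ) :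
    Antitone fun i => ∑ m ∈ range k, compK p c i m := by
  refine antitone_nat_of_succ_le fun i => ?_
  have e : ∀ j n, j < n → ∑ m ∈ range k, compK p c j m
      = ∑ l ∈ range n, lossK p j l * ∑ m ∈ range k, ampK c l m := by
    intro j n hj
    rw [Finset.sum_congr rfl fun m _ => compK_eq j m hj, Finset.sum_comm]
    simp only [Finset.mul_sum]
  rw [e (i + 1) (i + 2) (by omega), e i (i + 2) (by omega)]
  have hA := amp_prefix_antitone h2 h3 k
  rw [Finset.sum_range_succ']
  simp only [lossK]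
  have hlast : lossK p i (i + 1) = 0 := lossK_of_lt (Nat.lt_succ_self i)
  have e1 : ∑ l ∈ range (i + 2), lossK p i l * ∑ m ∈ range k, ampK c l m
      = ∑ l ∈ range (i + 1), lossK p i l * ∑ m ∈ range k, ampK c l m := by
    rw [Finset.sum_range_succ, hlast, zero_mul, add_zero]
  have e2 := Finset.sum_range_succ' (fun l => lossK p i l * ∑ m ∈ range k, ampK c l m) (i + 1)
  rw [e1] at e2
  have h4 : ∑ l ∈ range (i + 1), lossK p i l * ∑ m ∈ range k, ampK c (l + 1) m
      ≤ ∑ l ∈ range (i + 1), lossK p i l * ∑ m ∈ range k, ampK c l m :=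
    Finset.sum_le_sum fun l _ =>
      mul_le_mul_of_nonneg_left (hA (Nat.le_succ l)) (lossK_nonneg h0 h1 i l)
  simp only [add_mul, mul_assoc, Finset.sum_add_distrib, ← Finset.mul_sum]
  rw [e1]
  have := mul_le_mul_of_nonneg_left h4 h0
  linear_combination this + (1 - p) * e2.symm.le

lemma ampK_hasSum (h0 : 0 ≤ c) (h1 : c < 1) : ∀ l, HasSum (ampK c l) 1 := by
  intro l
  induction l with
  | zero =>
    have e : ∀ m, ampK c 0 m = (1 - c) * c ^ m := by
      intro m
      induction m with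
      | zero => simp [ampK]
      | succ m ih => rw [ampK, ih]; ring
    have := (hasSum_geometric_of_lt_one h0 h1).mul_left (1 - c)
    rw [mul_inv_cancel₀ (by linarith)] at this
    exact this.congr_fun e
  | succ l ih =>
    have hn := ampK_nonneg h0 h1.le
    have hb : ∀ n, ∑ m ∈ range n, ampK c (l + 1) m ≤ 1 := by
      intro n
      induction n with
      | zero => simp
      | succ n ihn =>
        rw [Finset.sum_range_succ']
        simp only [ampK, Finset.sum_add_distrib, ← Finset.mul_sum, add_zero]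
        have := mul_le_mul_of_nonneg_left ihn h0
        have := mul_le_mul_of_nonneg_left (sum_le_hasSum (range n) (fun m _ => hn l m) ih)
          (sub_nonneg.2 h1.le)
        linarith
    have hs : Summable (ampK c (l + 1)) := summable_of_sum_range_le (hn (l + 1)) hb
    set S := ∑' m, ampK c (l + 1) m
    have h := (hasSum_nat_add_iff' (f := ampK c (l + 1)) 1).2 hs.hasSum
    simp only [Finset.sum_range_one, ampK, sub_zero] at h
    have h' : HasSum (fun m => c * ampK c (l + 1) m + (1 - c) * ampK c l m) (c * S + (1 - c) * 1) :=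
      (hs.hasSum.mul_left c).add (ih.mul_left (1 - c))
    have := h.unique h'
    have hS : S = 1 := by
      have : (1 - c) * (S - 1) = 0 := by linear_combination this
      rcases mul_eq_zero.1 this with h | h
      · linarith
      · linarith
    exact hS ▸ hs.hasSum

lemma ampK_mean_le (h0 : 0 ≤ c) (h1 : c < 1) : ∀ l n,
    ∑ m ∈ range n, (m : ℝ) * ampK c l m ≤ ((l : ℝ) + 1) / (1 - c) := by
  intro l
  have hn := ampK_nonneg h0 h1.le
  have hc : 0 < 1 - c := sub_pos.2 h1
  induction l with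
  | zero =>
    intro n
    induction n with
    | zero => rw [Finset.range_zero, Finset.sum_empty]; exact div_nonneg (by positivity) hc.le
    | succ n ihn =>
      rw [Finset.sum_range_succ']
      simp only [ampK, Nat.cast_zero, zero_mul, add_zero, zero_add]
      have e : ∑ m ∈ range n, ((m + 1 : ℕ) : ℝ) * (c * ampK c 0 m)
          = c * (∑ m ∈ range n, (m : ℝ) * ampK c 0 m) + c * ∑ m ∈ range n, ampK c 0 m := by
        rw [Finset.mul_sum, Finset.mul_sum, ← Finset.sum_add_distrib]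
        exact Finset.sum_congr rfl fun m _ => by push_cast; ring
      rw [e]
      have a1 := mul_le_mul_of_nonneg_left ihn h0
      have a2 := mul_le_mul_of_nonneg_left
        (sum_le_hasSum (range n) (fun m _ => hn 0 m) (ampK_hasSum h0 h1 0)) h0
      have e2 : c * ((((0 : ℕ) : ℝ) + 1) / (1 - c)) + c * 1 ≤ (0 + 1) / (1 - c) := by
        rw [le_div_iff₀ hc]
        push_cast
        field_simp
        nlinarith
      linarith
  | succ l ih =>
    intro n
    induction n with
    | zero => rw [Finset.range_zero, Finset.sum_empty]; exact div_nonneg (by positivity) hc.le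
    | succ n ihn =>
      rw [Finset.sum_range_succ']
      simp only [ampK, Nat.cast_zero, zero_mul, add_zero]
      have e : ∑ m ∈ range n, ((m + 1 : ℕ) : ℝ) * (c * ampK c (l + 1) m + (1 - c) * ampK c l m)
          = c * (∑ m ∈ range n, (m : ℝ) * ampK c (l + 1) m) + c * (∑ m ∈ range n, ampK c (l + 1) m)
            + ((1 - c) * (∑ m ∈ range n, (m : ℝ) * ampK c l m)
              + (1 - c) * ∑ m ∈ range n, ampK c l m) := by
        simp only [Finset.mul_sum, ← Finset.sum_add_distrib]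
        exact Finset.sum_congr rfl fun m _ => by push_cast; ring
      rw [e]
      have a1 := mul_le_mul_of_nonneg_left ihn h0
      have a2 := mul_le_mul_of_nonneg_left
        (sum_le_hasSum (range n) (fun m _ => hn (l + 1) m) (ampK_hasSum h0 h1 (l + 1))) h0
      have a3 := mul_le_mul_of_nonneg_left (ih n) hc.le
      have a4 := mul_le_mul_of_nonneg_left
        (sum_le_hasSum (range n) (fun m _ => hn l m) (ampK_hasSum h0 h1 l)) hc.le
      have e2 : c * ((((l + 1 : ℕ) : ℝ) + 1) / (1 - c)) + c * 1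
          + ((1 - c) * (((l : ℝ) + 1) / (1 - c)) + (1 - c) * 1)
          = (((l + 1 : ℕ) : ℝ) + 1) / (1 - c) := by
        push_cast
        field_simp
        ring
      linarith

lemma compK_hasSum (h2 : 0 ≤ c) (h3 : c < 1) (i : ℕ) : HasSum (compK p c i) 1 := by
  have h := hasSum_sum (s := range (i + 1)) fun l _ => (ampK_hasSum h2 h3 l).mul_left (lossK p i l)
  simp only [mul_one, sum_lossK] at h
  exact h

lemma compK_mean (h2 : 0 ≤ c) (h3 : c < 1) (i : ℕ) :
    Summable fun m : ℕ => (m : ℝ) * compK p c i m := by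
  have hs : ∀ l, Summable fun m : ℕ => (m : ℝ) * ampK c l m := fun l =>
    summable_of_sum_range_le (fun m => mul_nonneg (Nat.cast_nonneg m) (ampK_nonneg h2 h3.le l m))
      (ampK_mean_le h2 h3 l)
  have := summable_sum (s := range (i + 1)) fun l _ => (hs l).mul_left (lossK p i l)
  refine this.congr fun m => ?_
  rw [compK, Finset.mul_sum]
  exact Finset.sum_congr rfl fun l _ => by ring

/-! ### The beam splitter with a thermal second input -/

variable {η z : ℝ}

/-- Transmission of the loss part. -/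
def etaLoss (η z : ℝ) : ℝ := η * (1 - z) / (1 - η * z)

/-- Parameter of the amplifier part. -/
def cAmp (η z : ℝ) : ℝ := (1 - η) * z / (1 - η * z)

lemma thermal_den (h1 : η ≤ 1) (hz : 0 ≤ z) (hz1 : z < 1) : 0 < 1 - η * z := by
  have := mul_le_mul_of_nonneg_right h1 hz
  linarith

lemma etaLoss_nonneg (h0 : 0 ≤ η) (h1 : η ≤ 1) (hz : 0 ≤ z) (hz1 : z < 1) : 0 ≤ etaLoss η z :=
  div_nonneg (mul_nonneg h0 (by linarith)) (thermal_den h1 hz hz1).le

lemma etaLoss_le_one (h1 : η ≤ 1) (hz : 0 ≤ z) (hz1 : z < 1) : etaLoss η z ≤ 1 := by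
  rw [etaLoss, div_le_one (thermal_den h1 hz hz1)]
  linarith

lemma cAmp_nonneg (h1 : η ≤ 1) (hz : 0 ≤ z) (hz1 : z < 1) : 0 ≤ cAmp η z :=
  div_nonneg (mul_nonneg (by linarith) hz) (thermal_den h1 hz hz1).le

lemma cAmp_lt_one (h1 : η ≤ 1) (hz : 0 ≤ z) (hz1 : z < 1) : cAmp η z < 1 := by
  rw [cAmp, div_lt_one (thermal_den h1 hz hz1)]
  linarith

lemma thermal_bsProb_le_one (h0 : 0 ≤ η) (h1 : η ≤ 1) (i j m : ℕ) : bsProb η i j m ≤ 1 := by
  rcases lt_or_ge (i + j) m with h | h
  · rw [bsProb_of_lt η h]; exact zero_le_one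
  · rw [← sum_bsProb h0 h1 i j (i + j) le_rfl]
    exact Finset.single_le_sum (fun k _ => bsProb_nonneg η i j k) (Finset.mem_range.2 (by omega))

/-- Generating sum over the photon number of the second input. -/
def bsGen (η z : ℝ) (i m : ℕ) : ℝ := ∑' l, z ^ l * bsProb η i l m

lemma bsGen_summable (h0 : 0 ≤ η) (h1 : η ≤ 1) (hz : 0 ≤ z) (hz1 : z < 1) (i m : ℕ) :
    Summable fun l => z ^ l * bsProb η i l m :=
  (summable_geometric_of_lt_one hz hz1).of_nonneg_of_le
    (fun l => mul_nonneg (pow_nonneg hz l) (bsProb_nonneg η i l m))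
    fun l => mul_le_of_le_one_right (pow_nonneg hz l) (thermal_bsProb_le_one h0 h1 i l m)

lemma bsGen_step (h0 : 0 ≤ η) (h1 : η ≤ 1) (hz : 0 ≤ z) (hz1 : z < 1) (i m : ℕ) :
    (1 - η * z) * bsGen η z (i + 1) (m + 1) =
      (η - z) * bsGen η z i m + (1 - η) * bsGen η z i (m + 1) + (1 - η) * z * bsGen η z (i + 1) m := by
  have H := fun a b => (bsGen_summable h0 h1 hz hz1 a b).hasSum
  have hl := (hasSum_nat_add_iff' 1).2 (H (i + 1) (m + 1))
  have s1 := (hasSum_nat_add_iff' 1).2 (H i m)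
  have s2 := (hasSum_nat_add_iff' 1).2 (H i (m + 1))
  have s3 := (H (i + 1) m).mul_left z
  have s4 := (H (i + 1) (m + 1)).mul_left z
  have s5 := (H i m).mul_left z
  have hr := ((((s1.mul_left η).add (s2.mul_left (1 - η))).add (s3.mul_left (1 - η))).add
    (s4.mul_left η)).sub s5
  have he : ∀ l, z ^ (l + 1) * bsProb η (i + 1) (l + 1) (m + 1) =
      η * (z ^ (l + 1) * bsProb η i (l + 1) m) + (1 - η) * (z ^ (l + 1) * bsProb η i (l + 1) (m + 1))
        + (1 - η) * (z * (z ^ l * bsProb η (i + 1) l m))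
        + η * (z * (z ^ l * bsProb η (i + 1) l (m + 1))) - z * (z ^ l * bsProb η i l m) := by
    intro l
    rw [bsProb_rec h0 h1]
    ring
  have := hl.unique (hr.congr_fun he)
  simp only [Finset.sum_range_one, pow_zero, one_mul, bsProb_rec_right_zero h0 h1] at this
  unfold bsGen at *
  linear_combination this

lemma bsGen_step_zero (h0 : 0 ≤ η) (h1 : η ≤ 1) (hz : 0 ≤ z) (hz1 : z < 1) (i : ℕ) :
    (1 - η * z) * bsGen η z (i + 1) 0 = (1 - η) * bsGen η z i 0 := by
  have H := fun a b => (bsGen_summable h0 h1 hz hz1 a b).hasSum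
  have hl := (hasSum_nat_add_iff' 1).2 (H (i + 1) 0)
  have s2 := (hasSum_nat_add_iff' 1).2 (H i 0)
  have hr := (s2.mul_left (1 - η)).add (((H (i + 1) 0).mul_left z).mul_left η)
  have he : ∀ l, z ^ (l + 1) * bsProb η (i + 1) (l + 1) 0 =
      (1 - η) * (z ^ (l + 1) * bsProb η i (l + 1) 0) + η * (z * (z ^ l * bsProb η (i + 1) l 0)) := by
    intro l
    rw [bsProb_rec_zero h0 h1]
    ring
  have := hl.unique (hr.congr_fun he)
  simp only [Finset.sum_range_one, pow_zero, one_mul, bsProb_right_zero h0 h1, Nat.choose_zero_right,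
    Nat.cast_one, Nat.sub_zero, pow_succ] at this
  unfold bsGen at *
  linear_combination this

lemma bsGen_left_step (h0 : 0 ≤ η) (h1 : η ≤ 1) (hz : 0 ≤ z) (hz1 : z < 1) (m : ℕ) :
    (1 - η * z) * bsGen η z 0 (m + 1) = (1 - η) * z * bsGen η z 0 m := by
  have H := fun a b => (bsGen_summable h0 h1 hz hz1 a b).hasSum
  have hl := (hasSum_nat_add_iff' 1).2 (H 0 (m + 1))
  have hr := (((H 0 m).mul_left z).mul_left (1 - η)).add (((H 0 (m + 1)).mul_left z).mul_left η)
  have he : ∀ l, z ^ (l + 1) * bsProb η 0 (l + 1) (m + 1) =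
      (1 - η) * (z * (z ^ l * bsProb η 0 l m)) + η * (z * (z ^ l * bsProb η 0 l (m + 1))) := by
    intro l
    rw [bsProb_rec_left_zero h0 h1]
    ring
  have := hl.unique (hr.congr_fun he)
  simp only [Finset.sum_range_one, pow_zero, one_mul,
    bsProb_of_lt η (show 0 + 0 < m + 1 by omega)] at this
  unfold bsGen at *
  linear_combination this

lemma bsGen_zero_zero (h0 : 0 ≤ η) (h1 : η ≤ 1) (hz : 0 ≤ z) (hz1 : z < 1) :
    (1 - η * z) * bsGen η z 0 0 = 1 := by
  have hlt : η * z < 1 := by linarith [thermal_den h1 hz hz1]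
  have : bsGen η z 0 0 = (1 - η * z)⁻¹ := by
    rw [bsGen, ← tsum_geometric_of_lt_one (mul_nonneg h0 hz) hlt]
    refine tsum_congr fun l => ?_
    rw [bsProb_left_zero h0 h1]
    simp [mul_pow, mul_comm]
  rw [this]
  exact mul_inv_cancel₀ (thermal_den h1 hz hz1).ne'

lemma sum_lossK_ampK_zero (i : ℕ) : compK p c i 0 = lossK p i 0 * (1 - c) := by
  rw [compK, Finset.sum_range_succ']
  simp [ampK]

lemma compK_zero_left (m : ℕ) : compK p c 0 m = ampK c 0 m := by simp [compK, lossK]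

lemma compK_step (p c : ℝ) (i m : ℕ) : compK p c (i + 1) (m + 1) =
    c * compK p c (i + 1) m + (1 - p) * compK p c i (m + 1) + (p - c) * compK p c i m := by
  have hP : ∀ m, compK p c (i + 1) m = (1 - p) * compK p c i m
      + p * ∑ l ∈ range (i + 1), lossK p i l * ampK c (l + 1) m := by
    intro m
    have e := Finset.sum_range_succ' (fun l => lossK p i l * ampK c l m) (i + 1)
    rw [← compK_eq i m (show i < i + 1 + 1 by omega)] at e
    rw [compK, Finset.sum_range_succ']
    simp only [lossK, add_mul, mul_assoc, Finset.sum_add_distrib, ← Finset.mul_sum]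
    linear_combination -(1 - p) * e
  have hQ : ∑ l ∈ range (i + 1), lossK p i l * ampK c (l + 1) (m + 1) =
      c * (∑ l ∈ range (i + 1), lossK p i l * ampK c (l + 1) m) + (1 - c) * compK p c i m := by
    rw [compK, Finset.mul_sum, Finset.mul_sum, ← Finset.sum_add_distrib]
    exact Finset.sum_congr rfl fun l _ => by simp only [ampK]; ring
  rw [hP (m + 1), hQ, hP m]
  ring

lemma one_sub_etaLoss (h1 : η ≤ 1) (hz : 0 ≤ z) (hz1 : z < 1) :
    1 - etaLoss η z = (1 - η) / (1 - η * z) := by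
  have := (thermal_den h1 hz hz1).ne'
  rw [etaLoss, one_sub_div this]
  congr 1
  ring

/-- The thermal kernel is loss followed by amplification. -/
lemma thermal_kernel (h0 : 0 ≤ η) (h1 : η ≤ 1) (hz : 0 ≤ z) (hz1 : z < 1) :
    ∀ i m, (1 - z) * bsGen η z i m = compK (etaLoss η z) (cAmp η z) i m := by
  have hd := thermal_den h1 hz hz1
  intro i
  induction i with
  | zero =>
    intro m
    induction m with
    | zero =>
      rw [compK_zero_left, ampK, cAmp, one_sub_div hd.ne', eq_div_iff hd.ne']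
      have := bsGen_zero_zero h0 h1 hz hz1
      linear_combination (1 - z) * this
    | succ m ihm =>
      rw [compK_zero_left, ampK, ← compK_zero_left (p := etaLoss η z), ← ihm, cAmp, div_mul_eq_mul_div,
        eq_div_iff hd.ne']
      have := bsGen_left_step h0 h1 hz hz1 m
      linear_combination (1 - z) * this
  | succ i ih =>
    intro m
    induction m with
    | zero =>
      rw [sum_lossK_ampK_zero, lossK, mul_assoc, ← sum_lossK_ampK_zero, ← ih 0,
        one_sub_etaLoss h1 hz hz1, div_mul_eq_mul_div, eq_div_iff hd.ne']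
      have := bsGen_step_zero h0 h1 hz hz1 i
      linear_combination (1 - z) * this
    | succ m ihm =>
      rw [compK_step, ← ihm, ← ih (m + 1), ← ih m, one_sub_etaLoss h1 hz hz1]
      have e : etaLoss η z - cAmp η z = (η - z) / (1 - η * z) := by
        rw [etaLoss, cAmp, ← sub_div]; congr 1; ring
      rw [e, cAmp, div_mul_eq_mul_div, div_mul_eq_mul_div, div_mul_eq_mul_div, ← add_div, ← add_div,
        eq_div_iff hd.ne']
      have := bsGen_step h0 h1 hz hz1 i m
      linear_combination (1 - z) * this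

lemma hasSum_geo_bsProb (h0 : 0 ≤ η) (h1 : η ≤ 1) (hz : 0 ≤ z) (hz1 : z < 1) (i m : ℕ) :
    HasSum (fun l => geo z l * bsProb η i l m) (compK (etaLoss η z) (cAmp η z) i m) := by
  rw [← thermal_kernel h0 h1 hz hz1]
  refine ((bsGen_summable h0 h1 hz hz1 i m).hasSum.mul_left (1 - z)).congr_fun fun l => ?_
  rw [geo, mul_assoc]

/-- Set optimality of the beam splitter with one thermal input. -/
theorem thermal_sets (h0 : 0 ≤ η) (h1 : η ≤ 1) (hz : 0 ≤ z) (hz1 : z < 1) (R K : Finset ℕ) :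
    ∑ i ∈ R, ∑ m ∈ K, ∑' l, geo z l * bsProb η i l m
      ≤ ∑ i ∈ range R.card, ∑ m ∈ range K.card, ∑' l, geo z l * bsProb η i l m := by
  simp only [(hasSum_geo_bsProb h0 h1 hz hz1 _ _).tsum_eq]
  exact compK_sets (etaLoss_nonneg h0 h1 hz hz1) (etaLoss_le_one h1 hz hz1) (cAmp_nonneg h1 hz hz1)
    (cAmp_lt_one h1 hz hz1).le R K

/-! ### Mixtures -/

/-- Output distribution for a diagonal input below `N` and a finite mixture of thermal states. -/
def mixOut {ι : Type*} (s : Finset ι) (μ : ι → ℝ) (zz : ι → ℝ) (η : ℝ) (N : ℕ) (a : ℕ → ℝ) (m : ℕ) :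
    ℝ :=
  ∑ i ∈ range N, a i * ∑ t ∈ s, μ t * compK (etaLoss η (zz t)) (cAmp η (zz t)) i m

section Mixture

variable {ι : Type*} {s : Finset ι} {μ zz : ι → ℝ} {q a P : ℕ → ℝ} {N : ℕ}

lemma tsum_pair_mix (h0 : 0 ≤ η) (h1 : η ≤ 1) (hz : ∀ t ∈ s, 0 ≤ zz t) (hz1 : ∀ t ∈ s, zz t < 1)
    (hq : ∀ l, q l = ∑ t ∈ s, μ t * geo (zz t) l) (ha : ∀ i, N ≤ i → a i = 0) (m : ℕ) :
    ∑' ij : ℕ × ℕ, a ij.1 * q ij.2 * bsProb η ij.1 ij.2 m = mixOut s μ zz η N a m := by
  have hrow : ∀ i, HasSum (fun l => a i * q l * bsProb η i l m)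
      (a i * ∑ t ∈ s, μ t * compK (etaLoss η (zz t)) (cAmp η (zz t)) i m) := by
    intro i
    have h := (hasSum_sum (s := s) fun t ht =>
      (hasSum_geo_bsProb h0 h1 (hz t ht) (hz1 t ht) i m).mul_left (μ t)).mul_left (a i)
    refine h.congr_fun fun l => ?_
    rw [hq l, Finset.mul_sum, Finset.sum_mul, Finset.mul_sum]
    exact Finset.sum_congr rfl fun t _ => by ring
  have hcol : ∀ i, HasSum (fun ij : ℕ × ℕ => if ij.1 = i then a i * q ij.2 * bsProb η i ij.2 m else 0)
      (a i * ∑ t ∈ s, μ t * compK (etaLoss η (zz t)) (cAmp η (zz t)) i m) := by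
    intro i
    refine (Function.Injective.hasSum_iff (g := fun l : ℕ => (i, l))
      (fun x y h => (Prod.mk.injEq _ _ _ _ ▸ h).2) ?_).1 ?_
    · rintro ⟨x, y⟩ hxy
      exact if_neg fun h : x = i => hxy ⟨y, by rw [← h]⟩
    · simpa [Function.comp_def] using hrow i
  refine ((hasSum_sum (s := range N) fun i _ => hcol i).congr_fun fun ij => ?_).tsum_eq
  rw [Finset.sum_ite_eq]
  split_ifs with h
  · rfl
  · rw [ha ij.1 (by simpa using h), zero_mul, zero_mul]

lemma mixOut_nonneg (h0 : 0 ≤ η) (h1 : η ≤ 1) (hz : ∀ t ∈ s, 0 ≤ zz t) (hz1 : ∀ t ∈ s, zz t < 1)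
    (hμ : ∀ t ∈ s, 0 ≤ μ t) (ha : ∀ i, i < N → 0 ≤ a i) (m : ℕ) : 0 ≤ mixOut s μ zz η N a m :=
  Finset.sum_nonneg fun i hi => mul_nonneg (ha i (Finset.mem_range.1 hi))
    (Finset.sum_nonneg fun t ht => mul_nonneg (hμ t ht)
      (compK_nonneg (etaLoss_nonneg h0 h1 (hz t ht) (hz1 t ht)) (etaLoss_le_one h1 (hz t ht) (hz1 t ht))
        (cAmp_nonneg h1 (hz t ht) (hz1 t ht)) (cAmp_lt_one h1 (hz t ht) (hz1 t ht)).le i m))

lemma mixOut_hasSum (h1 : η ≤ 1) (hz : ∀ t ∈ s, 0 ≤ zz t) (hz1 : ∀ t ∈ s, zz t < 1)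
    (hμ1 : ∑ t ∈ s, μ t = 1) (ha1 : ∑ i ∈ range N, a i = 1) :
    HasSum (mixOut s μ zz η N a) 1 := by
  have h := hasSum_sum (s := range N) fun i _ => (hasSum_sum (s := s) fun t ht =>
    (compK_hasSum (p := etaLoss η (zz t)) (cAmp_nonneg h1 (hz t ht) (hz1 t ht))
      (cAmp_lt_one h1 (hz t ht) (hz1 t ht)) i).mul_left (μ t)).mul_left (a i)
  simp only [mul_one, hμ1, ha1] at h
  exact h

lemma mixOut_mean (h1 : η ≤ 1) (hz : ∀ t ∈ s, 0 ≤ zz t) (hz1 : ∀ t ∈ s, zz t < 1) :
    Summable fun m : ℕ => (m : ℝ) * mixOut s μ zz η N a m := by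
  have h := summable_sum (s := range N) fun i _ => (summable_sum (s := s) fun t ht =>
    (compK_mean (p := etaLoss η (zz t)) (cAmp_nonneg h1 (hz t ht) (hz1 t ht))
      (cAmp_lt_one h1 (hz t ht) (hz1 t ht)) i).mul_left (μ t)).mul_left (a i)
  refine h.congr fun m => ?_
  simp only [mixOut, Finset.mul_sum]
  exact Finset.sum_congr rfl fun i _ => Finset.sum_congr rfl fun t _ => by ring

/-- Set sums of the output are dominated by prefix sums for the rearranged input. -/
lemma mixOut_sets (h0 : 0 ≤ η) (h1 : η ≤ 1) (hz : ∀ t ∈ s, 0 ≤ zz t) (hz1 : ∀ t ∈ s, zz t < 1)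
    (hμ : ∀ t ∈ s, 0 ≤ μ t) (ha : ∀ i, i < N → 0 ≤ a i) (σ : Equiv.Perm (Fin N))
    (hσ : ∀ i : Fin N, P i = a (σ i)) (hP : Antitone P) (K : Finset ℕ) :
    ∑ m ∈ K, mixOut s μ zz η N a m ≤ ∑ m ∈ range K.card, mixOut s μ zz η N P m := by
  have e : ∀ (b : ℕ → ℝ) (T : Finset ℕ), ∑ m ∈ T, mixOut s μ zz η N b m =
      ∑ t ∈ s, μ t * ∑ i ∈ range N, b i * ∑ m ∈ T, compK (etaLoss η (zz t)) (cAmp η (zz t)) i m := by
    intro b T
    simp only [mixOut, Finset.mul_sum]
    rw [Finset.sum_comm]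
    rw [Finset.sum_comm (s := s)]
    refine Finset.sum_congr rfl fun i _ => ?_
    rw [Finset.sum_comm]
    exact Finset.sum_congr rfl fun t _ => Finset.sum_congr rfl fun m _ => by ring
  rw [e, e]
  refine Finset.sum_le_sum fun t ht => mul_le_mul_of_nonneg_left ?_ (hμ t ht)
  have p0 := etaLoss_nonneg h0 h1 (hz t ht) (hz1 t ht)
  have p1 := etaLoss_le_one h1 (hz t ht) (hz1 t ht)
  have c0 := cAmp_nonneg h1 (hz t ht) (hz1 t ht)
  have c1 := (cAmp_lt_one h1 (hz t ht) (hz1 t ht)).le
  exact sum_mul_le_majorant ha (compK_prefix_antitone p0 p1 c0 c1 _)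
    (fun i => Finset.sum_nonneg fun m _ => compK_nonneg p0 p1 c0 c1 i m)
    (fun S hS => sum_le_rearr σ hσ hP hS) (fun S _ => compK_sets p0 p1 c0 c1 S K)

lemma mixOut_antitone (h0 : 0 ≤ η) (h1 : η ≤ 1) (hz : ∀ t ∈ s, 0 ≤ zz t) (hz1 : ∀ t ∈ s, zz t < 1)
    (hμ : ∀ t ∈ s, 0 ≤ μ t) (hP : Antitone P) (hP0 : ∀ i, 0 ≤ P i) :
    Antitone (mixOut s μ zz η N P) := by
  refine antitone_nat_of_succ_le fun m => ?_
  have h := mixOut_sets h0 h1 hz hz1 hμ (fun i _ => hP0 i) (Equiv.refl (Fin N)) (fun i => rfl) hP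
    (insert (m + 1) (range m))
  rw [Finset.sum_insert (by simp), Finset.card_insert_of_notMem (by simp), Finset.card_range,
    Finset.sum_range_succ] at h
  linarith

/-- Corollary (b): set sums of the output against the rearranged input. -/
theorem thermal_mix_sets (h0 : 0 ≤ η) (h1 : η ≤ 1) (hz : ∀ t ∈ s, 0 ≤ zz t)
    (hz1 : ∀ t ∈ s, zz t < 1) (hμ : ∀ t ∈ s, 0 ≤ μ t)
    (hq : ∀ l, q l = ∑ t ∈ s, μ t * geo (zz t) l) (ha : ∀ i, 0 ≤ a i)
    (hsupp : ∀ i, N ≤ i → a i = 0) (σ : Equiv.Perm (Fin N)) (hσ : ∀ i : Fin N, P i = a (σ i))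
    (hP : Passive N P) (K : Finset ℕ) :
    ∑ m ∈ K, ∑' ij : ℕ × ℕ, a ij.1 * q ij.2 * bsProb η ij.1 ij.2 m
      ≤ ∑ m ∈ range K.card, ∑' ij : ℕ × ℕ, P ij.1 * q ij.2 * bsProb η ij.1 ij.2 m := by
  simp only [tsum_pair_mix h0 h1 hz hz1 hq hsupp, tsum_pair_mix h0 h1 hz hz1 hq hP.supp]
  exact mixOut_sets h0 h1 hz hz1 hμ (fun i _ => ha i) σ hσ hP.antitone K

/-- Every probability vector has a passive rearrangement with the same entropy. -/
theorem exists_passive_rearr (ha : ∀ i, 0 ≤ a i) (ha1 : ∑ i ∈ range N, a i = 1) :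
    ∃ (σ : Equiv.Perm (Fin N)) (P : ℕ → ℝ), Passive N P ∧ (∀ i : Fin N, P i = a (σ i)) ∧
      ent N P = ent N a := by
  obtain ⟨σ, P, hPa, hP0, hPs, hPe⟩ := exists_rearr N a fun i _ => ha i
  refine ⟨σ, P, ⟨hP0, fun k => hPa (Nat.le_succ k), hPs, ?_⟩, hPe, perm_sum σ hPe negMulLog⟩
  rw [← ha1]
  exact perm_sum σ hPe fun x => x

/-- Rearranging the diagonal input does not increase the output entropy, when the second input is
a finite mixture of thermal states. -/
theorem entropy_rearr (h0 : 0 ≤ η) (h1 : η ≤ 1) (hz : ∀ t ∈ s, 0 ≤ zz t) (hz1 : ∀ t ∈ s, zz t < 1)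
    (hμ : ∀ t ∈ s, 0 ≤ μ t) (hμ1 : ∑ t ∈ s, μ t = 1)
    (hq : ∀ l, q l = ∑ t ∈ s, μ t * geo (zz t) l) (ha : ∀ i, 0 ≤ a i)
    (hsupp : ∀ i, N ≤ i → a i = 0) (σ : Equiv.Perm (Fin N)) (hσ : ∀ i : Fin N, P i = a (σ i))
    (hP : Passive N P) :
    ∑' m, negMulLog (∑' ij : ℕ × ℕ, P ij.1 * q ij.2 * bsProb η ij.1 ij.2 m)
      ≤ ∑' m, negMulLog (∑' ij : ℕ × ℕ, a ij.1 * q ij.2 * bsProb η ij.1 ij.2 m) := by
  simp only [tsum_pair_mix h0 h1 hz hz1 hq hsupp, tsum_pair_mix h0 h1 hz hz1 hq hP.supp]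
  have ha1 : ∑ i ∈ range N, a i = 1 := (perm_sum σ hσ fun x => x).symm.trans hP.total
  exact entropy_le_of_majorized (mixOut_nonneg h0 h1 hz hz1 hμ fun i _ => ha i)
    (mixOut_nonneg h0 h1 hz hz1 hμ fun i _ => hP.nonneg i)
    (mixOut_hasSum h1 hz hz1 hμ1 ha1) (mixOut_hasSum h1 hz hz1 hμ1 hP.total)
    (mixOut_mean h1 hz hz1) (mixOut_mean h1 hz hz1)
    (mixOut_sets h0 h1 hz hz1 hμ (fun i _ => ha i) σ hσ hP.antitone)

end Mixture

end Vale.Agent.P369
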