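import Vale.Agent.P369.MLimit
import Vale.Agent.P369.Thermal

/-!
A Fock-diagonal `n`-mode input in any order (also correlated between the modes) against its
mode-by-mode decreasing rearrangement, when the other input is a finite mixture of product thermal
states.
-/

open Finset Real Filter Topology

noncomputable section

namespace Vale.Agent.P369

/-- A sequence whose set sums are dominated by the prefix sums of an antitone one of the same mass
has more entropy. -/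
theorem entropy_le_of_majorized_mass {C D : ℕ → ℝ} {M : ℝ} (hC0 : ∀ k, 0 ≤ C k)
    (hD0 : ∀ k, 0 ≤ D k) (hC : HasSum C M) (hD : HasSum D M)
    (hCm : Summable fun k : ℕ => (k : ℝ) * C k) (hDm : Summable fun k : ℕ => (k : ℝ) * D k)
    (hmaj : ∀ K : Finset ℕ, ∑ k ∈ K, C k ≤ ∑ k ∈ range K.card, D k) :
    ∑' k, negMulLog (D k) ≤ ∑' k, negMulLog (C k) := by
  rcases (hC.nonneg hC0).eq_or_lt with hM | hM
  · subst hM
    rw [show D = 0 from (hasSum_zero_iff_of_nonneg hD0).1 hD,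
      show C = 0 from (hasSum_zero_iff_of_nonneg hC0).1 hC]
  · have e : ∀ E : ℕ → ℝ, (∀ k, 0 ≤ E k) → HasSum E M → (Summable fun k : ℕ => (k : ℝ) * E k) →
        (∀ k, 0 ≤ E k / M) ∧ HasSum (fun k => E k / M) 1 ∧
          (Summable fun k : ℕ => (k : ℝ) * (E k / M)) ∧
          ∑' k, negMulLog (E k) = negMulLog M + M * ∑' k, negMulLog (E k / M) := by
      intro E h0 h1 h2
      have a : ∀ k, 0 ≤ E k / M := fun k => div_nonneg (h0 k) hM.le
      have b : HasSum (fun k => E k / M) 1 := by simpa [div_self hM.ne'] using h1.div_const M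
      have c : Summable fun k : ℕ => (k : ℝ) * (E k / M) :=
        (h2.div_const M).congr fun k => by ring
      refine ⟨a, b, c, ?_⟩
      have hs := ((b.mul_right (negMulLog M)).add
        ((summable_negMulLog a b c).hasSum.mul_left M))
      rw [one_mul] at hs
      refine (hs.congr_fun fun k => ?_).tsum_eq
      rw [← negMulLog_mul M (E k / M), mul_div_cancel₀ _ hM.ne']
    obtain ⟨a1, b1, c1, d1⟩ := e C hC0 hC hCm
    obtain ⟨a2, b2, c2, d2⟩ := e D hD0 hD hDm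
    rw [d1, d2]
    refine add_le_add le_rfl (mul_le_mul_of_nonneg_left ?_ hM.le)
    refine entropy_le_of_majorized a1 a2 b1 b2 c1 c2 fun K => ?_
    rw [← Finset.sum_div, ← Finset.sum_div]
    exact div_le_div_of_nonneg_right (hmaj K) hM.le

/-- Rearrangement is monotone. -/
lemma rearr_mono {N : ℕ} {v w V W : ℕ → ℝ} (σ τ : Equiv.Perm (Fin N))
    (hV : ∀ i : Fin N, V i = v (σ i)) (hW : ∀ i : Fin N, W i = w (τ i)) (hVa : Antitone V)
    (hWa : Antitone W) (hle : ∀ i : Fin N, v i ≤ w i) (k : Fin N) : V k ≤ W k := by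
  by_contra hlt
  push Not at hlt
  have hk : (k : ℕ) + 1 ≤ N := k.isLt
  have hf : ∀ j : Fin ((k : ℕ) + 1), (τ.symm (σ (Fin.castLE hk j)) : ℕ) < k := by
    intro j
    by_contra hc
    push Not at hc
    have h1 : W (τ.symm (σ (Fin.castLE hk j)) : ℕ) ≤ W k := hWa hc
    rw [hW, Equiv.apply_symm_apply] at h1
    have h2 : V k ≤ V (Fin.castLE hk j : ℕ) := hVa (by
      have := j.isLt
      simp only [Fin.val_castLE]
      omega)
    rw [hV (Fin.castLE hk j)] at h2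
    linarith [hle (σ (Fin.castLE hk j))]
  have := Fintype.card_le_of_injective
    (fun j : Fin ((k : ℕ) + 1) => (⟨_, hf j⟩ : Fin (k : ℕ))) fun a b hab => by
      simp only [Fin.mk.injEq] at hab
      exact Fin.castLE_injective hk (σ.injective (τ.symm.injective (Fin.ext hab)))
  simp at this

lemma bump_succAbove_insertNth {n : ℕ} (l : Fin (n + 1)) (j : Fin n) (x : ℕ) (k : Fin n → ℕ) :
    bump (l.succAbove j) (Fin.insertNth l x k) = Fin.insertNth l x (bump j k) := by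
  funext i
  rcases Fin.eq_self_or_eq_succAbove l i with rfl | ⟨a, rfl⟩
  · rw [bump_of_ne (Fin.succAbove_ne i j).symm]
    simp
  · rw [Fin.insertNth_apply_succAbove]
    by_cases h : a = j
    · subst h; simp [bump_same]
    · rw [bump_of_ne fun e => h (Fin.succAbove_right_injective e), bump_of_ne h]
      simp

/-- Sorting every fibre of one mode. -/
lemma exists_sortMode {n N : ℕ} (l : Fin (n + 1)) {a : (Fin (n + 1) → ℕ) → ℝ} (h0 : ∀ k, 0 ≤ a k)
    (hs : ∀ k, k ∉ box (n + 1) N → a k = 0) :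
    ∃ b : (Fin (n + 1) → ℕ) → ℝ, (∀ k, 0 ≤ b k) ∧ (∀ k, k ∉ box (n + 1) N → b k = 0) ∧
      ∑ k ∈ box (n + 1) N, b k = ∑ k ∈ box (n + 1) N, a k ∧ entB N b = entB N a ∧
      (∀ k, b (bump l k) ≤ b k) ∧
      (∀ l', (∀ k, a (bump l' k) ≤ a k) → ∀ k, b (bump l' k) ≤ b k) ∧
      ∀ i, ∃ σ : Equiv.Perm (Fin N), Antitone (fib l b i) ∧
        ∀ x : Fin N, fib l b i x = fib l a i (σ x) := by
  choose σ V hVa hV0 hVs hV using fun i : Fin n → ℕ => exists_rearr N (fib l a i) fun x _ => h0 _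
  set b : (Fin (n + 1) → ℕ) → ℝ := fun k => V (l.removeNth k) (k l) with hb
  have hfib : ∀ i, fib l b i = V i := fun i => by funext x; simp [hb, fib]
  have hsplit : ∀ k : Fin (n + 1) → ℕ, ∃ (x : ℕ) (i : Fin n → ℕ), Fin.insertNth l x i = k := fun k => ⟨k l, l.removeNth k, by simp⟩
  have hanti : ∀ k, b (bump l k) ≤ b k := by
    intro k
    obtain ⟨x, i, rfl⟩ := hsplit k
    rw [bump_insertNth]
    change fib l b i (x + 1) ≤ fib l b i x
    rw [hfib]
    exact hVa i (Nat.le_succ x)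
  refine ⟨b, fun k => hV0 _ _, fun k hk => ?_, ?_, ?_, hanti, fun l' hl' k => ?_,
    fun i => ⟨σ i, by rw [hfib]; exact hVa i, fun x => by rw [hfib]; exact hV i x⟩⟩
  · obtain ⟨x, i, rfl⟩ := hsplit k
    change fib l b i x = 0
    rw [hfib]
    rcases lt_or_ge x N with hx | hx
    · rw [show V i x = V i (⟨x, hx⟩ : Fin N) from rfl, hV]
      exact hs _ fun hm => hk ((insertNth_mem_box l x i).2 ⟨hx, ((insertNth_mem_box l _ i).1 hm).2⟩)
    · exact hVs i x hx
  · rw [sum_box_split N l, sum_box_split N l]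
    refine Finset.sum_congr rfl fun i _ => ?_
    exact perm_sum (p := fib l a i) (P := fib l b i) (σ i)
      (fun x => by rw [hfib]; exact hV i x) (fun y => y)
  · rw [entB, entB, sum_box_split N l, sum_box_split N l]
    refine Finset.sum_congr rfl fun i _ => ?_
    exact perm_sum (p := fib l a i) (P := fib l b i) (σ i)
      (fun x => by rw [hfib]; exact hV i x) negMulLog
  · rcases Fin.eq_self_or_eq_succAbove l l' with rfl | ⟨j, rfl⟩
    · exact hanti k
    obtain ⟨x, i, rfl⟩ := hsplit k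
    rw [bump_succAbove_insertNth]
    change fib l b (bump j i) x ≤ fib l b i x
    rw [hfib, hfib]
    rcases lt_or_ge x N with hx | hx
    · refine rearr_mono (σ (bump j i)) (σ i) (hV _) (hV _) (hVa _) (hVa _) (fun y => ?_) ⟨x, hx⟩
      have := hl' (Fin.insertNth l (y : ℕ) i)
      rwa [bump_succAbove_insertNth] at this
    · rw [hVs _ x hx, hVs _ x hx]

/-! ### The output against product thermal states -/

/-- One-mode kernel of the beam splitter with a thermal second input. -/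
def thK (η z : ℝ) (i m : ℕ) : ℝ := compK (etaLoss η z) (cAmp η z) i m

variable {η z : ℝ}

lemma thK_nonneg (h0 : 0 ≤ η) (h1 : η ≤ 1) (hz : 0 ≤ z ∧ z < 1) (i m : ℕ) : 0 ≤ thK η z i m :=
  compK_nonneg (etaLoss_nonneg h0 h1 hz.1 hz.2) (etaLoss_le_one h1 hz.1 hz.2)
    (cAmp_nonneg h1 hz.1 hz.2) (cAmp_lt_one h1 hz.1 hz.2).le i m

lemma thK_hasSum (h1 : η ≤ 1) (hz : 0 ≤ z ∧ z < 1) (i : ℕ) : HasSum (thK η z i) 1 :=
  compK_hasSum (cAmp_nonneg h1 hz.1 hz.2) (cAmp_lt_one h1 hz.1 hz.2) i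

lemma thK_mean (h1 : η ≤ 1) (hz : 0 ≤ z ∧ z < 1) (i : ℕ) :
    Summable fun m : ℕ => (m : ℝ) * thK η z i m :=
  compK_mean (cAmp_nonneg h1 hz.1 hz.2) (cAmp_lt_one h1 hz.1 hz.2) i

lemma thK_rearr_le (h0 : 0 ≤ η) (h1 : η ≤ 1) (hz : 0 ≤ z ∧ z < 1) {N : ℕ} {p P : ℕ → ℝ}
    (hp : ∀ i, i < N → 0 ≤ p i) (σ : Equiv.Perm (Fin N)) (hσ : ∀ i : Fin N, P i = p (σ i))
    (hP : Antitone P) (S : Finset ℕ) :
    ∑ x ∈ range N, p x * ∑ m ∈ S, thK η z x m
      ≤ ∑ x ∈ range N, P x * ∑ m ∈ range S.card, thK η z x m := by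
  have p0 := etaLoss_nonneg h0 h1 hz.1 hz.2
  have p1 := etaLoss_le_one h1 hz.1 hz.2
  have c0 := cAmp_nonneg h1 hz.1 hz.2
  have c1 := (cAmp_lt_one h1 hz.1 hz.2).le
  exact sum_mul_le_majorant hp (compK_prefix_antitone p0 p1 c0 c1 _)
    (fun i => Finset.sum_nonneg fun m _ => compK_nonneg p0 p1 c0 c1 i m)
    (fun T hT => sum_le_rearr σ hσ hP hT) (fun T _ => compK_sets p0 p1 c0 c1 T S)

/-- Output for a diagonal input in the box and a finite mixture of product thermal states. -/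
def mixOutN {ι : Type*} {n : ℕ} (s : Finset ι) (μ : ι → ℝ) (zz : ι → Fin n → ℝ) (η : ℝ) (N : ℕ)
    (a : (Fin n → ℕ) → ℝ) (m : Fin n → ℕ) : ℝ :=
  ∑ i ∈ box n N, a i * ∑ t ∈ s, μ t * ∏ l, thK η (zz t l) (i l) (m l)

section MixtureN

variable {ι : Type*} {s : Finset ι} {μ : ι → ℝ} {n N : ℕ}

lemma tsum_pair_mixN {zz : ι → Fin n → ℝ} {q a : (Fin n → ℕ) → ℝ} (h0 : 0 ≤ η) (h1 : η ≤ 1)
    (hz : ∀ t ∈ s, ∀ l, 0 ≤ zz t l ∧ zz t l < 1)
    (hq : ∀ k, q k = ∑ t ∈ s, μ t * ∏ l, geo (zz t l) (k l))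
    (ha : ∀ i, i ∉ box n N → a i = 0) (m : Fin n → ℕ) :
    pCNinf η a q m = mixOutN s μ zz η N a m := by
  classical
  have hrow : ∀ i : Fin n → ℕ, HasSum (fun j => a i * q j * bsN η i j m)
      (a i * ∑ t ∈ s, μ t * ∏ l, thK η (zz t l) (i l) (m l)) := by
    intro i
    have h := (hasSum_sum (s := s) fun t ht =>
      (hasSum_pi_prod (fun l x => geo (zz t l) x * bsProb η (i l) x (m l))
        (fun l => thK η (zz t l) (i l) (m l))
        (fun l x => mul_nonneg (mul_nonneg (sub_nonneg.2 (hz t ht l).2.le)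
          (pow_nonneg (hz t ht l).1 x)) (bsProb_nonneg _ _ _ _))
        fun l => hasSum_geo_bsProb h0 h1 (hz t ht l).1 (hz t ht l).2 (i l) (m l)).mul_left
          (μ t)).mul_left (a i)
    refine h.congr_fun fun j => ?_
    rw [hq j, Finset.mul_sum, Finset.sum_mul, Finset.mul_sum]
    exact Finset.sum_congr rfl fun t _ => by rw [bsN, Finset.prod_mul_distrib]; ring
  have hcol : ∀ i : Fin n → ℕ, HasSum
      (fun ij : (Fin n → ℕ) × (Fin n → ℕ) => if ij.1 = i then a i * q ij.2 * bsN η i ij.2 m else 0)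
      (a i * ∑ t ∈ s, μ t * ∏ l, thK η (zz t l) (i l) (m l)) := by
    intro i
    refine (Function.Injective.hasSum_iff (g := fun j : Fin n → ℕ => (i, j))
      (fun x y h => (Prod.mk.injEq _ _ _ _ ▸ h).2) ?_).1 ?_
    · rintro ⟨x, y⟩ hxy
      exact if_neg fun h : x = i => hxy ⟨y, by rw [← h]⟩
    · simpa [Function.comp_def] using hrow i
  unfold pCNinf
  refine ((hasSum_sum (s := box n N) fun i _ => hcol i).congr_fun fun ij => ?_).tsum_eq
  rw [Finset.sum_ite_eq]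
  split_ifs with h
  · rfl
  · rw [ha ij.1 h, zero_mul, zero_mul]

variable {zz : ι → Fin n → ℝ} {a : (Fin n → ℕ) → ℝ}

lemma mixOutN_nonneg (h0 : 0 ≤ η) (h1 : η ≤ 1) (hz : ∀ t ∈ s, ∀ l, 0 ≤ zz t l ∧ zz t l < 1)
    (hμ : ∀ t ∈ s, 0 ≤ μ t) (ha : ∀ k, 0 ≤ a k) (m : Fin n → ℕ) :
    0 ≤ mixOutN s μ zz η N a m :=
  Finset.sum_nonneg fun i _ => mul_nonneg (ha i) (Finset.sum_nonneg fun t ht =>
    mul_nonneg (hμ t ht) (Finset.prod_nonneg fun l _ => thK_nonneg h0 h1 (hz t ht l) _ _))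

lemma mixOutN_hasSum (h0 : 0 ≤ η) (h1 : η ≤ 1) (hz : ∀ t ∈ s, ∀ l, 0 ≤ zz t l ∧ zz t l < 1)
    (hμ1 : ∑ t ∈ s, μ t = 1) :
    HasSum (mixOutN s μ zz η N a) (∑ i ∈ box n N, a i) := by
  have h := hasSum_sum (s := box n N) fun i _ => (hasSum_sum (s := s) fun t ht =>
    (hasSum_pi_prod (fun l x => thK η (zz t l) (i l) x) (fun _ => (1 : ℝ))
      (fun l x => thK_nonneg h0 h1 (hz t ht l) (i l) x)
      fun l => thK_hasSum h1 (hz t ht l) (i l)).mul_left (μ t)).mul_left (a i)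
  simp only [Finset.prod_const_one, mul_one, hμ1] at h
  exact h

lemma mixOutN_mean (h0 : 0 ≤ η) (h1 : η ≤ 1) (hz : ∀ t ∈ s, ∀ l, 0 ≤ zz t l ∧ zz t l < 1) :
    Summable fun m : Fin n → ℕ => (∑ l, (m l : ℝ)) * mixOutN s μ zz η N a m := by
  classical
  have hp : ∀ t ∈ s, ∀ (i : Fin n → ℕ) (l : Fin n),
      Summable fun m : Fin n → ℕ => (m l : ℝ) * ∏ l', thK η (zz t l') (i l') (m l') := by
    intro t ht i l
    have hs := (hasSum_pi_prod
      (fun l' (x : ℕ) => (if l' = l then (x : ℝ) else 1) * thK η (zz t l') (i l') x)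
      (fun l' => ∑' x : ℕ, (if l' = l then (x : ℝ) else 1) * thK η (zz t l') (i l') x)
      (fun l' x => mul_nonneg (by split_ifs <;> positivity) (thK_nonneg h0 h1 (hz t ht l') _ _))
      fun l' => Summable.hasSum (by
        by_cases h : l' = l
        · simpa [h] using thK_mean h1 (hz t ht l) (i l)
        · simpa [h] using (thK_hasSum h1 (hz t ht l') (i l')).summable)).summable
    refine hs.congr fun m => ?_
    rw [Finset.prod_mul_distrib, Finset.prod_ite_eq' Finset.univ l fun l' => (m l' : ℝ)]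
    simp
  have h := summable_sum (s := (Finset.univ : Finset (Fin n))) fun l _ =>
    summable_sum (s := box n N) fun i _ => (summable_sum (s := s) fun t ht =>
      (hp t ht i l).mul_left (μ t)).mul_left (a i)
  refine h.congr fun m => ?_
  simp only [mixOutN, Finset.mul_sum, Finset.sum_mul]
  rw [Finset.sum_comm]
  refine Finset.sum_congr rfl fun i _ => ?_
  rw [Finset.sum_comm]
  exact Finset.sum_congr rfl fun t _ => Finset.sum_congr rfl fun l _ => by ring

lemma mixOutN_summable_ent (h0 : 0 ≤ η) (h1 : η ≤ 1) (hz : ∀ t ∈ s, ∀ l, 0 ≤ zz t l ∧ zz t l < 1)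
    (hμ : ∀ t ∈ s, 0 ≤ μ t) (hμ1 : ∑ t ∈ s, μ t = 1) (ha : ∀ k, 0 ≤ a k)
    (ha1 : ∑ i ∈ box n N, a i = 1) :
    Summable fun m => negMulLog (mixOutN s μ zz η N a m) := by
  have hn := mixOutN_nonneg (N := N) h0 h1 hz hμ ha
  have hs := mixOutN_hasSum (N := N) (a := a) h0 h1 hz hμ1
  rw [ha1] at hs
  exact Summable.of_norm_bounded (summable_entBoundN (mixOutN_mean h0 h1 hz)) fun m =>
    negMulLog_dom (hn m) (le_hasSum hs m fun j _ => hn j) (by linarith [hn m])

end MixtureN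

section Step

variable {ι : Type*} {s : Finset ι} {μ : ι → ℝ} {n N : ℕ} {zz : ι → Fin (n + 1) → ℝ}
  {a b : (Fin (n + 1) → ℕ) → ℝ}

lemma mixOutN_fib (l : Fin (n + 1)) (a : (Fin (n + 1) → ℕ) → ℝ) (m : Fin n → ℕ) (z : ℕ) :
    mixOutN s μ zz η N a (Fin.insertNth l z m) = ∑ i ∈ box n N, ∑ t ∈ s,
      μ t * (∏ j, thK η (zz t (l.succAbove j)) (i j) (m j))
        * ∑ x ∈ range N, fib l a i x * thK η (zz t l) x z := by
  unfold mixOutN
  rw [sum_box_split N l]
  refine Finset.sum_congr rfl fun i _ => ?_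
  simp only [Finset.mul_sum]
  rw [Finset.sum_comm]
  refine Finset.sum_congr rfl fun t _ => Finset.sum_congr rfl fun x _ => ?_
  rw [Fin.prod_univ_succAbove _ l]
  simp only [Fin.insertNth_apply_same, Fin.insertNth_apply_succAbove, fib]
  ring

/-- Sorting the fibres of one mode does not increase the output entropy. -/
lemma entN_mixOutN_sort_le (h0 : 0 ≤ η) (h1 : η ≤ 1)
    (hz : ∀ t ∈ s, ∀ l, 0 ≤ zz t l ∧ zz t l < 1) (hμ : ∀ t ∈ s, 0 ≤ μ t)
    (hμ1 : ∑ t ∈ s, μ t = 1) (ha : ∀ k, 0 ≤ a k) (ha1 : ∑ i ∈ box (n + 1) N, a i = 1)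
    (hb : ∀ k, 0 ≤ b k) (hb1 : ∑ i ∈ box (n + 1) N, b i = 1) (l : Fin (n + 1))
    (hab : ∀ i, ∃ σ : Equiv.Perm (Fin N), Antitone (fib l b i) ∧
      ∀ x : Fin N, fib l b i x = fib l a i (σ x)) :
    entN (mixOutN s μ zz η N b) ≤ entN (mixOutN s μ zz η N a) := by
  set e : (Fin n → ℕ) × ℕ ≃ (Fin (n + 1) → ℕ) :=
    (Equiv.prodComm _ _).trans (Fin.insertNthEquiv (fun _ => ℕ) l) with he
  have hee : ∀ p : (Fin n → ℕ) × ℕ, e p = Fin.insertNth l p.2 p.1 := fun p => rfl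
  have sA := (e.summable_iff).2 (mixOutN_summable_ent (N := N) h0 h1 hz hμ hμ1 ha ha1)
  have sB := (e.summable_iff).2 (mixOutN_summable_ent (N := N) h0 h1 hz hμ hμ1 hb hb1)
  unfold entN
  rw [← e.tsum_eq, ← e.tsum_eq (fun k => negMulLog (mixOutN s μ zz η N a k))]
  simp only [Function.comp_def] at sA sB
  rw [sA.tsum_prod, sB.tsum_prod]
  refine Summable.tsum_le_tsum (fun m => ?_) sB.prod sA.prod
  simp only [hee]
  set W : (Fin n → ℕ) → ι → ℝ :=
    fun i t => μ t * ∏ j, thK η (zz t (l.succAbove j)) (i j) (m j) with hW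
  have hW0 : ∀ i, ∀ t ∈ s, 0 ≤ W i t := fun i t ht =>
    mul_nonneg (hμ t ht) (Finset.prod_nonneg fun j _ => thK_nonneg h0 h1 (hz t ht _) _ _)
  have hmass : ∀ c : (Fin (n + 1) → ℕ) → ℝ,
      HasSum (fun z => mixOutN s μ zz η N c (Fin.insertNth l z m))
        (∑ i ∈ box n N, ∑ t ∈ s, W i t * ∑ x ∈ range N, fib l c i x) := by
    intro c
    simp only [mixOutN_fib]
    have h := hasSum_sum (s := box n N) fun i _ => hasSum_sum (s := s) fun t ht =>
      (hasSum_sum (s := range N) fun x _ =>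
        (thK_hasSum h1 (hz t ht l) x).mul_left (fib l c i x)).mul_left (W i t)
    simp only [mul_one] at h
    exact h
  have hmean : ∀ c : (Fin (n + 1) → ℕ) → ℝ,
      Summable fun z : ℕ => (z : ℝ) * mixOutN s μ zz η N c (Fin.insertNth l z m) := by
    intro c
    have h := summable_sum (s := box n N) fun i _ => summable_sum (s := s) fun t ht =>
      (summable_sum (s := range N) fun x _ =>
        (thK_mean h1 (hz t ht l) x).mul_left (fib l c i x)).mul_left (W i t)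
    refine h.congr fun z => ?_
    simp only [mixOutN_fib, hW, Finset.mul_sum]
    exact Finset.sum_congr rfl fun i _ => Finset.sum_congr rfl fun t _ =>
      Finset.sum_congr rfl fun x _ => by ring
  have hset : ∀ (c : (Fin (n + 1) → ℕ) → ℝ) (S : Finset ℕ),
      ∑ z ∈ S, mixOutN s μ zz η N c (Fin.insertNth l z m) = ∑ i ∈ box n N, ∑ t ∈ s,
        W i t * ∑ x ∈ range N, fib l c i x * ∑ z ∈ S, thK η (zz t l) x z := by
    intro c S
    simp only [mixOutN_fib]
    rw [Finset.sum_comm]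
    refine Finset.sum_congr rfl fun i _ => ?_
    rw [Finset.sum_comm]
    refine Finset.sum_congr rfl fun t _ => ?_
    rw [← Finset.mul_sum, Finset.sum_comm]
    simp only [hW, Finset.mul_sum]
  refine entropy_le_of_majorized_mass
    (fun z => mixOutN_nonneg h0 h1 hz hμ ha _) (fun z => mixOutN_nonneg h0 h1 hz hμ hb _)
    (hmass a) ?_ (hmean a) (hmean b) fun S => ?_
  · have e2 : ∀ i, ∑ x ∈ range N, fib l b i x = ∑ x ∈ range N, fib l a i x := fun i => by
      obtain ⟨σ, -, hσ⟩ := hab i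
      exact perm_sum σ hσ (fun y => y)
    simpa only [e2] using hmass b
  · rw [hset, hset]
    refine Finset.sum_le_sum fun i _ => Finset.sum_le_sum fun t ht =>
      mul_le_mul_of_nonneg_left ?_ (hW0 i t ht)
    obtain ⟨σ, hanti, hσ⟩ := hab i
    exact thK_rearr_le h0 h1 (hz t ht l) (fun x _ => ha _) σ hσ hanti S

/-- Rearranging all modes, one after another. -/
lemma exists_passiveN_mixOutN_le (h0 : 0 ≤ η) (h1 : η ≤ 1)
    (hz : ∀ t ∈ s, ∀ l, 0 ≤ zz t l ∧ zz t l < 1) (hμ : ∀ t ∈ s, 0 ≤ μ t)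
    (hμ1 : ∑ t ∈ s, μ t = 1) (ha : ∀ k, 0 ≤ a k) (has : ∀ k, k ∉ box (n + 1) N → a k = 0)
    (ha1 : ∑ i ∈ box (n + 1) N, a i = 1) :
    ∃ P, PassiveN (n + 1) N P ∧ entB N P = entB N a ∧
      entN (mixOutN s μ zz η N P) ≤ entN (mixOutN s μ zz η N a) := by
  classical
  suffices h : ∀ L : Finset (Fin (n + 1)), ∃ P : (Fin (n + 1) → ℕ) → ℝ, (∀ k, 0 ≤ P k) ∧
      (∀ k, k ∉ box (n + 1) N → P k = 0) ∧ ∑ i ∈ box (n + 1) N, P i = 1 ∧ entB N P = entB N a ∧
      (∀ l ∈ L, ∀ k, P (bump l k) ≤ P k) ∧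
      entN (mixOutN s μ zz η N P) ≤ entN (mixOutN s μ zz η N a) by
    obtain ⟨P, p0, ps, p1, pe, pa, pn⟩ := h Finset.univ
    exact ⟨P, ⟨p0, fun k l => pa l (Finset.mem_univ l) k, ps, p1⟩, pe, pn⟩
  intro L
  induction L using Finset.induction_on with
  | empty => exact ⟨a, ha, has, ha1, rfl, by simp, le_rfl⟩
  | insert l L hl ih =>
    obtain ⟨P, p0, ps, p1, pe, pa, pn⟩ := ih
    obtain ⟨b, b0, bs, b1, be, bl, bk, bσ⟩ := exists_sortMode l p0 ps
    refine ⟨b, b0, bs, b1.trans p1, be.trans pe, fun l' hl' => ?_,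
      (entN_mixOutN_sort_le h0 h1 hz hμ hμ1 p0 p1 b0 (b1.trans p1) l bσ).trans pn⟩
    rcases Finset.mem_insert.1 hl' with rfl | h
    · exact bl
    · exact bk l' (pa l' h)

/-- A Fock-diagonal input in any order, possibly correlated between the modes, can be replaced by a
passive one of the same entropy without increasing the output entropy, when the second input is a
finite mixture of product thermal states. -/
theorem entropy_rearrN {q : (Fin (n + 1) → ℕ) → ℝ} (h0 : 0 ≤ η) (h1 : η ≤ 1)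
    (hz : ∀ t ∈ s, ∀ l, 0 ≤ zz t l ∧ zz t l < 1) (hμ : ∀ t ∈ s, 0 ≤ μ t)
    (hμ1 : ∑ t ∈ s, μ t = 1)
    (hq : ∀ k, q k = ∑ t ∈ s, μ t * ∏ l, geo (zz t l) (k l))
    (ha : ∀ k, 0 ≤ a k) (has : ∀ k, k ∉ box (n + 1) N → a k = 0)
    (ha1 : ∑ i ∈ box (n + 1) N, a i = 1) :
    ∃ P, PassiveN (n + 1) N P ∧ entB N P = entB N a ∧
      (Summable fun m => negMulLog (pCNinf η P q m)) ∧
      (Summable fun m => negMulLog (pCNinf η a q m)) ∧
      entN (pCNinf η P q) ≤ entN (pCNinf η a q) := by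
  obtain ⟨P, hP, he, hle⟩ := exists_passiveN_mixOutN_le h0 h1 hz hμ hμ1 ha has ha1
  have eP : pCNinf η P q = mixOutN s μ zz η N P := funext (tsum_pair_mixN h0 h1 hz hq hP.supp)
  have ea : pCNinf η a q = mixOutN s μ zz η N a := funext (tsum_pair_mixN h0 h1 hz hq has)
  refine ⟨P, hP, he, ?_⟩
  rw [eP, ea]
  exact ⟨mixOutN_summable_ent h0 h1 hz hμ hμ1 hP.nonneg hP.total,
    mixOutN_summable_ent h0 h1 hz hμ hμ1 ha ha1, hle⟩

end Step

end Vale.Agent.P369
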