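import Vale.Agent.P369.MMin
import Vale.Agent.P369.ThermalN

open Finset

noncomputable section

namespace Vale.Agent.P369

variable {n : ℕ} {ι : Type*} {s : Finset ι} {μ : ι → ℝ} {zz : ι → Fin n → ℝ}

lemma geoN_nonneg {z : ℝ} (hz : 0 ≤ z) (hz1 : z < 1) (l : ℕ) : 0 ≤ geo z l :=
  mul_nonneg (sub_nonneg.2 hz1.le) (pow_nonneg hz l)

lemma hasSum_geo' {z : ℝ} (hz : 0 ≤ z) (hz1 : z < 1) : HasSum (geo z) 1 := by
  have h := (hasSum_geometric_of_lt_one hz hz1).mul_left (1 - z)
  rw [mul_inv_cancel₀ (sub_pos.2 hz1).ne'] at h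
  exact h

lemma summable_id_geo {z : ℝ} (hz : 0 ≤ z) (hz1 : z < 1) :
    Summable fun l : ℕ => (l : ℝ) * geo z l := by
  have h := (summable_pow_mul_geometric_of_norm_lt_one 1
    (show ‖z‖ < 1 by rwa [Real.norm_eq_abs, abs_of_nonneg hz])).mul_left (1 - z)
  exact h.congr fun l => by rw [geo, pow_one]; ring

/-- A mixture of product thermal states is passive with finite mean photon number. -/
lemma thermalMix_passive {q : (Fin n → ℕ) → ℝ} (hz : ∀ t ∈ s, ∀ l, 0 ≤ zz t l ∧ zz t l < 1)
    (hμ : ∀ t ∈ s, 0 ≤ μ t) (hμ1 : ∑ t ∈ s, μ t = 1)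
    (hq : ∀ k, q k = ∑ t ∈ s, μ t * ∏ l, geo (zz t l) (k l)) : PassiveNInf q := by
  obtain rfl : q = fun k => ∑ t ∈ s, μ t * ∏ l, geo (zz t l) (k l) := funext hq
  refine ⟨fun k => Finset.sum_nonneg fun t ht => mul_nonneg (hμ t ht)
    (Finset.prod_nonneg fun l _ => geoN_nonneg (hz t ht l).1 (hz t ht l).2 _), fun k l => ?_, ?_, ?_⟩
  · refine Finset.sum_le_sum fun t ht => mul_le_mul_of_nonneg_left ?_ (hμ t ht)
    refine Finset.prod_le_prod (fun j _ => geoN_nonneg (hz t ht j).1 (hz t ht j).2 _) fun j _ => ?_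
    refine mul_le_mul_of_nonneg_left (pow_le_pow_of_le_one (hz t ht j).1 (hz t ht j).2.le ?_)
      (sub_nonneg.2 (hz t ht j).2.le)
    by_cases hj : j = l
    · subst hj; rw [bump_same]; exact Nat.le_succ _
    · exact le_of_eq (bump_of_ne hj k).symm
  · have h := hasSum_sum (s := s) fun t ht =>
      (hasSum_pi_prod (fun l => geo (zz t l)) (fun _ => (1 : ℝ))
        (fun l x => geoN_nonneg (hz t ht l).1 (hz t ht l).2 x)
        fun l => hasSum_geo' (hz t ht l).1 (hz t ht l).2).mul_left (μ t)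
    simpa [hμ1] using h
  · have hl : ∀ t ∈ s, ∀ j : Fin n, Summable fun k : Fin n → ℕ =>
        (k j : ℝ) * ∏ l, geo (zz t l) (k l) := by
      intro t ht j
      have h := (hasSum_pi_prod
        (fun (l : Fin n) (x : ℕ) => if l = j then (x : ℝ) * geo (zz t l) x else geo (zz t l) x)
        (fun l => ∑' x : ℕ, if l = j then (x : ℝ) * geo (zz t l) x else geo (zz t l) x)
        (fun l (x : ℕ) => by
          have := geoN_nonneg (hz t ht l).1 (hz t ht l).2 x
          split <;> positivity)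
        (fun l => by
          by_cases h : l = j
          · simp only [if_pos h]; exact (summable_id_geo (hz t ht l).1 (hz t ht l).2).hasSum
          · simp only [if_neg h]; exact (hasSum_geo' (hz t ht l).1 (hz t ht l).2).summable.hasSum)
        ).summable
      refine h.congr fun k => ?_
      rw [← Finset.mul_prod_erase _ _ (Finset.mem_univ j),
        ← Finset.mul_prod_erase (Finset.univ) (fun l => geo (zz t l) (k l)) (Finset.mem_univ j),
        if_pos rfl, mul_assoc]
      congr 2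
      exact Finset.prod_congr rfl fun l hl' => if_neg (Finset.ne_of_mem_erase hl')
    refine (summable_sum (s := s) fun t ht =>
      (summable_sum (s := Finset.univ) fun j (_ : j ∈ Finset.univ) => hl t ht j).mul_left (μ t)).congr
      fun k => ?_
    simp only [Finset.sum_apply, Finset.mul_sum, Finset.sum_mul]
    refine Finset.sum_congr rfl fun j _ => Finset.sum_congr rfl fun i _ => ?_
    ring

lemma PassiveN.toInf {N : ℕ} {P : (Fin n → ℕ) → ℝ} (h : PassiveN n N P) : PassiveNInf P where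
  nonneg := h.nonneg
  anti := h.anti
  total := by
    have := hasSum_sum_of_ne_finset_zero (f := P) (L := SummationFilter.unconditional _) (s := box n N) h.supp
    rwa [h.total] at this
  mean := summable_of_ne_finset_zero (s := box n N) fun k hk => by rw [h.supp k hk, mul_zero]

lemma entN_eq_entB {N : ℕ} {a : (Fin n → ℕ) → ℝ} (h : ∀ k, k ∉ box n N → a k = 0) :
    entN a = entB N a :=
  tsum_eq_sum fun k hk => by simp [h k hk]

/-- EPnI when one input is diagonal in any order and the other a mixture of product thermal states. -/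
theorem epni_diag_thermal {n N : ℕ} {η : ℝ} {zz : ι → Fin (n + 1) → ℝ}
    {a q : (Fin (n + 1) → ℕ) → ℝ} (h0 : 0 ≤ η) (h1 : η ≤ 1)
    (hz : ∀ t ∈ s, ∀ l, 0 ≤ zz t l ∧ zz t l < 1) (hμ : ∀ t ∈ s, 0 ≤ μ t)
    (hμ1 : ∑ t ∈ s, μ t = 1)
    (hq : ∀ k, q k = ∑ t ∈ s, μ t * ∏ l, geo (zz t l) (k l))
    (ha : ∀ k, 0 ≤ a k) (has : ∀ k, k ∉ box (n + 1) N → a k = 0)
    (ha1 : ∑ i ∈ box (n + 1) N, a i = 1) :
    (∀ k k', k ≠ k' → outN η a q k k' = 0) ∧
    Summable (fun k => Real.negMulLog (outN η a q k k)) ∧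
    η * ginv (entN a / ((n : ℝ) + 1)) + (1 - η) * ginv (entN q / ((n : ℝ) + 1))
      ≤ ginv (entN (fun k => outN η a q k k) / ((n : ℝ) + 1)) := by
  obtain ⟨P, hP, he, -, hs, hle⟩ := entropy_rearrN h0 h1 hz hμ hμ1 hq ha has ha1
  have eo : (fun k => outN η a q k k) = pCNinf η a q := funext (outN_diag η a q)
  refine ⟨fun k k' h => outN_offdiag η a q h, by simp only [outN_diag]; exact hs, ?_⟩
  have pP := hP.toInf
  have pq := thermalMix_passive hz hμ hμ1 hq
  have h := epn_passiveN_outN_of h0 h1 (fun N A B hA hB => epni_passiveN hA hB h0 h1) pP pq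
  rw [entN_eq_entB hP.supp, he, ← entN_eq_entB has] at h
  refine h.trans ?_
  rw [funext (outN_diag η P q), eo]
  have hc : (0 : ℝ) < (n : ℝ) + 1 := by positivity
  have hPout : 0 ≤ entN (pCNinf η P q) / ((n : ℝ) + 1) :=
    div_nonneg (entN_pCNinf_nonneg pP pq h0 h1) hc.le
  have hd := div_le_div_of_nonneg_right hle hc.le
  by_contra hlt
  push Not at hlt
  have := (ginv_lt_iff (hPout.trans hd) (ginv_nonneg hPout)).1 hlt
  rw [gFun_ginv hPout] at this
  linarith

end Vale.Agent.P369
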