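import Vale.Agent.P369.QKernel
import Vale.Agent.P369.Model

/-! The sector matrices of the partial transpose of the two-level environment, and their largest
eigenvalue `1 + η`. -/

open Finset Matrix Polynomial

noncomputable section

namespace Vale.Agent.P369

/-- Matrix element, in total degree `T`, of the partial transpose of `E₀ + E₁`, where `E_l` is the
beam splitter with environment `|l⟩`. -/
def tlMat (η : ℝ) (T : ℕ) : Matrix (Fin (T + 1)) (Fin (T + 1)) ℝ := fun a b =>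
  (if (a : ℕ) + b ≤ T then bsAmp η (T - b) 0 a * bsAmp η (T - a) 0 b else 0) +
    if (a : ℕ) + b ≤ T + 1 then bsAmp η (T - b) 1 a * bsAmp η (T - a) 1 b else 0

lemma tlMat_symm (η : ℝ) (T : ℕ) : (tlMat η T).IsHermitian := by
  ext a b
  simp only [Matrix.conjTranspose_apply, star_trivial, tlMat, Nat.add_comm (b : ℕ) (a : ℕ),
    mul_comm (bsAmp η (T - a) 0 b), mul_comm (bsAmp η (T - a) 1 b)]

/-- Image of the monomial `x^b` in total degree `T`. -/
def tlImg (η : ℝ) (T b : ℕ) : ℝ[X] :=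
  C ((1 + η) * Real.sqrt η ^ b) * (C (Real.sqrt η) * X + C (1 - η)) ^ (T - b)
    + (C ((b : ℝ) * Real.sqrt η ^ (b - 1)) * (C (Real.sqrt η) * X + C (1 - η)) ^ (T - b)
      - C (((T - b : ℕ) : ℝ) * Real.sqrt η ^ (b + 1)) *
          (C (Real.sqrt η) * X + C (1 - η)) ^ (T - b - 1)) * (C (1 - η) * (X - C (Real.sqrt η)))

lemma coeff_lin_pow (t r : ℝ) (n k : ℕ) :
    ((C t * X + C r) ^ n).coeff k = (n.choose k : ℝ) * t ^ k * r ^ (n - k) := by
  induction n generalizing k with
  | zero => cases k <;> simp [coeff_one]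
  | succ n ih =>
    rw [_root_.pow_succ']
    cases k with
    | zero => rw [coeff_lin_zero, ih]; simp [pow_succ]; ring
    | succ k =>
      rw [coeff_lin_succ, ih, ih, Nat.choose_succ_succ, Nat.succ_sub_succ]
      rcases lt_or_ge n (k + 1) with h | h
      · rw [Nat.choose_eq_zero_of_lt h]; push_cast; ring
      · rw [show n - k = (n - (k + 1)) + 1 by omega]; push_cast; ring

/-- The eigenpolynomial of index `n` in total degree `n + m`. -/
def tlEig (η : ℝ) (n m : ℕ) : ℝ[X] :=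
  (C 1 * X + C (-Real.sqrt η)) ^ n * (C (Real.sqrt η) * X + C 1) ^ m

lemma natDegree_tlEig (η : ℝ) (n m : ℕ) : (tlEig η n m).natDegree ≤ n + m :=
  natDegree_mul_le.trans (Nat.add_le_add
    (natDegree_pow_le.trans ((Nat.mul_le_mul_left n natDegree_linear_le).trans_eq (mul_one n)))
    (natDegree_pow_le.trans ((Nat.mul_le_mul_left m natDegree_linear_le).trans_eq (mul_one m))))

/-- Homogenisation of degree `T`. -/
def homog {R : Type*} [CommRing R] [Algebra ℝ R] (T : ℕ) (p : ℝ[X]) (u v : R) : R :=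
  ∑ b ∈ range (T + 1), p.coeff b • (u ^ b * v ^ (T - b))

lemma homog_lin_mul {R : Type*} [CommRing R] [Algebra ℝ R] (T : ℕ) (α β : ℝ) {p : ℝ[X]}
    (hp : p.natDegree ≤ T) (u v : R) :
    homog (T + 1) ((C α * X + C β) * p) u v = (α • u + β • v) * homog T p u v := by
  have htop : p.coeff (T + 1) = 0 := coeff_eq_zero_of_natDegree_lt (by omega)
  have h1 : (β • v) * homog T p u v
      = ∑ b ∈ range (T + 1 + 1), (β * p.coeff b) • (u ^ b * v ^ (T + 1 - b)) := by
    rw [Finset.sum_range_succ _ (T + 1), htop, mul_zero, zero_smul, add_zero, homog, Finset.mul_sum]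
    refine Finset.sum_congr rfl fun b hb => ?_
    rw [Nat.succ_sub (Nat.lt_succ_iff.1 (Finset.mem_range.1 hb)), pow_succ, smul_mul_smul_comm]
    congr 1
    ring
  rw [add_mul (α • u) (β • v), h1, homog, homog, Finset.mul_sum, Finset.sum_range_succ' _ (T + 1),
    Finset.sum_range_succ' _ (T + 1), coeff_lin_zero, ← add_assoc, ← Finset.sum_add_distrib]
  congr 1
  refine Finset.sum_congr rfl fun b _ => ?_
  rw [coeff_lin_succ, add_smul, smul_mul_smul_comm, Nat.succ_sub_succ, pow_succ]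
  congr 2
  ring

lemma homog_tlEig {R : Type*} [CommRing R] [Algebra ℝ R] (η : ℝ) (n m : ℕ) (u v : R) :
    homog (n + m) (tlEig η n m) u v
      = (u - Real.sqrt η • v) ^ n * (Real.sqrt η • u + v) ^ m := by
  induction n with
  | zero =>
    induction m with
    | zero => simp [homog, tlEig]
    | succ m ih =>
      rw [show tlEig η 0 (m + 1) = (C (Real.sqrt η) * X + C 1) * tlEig η 0 m by
          simp only [tlEig, pow_succ]; ring,
        show 0 + (m + 1) = 0 + m + 1 from rfl,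
        homog_lin_mul _ _ _ (natDegree_tlEig η 0 m), ih, one_smul]
      ring
  | succ n ih =>
    rw [show tlEig η (n + 1) m = (C 1 * X + C (-Real.sqrt η)) * tlEig η n m by
        simp only [tlEig, pow_succ]; ring,
      show n + 1 + m = n + m + 1 by omega, homog_lin_mul _ _ _ (natDegree_tlEig η n m), ih, one_smul,
      neg_smul]
    ring

lemma coeff_one_pow {R : Type*} [CommRing R] (a b : R) (n : ℕ) :
    ((C a + C b * X) ^ n).coeff 0 = a ^ n ∧
      ((C a + C b * X) ^ n).coeff 1 = (n : R) * a ^ (n - 1) * b := by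
  induction n with
  | zero => simp [coeff_one]
  | succ n ih =>
    have h0 : (C a + C b * X).coeff 0 = a := by simp
    have h1 : (C a + C b * X).coeff 1 = b := by simp
    constructor
    · rw [pow_succ, mul_coeff_zero, ih.1, h0, pow_succ]
    · rw [pow_succ, mul_coeff_one, ih.1, ih.2, h0, h1]
      rcases n with _ | n
      · simp
      · simp only [Nat.add_sub_cancel, pow_succ]; push_cast; ring

/-- The eigenvalue of index `n`. -/
def tlVal (η : ℝ) (n : ℕ) : ℝ :=
  (1 + η) * ((-η) ^ n + (n : ℝ) * (-η) ^ (n - 1) * (1 - η))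

lemma tlVal_le {η : ℝ} (h0 : 0 ≤ η) (h1 : η ≤ 1) (n : ℕ) : tlVal η n ≤ 1 + η := by
  refine mul_le_of_le_one_right (by linarith) ?_
  rcases n with _ | n
  · simp
  rw [Nat.add_sub_cancel, pow_succ,
    show (-η) ^ n * -η + ((n + 1 : ℕ) : ℝ) * (-η) ^ n * (1 - η)
      = (-η) ^ n * (((n + 1 : ℕ) : ℝ) * (1 - η) - η) by ring]
  refine (le_abs_self _).trans ?_
  rw [abs_mul, abs_pow, abs_neg, abs_of_nonneg h0]
  have hp : η ^ n ≤ 1 := pow_le_one₀ h0 h1
  have hn : η ^ n * (((n + 1 : ℕ) : ℝ) * (1 - η)) ≤ 1 := by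
    have hg : ((n + 1 : ℕ) : ℝ) * η ^ n ≤ ∑ j ∈ range (n + 1), η ^ j := by
      have := Finset.card_nsmul_le_sum (range (n + 1)) (fun j => η ^ j) (η ^ n) fun j hj =>
        pow_le_pow_of_le_one h0 h1 (Nat.lt_succ_iff.1 (Finset.mem_range.1 hj))
      simpa [nsmul_eq_mul] using this
    have := mul_le_mul_of_nonneg_right hg (sub_nonneg.2 h1)
    rw [geom_sum_mul_neg η (n + 1)] at this
    linarith [pow_nonneg h0 (n + 1)]
  rcases abs_cases (((n + 1 : ℕ) : ℝ) * (1 - η) - η) with ⟨e, -⟩ | ⟨e, -⟩ <;> rw [e]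
  · nlinarith [mul_nonneg (pow_nonneg h0 n) h0]
  · nlinarith [mul_nonneg (pow_nonneg h0 n) (mul_nonneg (Nat.cast_nonneg (α := ℝ) (n + 1))
      (sub_nonneg.2 h1)), mul_le_one₀ hp h0 h1]

lemma tlImg_eig {η : ℝ} (h0 : 0 ≤ η) {n T : ℕ} (hn : n ≤ T) :
    ∑ b ∈ range (T + 1), (tlEig η n (T - n)).coeff b • tlImg η T b
      = tlVal η n • tlEig η n (T - n) := by
  set t := Real.sqrt η with ht
  have htt : t * t = η := Real.mul_self_sqrt h0
  set P : ℝ[X] := C t * X + C (1 - η) with hP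
  set h : ℝ[X] := C (1 - η) * (X - C t) with hh
  set p1 : ℝ[X][X] := C (C t) + C h * X with hp1
  set p2 : ℝ[X][X] := C P + C (-(C t * h)) * X with hp2
  have himg : ∀ b, tlImg η T b
      = (1 + η) • (p1 ^ b * p2 ^ (T - b)).coeff 0 + (p1 ^ b * p2 ^ (T - b)).coeff 1 := by
    intro b
    rw [mul_coeff_zero, mul_coeff_one, (coeff_one_pow _ _ _).1, (coeff_one_pow _ _ _).1,
      (coeff_one_pow _ _ _).2, (coeff_one_pow _ _ _).2]
    simp only [tlImg, ← hP, ← ht, ← hh, smul_eq_C_mul, map_mul, map_pow, map_natCast, pow_succ]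
    ring
  have hsum : ∑ b ∈ range (T + 1), (tlEig η n (T - n)).coeff b • tlImg η T b
      = (1 + η) • (homog T (tlEig η n (T - n)) p1 p2).coeff 0
        + (homog T (tlEig η n (T - n)) p1 p2).coeff 1 := by
    simp only [homog, finsetSum_coeff, Polynomial.coeff_smul, himg, smul_add, Finset.smul_sum,
      Finset.sum_add_distrib]
    congr 1
    exact Finset.sum_congr rfl fun b _ => smul_comm _ _ _
  have halg : ∀ r : ℝ, algebraMap ℝ ℝ[X][X] r = C (C r) := fun r => rfl
  have e2 : t • p1 + p2 = C (C t * X + 1) := by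
    rw [hp1, hp2, hP, Algebra.smul_def, halg]
    simp only [map_sub, map_add, map_mul, map_one, map_neg]
    have : (C (C η) : ℝ[X][X]) = C (C t) * C (C t) := by rw [← C_mul, ← C_mul, htt]
    rw [this]
    ring
  have e1 : p1 - t • p2 = C (C (-η) * (X - C t)) + C (C ((1 - η) * (1 + η)) * (X - C t)) * X := by
    rw [hp1, hp2, hP, hh, Algebra.smul_def, halg]
    simp only [map_sub, map_add, map_mul, map_one, map_neg]
    have : (C (C η) : ℝ[X][X]) = C (C t) * C (C t) := by rw [← C_mul, ← C_mul, htt]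
    rw [this]
    ring
  have hH := homog_tlEig η n (T - n) p1 p2
  rw [show n + (T - n) = T by omega, ← ht, e1, e2] at hH
  rw [hsum, hH, ← C_pow, coeff_mul_C, coeff_mul_C, (coeff_one_pow _ _ _).1, (coeff_one_pow _ _ _).2]
  simp only [tlEig, tlVal, ← ht, smul_eq_C_mul, map_mul, map_add, map_one, map_neg, map_pow,
    map_sub, map_natCast, one_mul, mul_pow, ← sub_eq_add_neg]
  rcases n with _ | n
  · simp
  · simp only [Nat.add_sub_cancel, pow_succ]
    push_cast
    ring

/-- Conjugation weight. -/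
def tlW (T a : ℕ) : ℝ := sqf a * sqf (T - a)

lemma bsAmp_zero_closed (η : ℝ) {i m : ℕ} (h : m ≤ i) :
    bsAmp η i 0 m = sqf i / (sqf m * sqf (i - m)) * Real.sqrt η ^ m *
      (-Real.sqrt (1 - η)) ^ (i - m) := by
  have e : bsPoly η i 0 = (C (Real.sqrt η) * X + C (-Real.sqrt (1 - η))) ^ i := by
    simp [bsPoly, sub_eq_add_neg]
  have hc : (i.choose m : ℝ) * (sqf m * sqf m) * (sqf (i - m) * sqf (i - m)) = sqf i * sqf i := by
    simp only [sqf, Real.mul_self_sqrt (Nat.cast_nonneg _)]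
    exact_mod_cast Nat.choose_mul_factorial_mul_factorial h
  have hi := (sqf_pos i).ne'
  have hm := (sqf_pos m).ne'
  have hd := (sqf_pos (i - m)).ne'
  rw [bsAmp_eq, e, coeff_lin_pow, Nat.add_zero, show sqf 0 = 1 by simp [sqf]]
  field_simp
  linear_combination (Real.sqrt η ^ m * (-Real.sqrt (1 - η)) ^ (i - m)) * hc

lemma sq_neg_pow (x : ℝ) (d : ℕ) : (-x) ^ d * (-x) ^ d = (x * x) ^ d := by
  rw [← mul_pow, neg_mul_neg]

lemma pair_zero (η : ℝ) (hη : η ≤ 1) {T a b : ℕ} (h : a + b ≤ T) :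
    bsAmp η (T - b) 0 a * bsAmp η (T - a) 0 b * tlW T b
      = Real.sqrt η ^ b * (((T - b).choose a : ℝ) * Real.sqrt η ^ a * (1 - η) ^ (T - b - a))
          * tlW T a := by
  have hs : Real.sqrt (1 - η) * Real.sqrt (1 - η) = 1 - η := Real.mul_self_sqrt (by linarith)
  have hc : ((T - b).choose a : ℝ) * (sqf a * sqf a) * (sqf (T - b - a) * sqf (T - b - a))
      = sqf (T - b) * sqf (T - b) := by
    simp only [sqf, Real.mul_self_sqrt (Nat.cast_nonneg _)]
    exact_mod_cast Nat.choose_mul_factorial_mul_factorial (show a ≤ T - b by omega)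
  have h1 := (sqf_pos a).ne'
  have h2 := (sqf_pos b).ne'
  have h3 := (sqf_pos (T - b - a)).ne'
  have hpw : (1 - η) ^ (T - b - a)
      = (-Real.sqrt (1 - η)) ^ (T - b - a) * (-Real.sqrt (1 - η)) ^ (T - b - a) := by
    rw [sq_neg_pow, hs]
  rw [bsAmp_zero_closed η (by omega), bsAmp_zero_closed η (by omega), tlW, tlW,
    show T - a - b = T - b - a by omega, hpw]
  generalize (-Real.sqrt (1 - η)) ^ (T - b - a) = w
  field_simp
  linear_combination (-(sqf (T - a) * Real.sqrt η ^ b * Real.sqrt η ^ a *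
    w ^ 2)) * hc

lemma bsAmp_zero_succ (η : ℝ) {i m : ℕ} (h : m ≤ i) :
    Real.sqrt ((i + 1 - m : ℕ) : ℝ) * bsAmp η (i + 1) 0 m
      = -Real.sqrt (1 - η) * Real.sqrt ((i + 1 : ℕ) : ℝ) * bsAmp η i 0 m := by
  have hm := (sqf_pos m).ne'
  have hd := (sqf_pos (i - m)).ne'
  have hr : Real.sqrt ((i - m : ℕ) + 1 : ℝ) ≠ 0 := (Real.sqrt_pos.2 (by positivity)).ne'
  rw [bsAmp_zero_closed η (by omega), bsAmp_zero_closed η h,
    show i + 1 - m = (i - m) + 1 by omega, sqf_succ, sqf_succ, Nat.cast_succ, Nat.cast_succ,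
    pow_succ]
  field_simp

lemma bsAmp_one_closed (η : ℝ) (i m : ℕ) :
    bsAmp η i 1 m = Real.sqrt (1 - η) * Real.sqrt (m : ℝ) * bsAmp η i 0 (m - 1)
      + Real.sqrt η * Real.sqrt ((i + 1 - m : ℕ) : ℝ) * bsAmp η i 0 m := by
  simpa using bsAmp_raise_right η i 0 m

lemma tlMat_mul_weight {η : ℝ} (h0 : 0 ≤ η) (h1 : η ≤ 1) (T : ℕ) (a b : Fin (T + 1)) :
    tlMat η T a b * tlW T b = (tlImg η T b).coeff a * tlW T a := by
  obtain ⟨a, ha⟩ := a
  obtain ⟨b, hb⟩ := b
  have hA : a ≤ T := Nat.lt_succ_iff.1 ha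
  have hB : b ≤ T := Nat.lt_succ_iff.1 hb
  set t := Real.sqrt η with ht
  set s := Real.sqrt (1 - η) with hs
  have htt : t * t = η := Real.mul_self_sqrt h0
  have hss : s * s = 1 - η := Real.mul_self_sqrt (by linarith)
  set Q : ℕ → ℕ → ℝ := fun n k => (n.choose k : ℝ) * t ^ k * (1 - η) ^ (n - k) with hQ
  have hcoef : (tlImg η T b).coeff a = (1 + η) * t ^ b * Q (T - b) a
      + (1 - η) * ((b : ℝ) * t ^ (b - 1) * ((if a = 0 then 0 else Q (T - b) (a - 1)) - t * Q (T - b) a)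
        - ((T - b : ℕ) : ℝ) * t ^ (b + 1) *
          ((if a = 0 then 0 else Q (T - b - 1) (a - 1)) - t * Q (T - b - 1) a)) := by
    have hmulX : ∀ (p : ℝ[X]), (p * (C (1 - η) * (X - C t))).coeff a
        = (1 - η) * ((if a = 0 then 0 else p.coeff (a - 1)) - t * p.coeff a) := by
      intro p
      rw [mul_left_comm, coeff_C_mul, mul_sub, coeff_sub, coeff_mul_C]
      rcases a with _ | a'
      · rw [coeff_mul_X_zero, if_pos rfl]; ring
      · rw [coeff_mul_X, if_neg (Nat.succ_ne_zero a'), Nat.add_sub_cancel]; ring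
    rw [tlImg, coeff_add, coeff_C_mul, coeff_lin_pow, hmulX, coeff_sub, coeff_sub, coeff_C_mul,
      coeff_C_mul, coeff_C_mul, coeff_C_mul, coeff_lin_pow, coeff_lin_pow, coeff_lin_pow,
      coeff_lin_pow]
    simp only [hQ, ← ht]
    split_ifs <;> ring
  have hW : ∀ x, tlW T x ≠ 0 := fun x => (mul_pos (sqf_pos _) (sqf_pos _)).ne'
  rw [hcoef, tlMat, bsAmp_one_closed, bsAmp_one_closed, ← ht, ← hs]
  dsimp only
  have hsq : ∀ x : ℕ, Real.sqrt (x : ℝ) * Real.sqrt (x : ℝ) = x := fun x =>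
    Real.mul_self_sqrt (Nat.cast_nonneg x)
  have hsucc : ∀ x, sqf (x + 1) = Real.sqrt ((x + 1 : ℕ) : ℝ) * sqf x := fun x => by
    rw [sqf_succ, Nat.cast_succ]
  rcases le_or_gt (a + b) (T + 1) with h2 | h2
  swap
  · rw [if_neg (by omega), if_neg (by omega)]
    simp only [hQ]
    rw [Nat.choose_eq_zero_of_lt (show T - b < a by omega),
      Nat.choose_eq_zero_of_lt (show T - b - 1 < a by omega), if_neg (by omega), if_neg (by omega),
      Nat.choose_eq_zero_of_lt (show T - b < a - 1 by omega)]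
    rcases Nat.eq_zero_or_pos (T - b) with he | he
    · rw [he]; simp
    · rw [Nat.choose_eq_zero_of_lt (show T - b - 1 < a - 1 by omega)]; simp
  rw [if_pos h2]
  set d := T + 1 - a - b with hd
  rw [show T - b + 1 - a = d by omega, show T - a + 1 - b = d by omega]
  -- the four products of the raised amplitudes, after conjugation by the weights
  have eCC : Real.sqrt (d : ℝ) * bsAmp η (T - b) 0 a * (Real.sqrt (d : ℝ) * bsAmp η (T - a) 0 b)
      * tlW T b = (d : ℝ) * (t ^ b * Q (T - b) a) * tlW T a := by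
    rcases le_or_gt (a + b) T with h3 | h3
    · have := pair_zero η h1 h3
      rw [← ht] at this
      linear_combination (d : ℝ) * this + (bsAmp η (T - b) 0 a * bsAmp η (T - a) 0 b * tlW T b) * hsq d
    · rw [show d = 0 by omega]; simp
  have eC0 : (if a + b ≤ T then bsAmp η (T - b) 0 a * bsAmp η (T - a) 0 b else 0) * tlW T b
      = t ^ b * Q (T - b) a * tlW T a := by
    split_ifs with h3
    · have := pair_zero η h1 h3
      rw [← ht] at this
      exact this
    · simp only [hQ, Nat.choose_eq_zero_of_lt (show T - b < a by omega)]; simp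
  have eAA : Real.sqrt (a : ℝ) * bsAmp η (T - b) 0 (a - 1) * (Real.sqrt (b : ℝ) * bsAmp η (T - a) 0 (b - 1))
      * tlW T b = (b : ℝ) * t ^ (b - 1) * (if a = 0 then 0 else Q (T - b) (a - 1)) * tlW T a := by
    rcases a with _ | a'
    · simp
    rcases b with _ | b'
    · simp
    obtain ⟨T', rfl⟩ : ∃ T', T = T' + 1 := ⟨T - 1, by omega⟩
    have hp := pair_zero η h1 (show a' + b' ≤ T' by omega)
    rw [← ht] at hp
    have ea : tlW (T' + 1) (a' + 1) = Real.sqrt ((a' + 1 : ℕ) : ℝ) * tlW T' a' := by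
      rw [tlW, tlW, hsucc, Nat.succ_sub_succ, mul_assoc]
    have eb : tlW (T' + 1) (b' + 1) = Real.sqrt ((b' + 1 : ℕ) : ℝ) * tlW T' b' := by
      rw [tlW, tlW, hsucc, Nat.succ_sub_succ, mul_assoc]
    simp only [if_neg (Nat.succ_ne_zero a'), Nat.succ_sub_succ, hQ]
    rw [ea, eb]
    linear_combination (Real.sqrt ((a' + 1 : ℕ) : ℝ) * ((b' + 1 : ℕ) : ℝ)) * hp
      + (Real.sqrt ((a' + 1 : ℕ) : ℝ) * bsAmp η (T' - b') 0 a' * bsAmp η (T' - a') 0 b'
          * tlW T' b') * hsq (b' + 1)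
  have eAC : Real.sqrt (a : ℝ) * bsAmp η (T - b) 0 (a - 1) * (Real.sqrt (d : ℝ) * bsAmp η (T - a) 0 b)
      * tlW T b = -s * (((T - b : ℕ) : ℝ) * t ^ b * (if a = 0 then 0 else Q (T - b - 1) (a - 1)))
        * tlW T a := by
    rcases a with _ | a'
    · simp
    simp only [if_neg (Nat.succ_ne_zero a'), Nat.add_sub_cancel, hQ]
    rcases Nat.eq_zero_or_pos d with hd0 | hd0
    · rw [hd0]
      rcases Nat.eq_zero_or_pos (T - b) with he | he
      · simp [he]
      · simp [Nat.choose_eq_zero_of_lt (show T - b - 1 < a' by omega)]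
    obtain ⟨T', rfl⟩ : ∃ T', T = T' + 1 := ⟨T - 1, by omega⟩
    have hp := pair_zero η h1 (show a' + b ≤ T' by omega)
    rw [← ht] at hp
    have ea : tlW (T' + 1) (a' + 1) = Real.sqrt ((a' + 1 : ℕ) : ℝ) * tlW T' a' := by
      rw [tlW, tlW, hsucc, Nat.succ_sub_succ, mul_assoc]
    have eb : tlW (T' + 1) b = Real.sqrt ((T' - b + 1 : ℕ) : ℝ) * tlW T' b := by
      rw [tlW, tlW, show T' + 1 - b = T' - b + 1 by omega, hsucc]
      ring
    have hr := bsAmp_zero_succ η (show a' ≤ T' - b by omega)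
    rw [← hs, show T' - b + 1 - a' = d by omega] at hr
    rw [show T' + 1 - b - 1 = T' - b by omega, show T' + 1 - b = T' - b + 1 by omega,
      show T' + 1 - (a' + 1) = T' - a' by omega, ea, eb]
    linear_combination (Real.sqrt ((a' + 1 : ℕ) : ℝ) * bsAmp η (T' - a') 0 b
        * Real.sqrt ((T' - b + 1 : ℕ) : ℝ) * tlW T' b) * hr
      + (-s * Real.sqrt ((a' + 1 : ℕ) : ℝ) * bsAmp η (T' - b) 0 a' * bsAmp η (T' - a') 0 b
          * tlW T' b) * hsq (T' - b + 1)
      + (-s * Real.sqrt ((a' + 1 : ℕ) : ℝ) * ((T' - b + 1 : ℕ) : ℝ)) * hp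
  have eCA : Real.sqrt (d : ℝ) * bsAmp η (T - b) 0 a * (Real.sqrt (b : ℝ) * bsAmp η (T - a) 0 (b - 1))
      * tlW T b = -s * ((b : ℝ) * t ^ (b - 1) * Q (T - b) a) * tlW T a := by
    rcases b with _ | b'
    · simp
    simp only [Nat.add_sub_cancel, hQ]
    rcases Nat.eq_zero_or_pos d with hd0 | hd0
    · rw [hd0]
      simp [Nat.choose_eq_zero_of_lt (show T - (b' + 1) < a by omega)]
    obtain ⟨T', rfl⟩ : ∃ T', T = T' + 1 := ⟨T - 1, by omega⟩
    have hp := pair_zero η h1 (show a + b' ≤ T' by omega)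
    rw [← ht] at hp
    have ea : tlW (T' + 1) a = Real.sqrt ((T' - a + 1 : ℕ) : ℝ) * tlW T' a := by
      rw [tlW, tlW, show T' + 1 - a = T' - a + 1 by omega, hsucc]
      ring
    have eb : tlW (T' + 1) (b' + 1) = Real.sqrt ((b' + 1 : ℕ) : ℝ) * tlW T' b' := by
      rw [tlW, tlW, hsucc, Nat.succ_sub_succ, mul_assoc]
    have hr := bsAmp_zero_succ η (show b' ≤ T' - a by omega)
    rw [← hs, show T' - a + 1 - b' = d by omega] at hr
    rw [show T' + 1 - a = T' - a + 1 by omega, show T' + 1 - (b' + 1) = T' - b' by omega, ea, eb]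
    linear_combination (Real.sqrt ((b' + 1 : ℕ) : ℝ) * bsAmp η (T' - b') 0 a
        * Real.sqrt ((b' + 1 : ℕ) : ℝ) * tlW T' b') * hr
      + (-s * Real.sqrt ((T' - a + 1 : ℕ) : ℝ) * bsAmp η (T' - b') 0 a * bsAmp η (T' - a) 0 b'
          * tlW T' b') * hsq (b' + 1)
      + (-s * Real.sqrt ((T' - a + 1 : ℕ) : ℝ) * ((b' + 1 : ℕ) : ℝ)) * hp
  have hdQ : (d : ℝ) * Q (T - b) a
      = Q (T - b) a + (1 - η) * ((T - b : ℕ) : ℝ) * Q (T - b - 1) a := by
    rcases lt_or_ge (T - b) a with hn | hn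
    · simp only [hQ]
      rw [Nat.choose_eq_zero_of_lt hn, Nat.choose_eq_zero_of_lt (show T - b - 1 < a by omega)]
      simp
    rw [show d = T - b - a + 1 by omega]
    simp only [hQ]
    generalize T - b = n at hn ⊢
    rcases n with _ | n'
    · simp [show a = 0 by omega]
    simp only [Nat.add_sub_cancel]
    have hc : (((n' + 1).choose a : ℕ) : ℝ) * ((n' + 1 - a : ℕ) : ℝ)
        = ((n' + 1 : ℕ) : ℝ) * (n'.choose a : ℝ) := by
      rw [← Nat.cast_mul, ← Nat.cast_mul]
      congr 1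
      rw [← Nat.choose_mul_succ_eq, Nat.mul_comm]
    rcases Nat.lt_or_ge n' a with he | he
    · rw [Nat.choose_eq_zero_of_lt he, show n' + 1 - a = 0 by omega]
      simp
    · rw [show n' + 1 - a = n' - a + 1 by omega] at hc ⊢
      push_cast at hc ⊢
      linear_combination (t ^ a * (1 - η) ^ (n' - a + 1)) * hc
  linear_combination eC0 + η * eCC + (1 - η) * eAA + (s * t) * eAC + (s * t) * eCA
    + (η * t ^ b * tlW T a) * hdQ
    + (bsAmp η (T - b) 0 a * Real.sqrt (d : ℝ) * (Real.sqrt (d : ℝ) * bsAmp η (T - a) 0 b) * tlW T b) * htt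
    + (Real.sqrt (a : ℝ) * bsAmp η (T - b) 0 (a - 1) * (Real.sqrt (b : ℝ) * bsAmp η (T - a) 0 (b - 1))
        * tlW T b) * hss
    - (t * tlW T a * (((T - b : ℕ) : ℝ) * t ^ b * (if a = 0 then 0 else Q (T - b - 1) (a - 1))
        + (b : ℝ) * t ^ (b - 1) * Q (T - b) a)) * hss
    - ((1 - η) * t ^ b * ((T - b : ℕ) : ℝ) * Q (T - b - 1) a * tlW T a) * htt

/-- The two-level kernel is at most `1 + η`. -/
lemma tlMat_le {η : ℝ} (h0 : 0 ≤ η) (h1 : η ≤ 1) (T : ℕ) :
    ((1 + η) • (1 : Matrix (Fin (T + 1)) (Fin (T + 1)) ℝ) - tlMat η T).PosSemidef := by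
  set N := (1 + η) • (1 : Matrix (Fin (T + 1)) (Fin (T + 1)) ℝ) - tlMat η T with hN
  have hh : N.IsHermitian := (isHermitian_one.smul (IsSelfAdjoint.all _)).sub (tlMat_symm η T)
  set V : Matrix (Fin (T + 1)) (Fin (T + 1)) ℝ :=
    fun b n => tlW T b * (tlEig η n (T - n)).coeff b with hV
  set f : Fin (T + 1) → ℝ := fun n => tlVal η n with hf
  have hMV : tlMat η T * V = V * diagonal f := by
    ext a n
    have h := congrArg (fun p => Polynomial.coeff p (a : ℕ))
      (tlImg_eig h0 (Nat.lt_succ_iff.1 n.isLt) (η := η))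
    simp only [finsetSum_coeff, Polynomial.coeff_smul, smul_eq_mul] at h
    rw [Matrix.mul_apply, Matrix.mul_diagonal]
    simp only [hV, hf]
    rw [mul_assoc, mul_comm ((tlEig η n (T - n)).coeff a), ← h, Finset.mul_sum,
      ← Fin.sum_univ_eq_sum_range]
    refine Finset.sum_congr rfl fun b _ => ?_
    rw [← mul_assoc, tlMat_mul_weight h0 h1]
    ring
  have hinj : Function.Injective V.mulVec := by
    intro x y hxy
    have hz : V.mulVec (x - y) = 0 := by rw [Matrix.mulVec_sub, hxy, sub_self]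
    by_contra hne
    set β := x - y with hβd
    have hcoef : ∀ b : Fin (T + 1), ∑ n, β n * (tlEig η n (T - n)).coeff (b : ℕ) = 0 := by
      intro b
      have h := congrFun hz b
      simp only [Matrix.mulVec, dotProduct, hV, Pi.zero_apply] at h
      refine (mul_eq_zero.1 (?_ : tlW T b * _ = 0)).resolve_left
        (mul_pos (sqf_pos _) (sqf_pos _)).ne'
      rw [Finset.mul_sum, ← h]
      exact Finset.sum_congr rfl fun n _ => by ring
    set t := Real.sqrt η with ht
    have htt : t * t = η := Real.mul_self_sqrt h0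
    have hne1 : 1 + η ≠ 0 := by linarith
    have hpow : ∀ Y : ℝ, ∑ n, β n * Y ^ (n : ℕ) = 0 := by
      intro Y
      have hu : (Y + t) / (1 + η) - t • ((1 - t * Y) / (1 + η)) = Y := by
        rw [smul_eq_mul, ← htt]; field_simp [show 1 + t * t ≠ 0 by rw [htt]; exact hne1]; ring
      have hv : t • ((Y + t) / (1 + η)) + (1 - t * Y) / (1 + η) = 1 := by
        rw [smul_eq_mul, ← htt]; field_simp [show 1 + t * t ≠ 0 by rw [htt]; exact hne1]; ring
      have e : ∀ n : Fin (T + 1), β n * Y ^ (n : ℕ) = β n * homog T (tlEig η n (T - n))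
          ((Y + t) / (1 + η)) ((1 - t * Y) / (1 + η)) := by
        intro n
        have h := homog_tlEig η n (T - n) ((Y + t) / (1 + η)) ((1 - t * Y) / (1 + η))
        rw [show (n : ℕ) + (T - n) = T by omega, ← ht, hu, hv, one_pow, mul_one] at h
        rw [h]
      simp only [e, homog, smul_eq_mul, Finset.mul_sum]
      rw [Finset.sum_comm]
      refine Finset.sum_eq_zero fun b hb => ?_
      simp only [← mul_assoc, ← Finset.sum_mul]
      simp [hcoef ⟨b, Finset.mem_range.1 hb⟩]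
    have hp : (∑ n : Fin (T + 1), monomial (n : ℕ) (β n)) = 0 :=
      Polynomial.funext fun Y => by simp [eval_finsetSum, hpow Y]
    refine hne (sub_eq_zero.1 ?_)
    rw [← hβd]
    funext n
    have := congrArg (fun p => Polynomial.coeff p (n : ℕ)) hp
    simpa [finsetSum_coeff, coeff_monomial, Fin.val_inj] using this
  rw [hh.posSemidef_iff_eigenvalues_nonneg]
  intro i
  have hx := hh.mulVec_eigenvectorBasis i
  obtain ⟨β, hβ⟩ := (Matrix.mulVec_surjective_iff_isUnit.2
    (Matrix.mulVec_injective_iff_isUnit.1 hinj)) (hh.eigenvectorBasis i)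
  rw [← hβ] at hx
  replace hx : ((1 + η) • (1 : Matrix (Fin (T + 1)) (Fin (T + 1)) ℝ) - tlMat η T) *ᵥ (V *ᵥ β)
      = hh.eigenvalues i • (V *ᵥ β) := hx
  rw [Matrix.sub_mulVec, Matrix.smul_mulVec, Matrix.one_mulVec, Matrix.mulVec_mulVec,
    hMV, ← Matrix.mulVec_mulVec, ← Matrix.mulVec_smul, ← Matrix.mulVec_sub,
    ← Matrix.mulVec_smul] at hx
  have hx' := hinj hx
  have hne : β ≠ 0 := by
    rintro rfl
    rw [Matrix.mulVec_zero] at hβ
    exact hh.eigenvectorBasis.orthonormal.ne_zero i (by ext j; simpa using (congrFun hβ j).symm)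
  obtain ⟨n, hn⟩ := Function.ne_iff.1 hne
  have := congrFun hx' n
  simp only [Pi.sub_apply, Pi.smul_apply, smul_eq_mul, Matrix.mulVec_diagonal] at this
  have e : hh.eigenvalues i = 1 + η - f n := mul_right_cancel₀ hn (by linarith)
  simp only [Pi.zero_apply]
  rw [e]
  linarith [tlVal_le h0 h1 (n : ℕ)]

end Vale.Agent.P369
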