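import Vale.Agent.P369.ArbitraryInf
import Vale.Agent.P369.TwoLevelKernel

/-! A pure first input against a convex mixture of thermal states and a passive two-level state. -/

open Finset Matrix Filter Topology
open scoped ComplexOrder

noncomputable section

namespace Vale.Agent.P369

/-- The two-level distribution `(p, 1 - p)`. -/
def twoLev (p : ℝ) (l : ℕ) : ℝ := if l = 0 then p else if l = 1 then 1 - p else 0

/-- The spectrum of a pure state. -/
def pureSpec (j : ℕ) : ℝ := if j = 0 then 1 else 0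

lemma passiveInf_pureSpec : PassiveInf pureSpec where
  nonneg j := by unfold pureSpec; split_ifs <;> norm_num
  anti j := by rcases j with _ | j <;> simp [pureSpec]
  total := hasSum_ite_eq 0 1
  mean := summable_of_ne_finset_zero (s := {0}) fun j hj => by
    simp [pureSpec, Finset.mem_singleton.not.1 hj]

lemma passiveInf_twoLev {p : ℝ} (hp : 1 / 2 ≤ p) (hp1 : p ≤ 1) : PassiveInf (twoLev p) where
  nonneg l := by unfold twoLev; split_ifs <;> linarith
  anti l := by
    rcases l with _ | _ | l <;> simp [twoLev] <;> linarith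
  total := by
    have h := hasSum_sum_of_ne_finset_zero (L := SummationFilter.unconditional ℕ) (f := twoLev p)
      (s := range 2) fun l hl => by
      simp only [Finset.mem_range, not_lt] at hl
      simp [twoLev, show l ≠ 0 by omega, show l ≠ 1 by omega]
    simpa [Finset.sum_range_succ, twoLev] using h
  mean := summable_of_ne_finset_zero (s := range 2) fun l hl => by
    simp only [Finset.mem_range, not_lt] at hl
    simp [twoLev, show l ≠ 0 by omega, show l ≠ 1 by omega]

lemma sum_reindex (a b l Db TT : ℕ) (f : ℕ → ℂ)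
    (hf : ∀ d, f d ≠ 0 → l ≤ a + d ∧ l ≤ b + d ∧ d < Db ∧ a + b + d - l < TT)
    :
    ∑ d ∈ range Db, f d
      = ∑ T ∈ range TT, if a ≤ T ∧ b ≤ T ∧ a + b ≤ T + l then f (T + l - a - b) else 0 := by
  refine Finset.sum_bij_ne_zero (fun d _ _ => a + b + d - l) (fun d _ h => ?_) (fun d _ h d' _ h' e => ?_)
    (fun T hT h => ?_) fun d _ h => ?_
  · exact Finset.mem_range.2 (hf d h).2.2.2
  · have := hf d h; have := hf d' h'; omega
  · split_ifs at h with hc
    · refine ⟨T + l - a - b, Finset.mem_range.2 (hf _ h).2.2.1, h, by omega⟩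
    · exact absurd rfl h
  · have := hf d h
    rw [if_pos (by omega), show a + b + d - l + l - a - b = d by omega]

lemma tlMat_quad {η : ℝ} (h0 : 0 ≤ η) (h1 : η ≤ 1) (T : ℕ) (y : Fin (T + 1) → ℂ) :
    (∑ a, ∑ b, y a * (starRingEnd ℂ) (y b) * (tlMat η T a b : ℂ)).re
      ≤ (1 + η) * ∑ a, ‖y a‖ ^ 2 := by
  have key : ∀ x : Fin (T + 1) → ℝ,
      ∑ a, ∑ b, x a * x b * tlMat η T a b ≤ (1 + η) * ∑ a, x a ^ 2 := by
    intro x
    have h := (tlMat_le h0 h1 T).dotProduct_mulVec_nonneg x
    rw [Matrix.sub_mulVec, Matrix.smul_mulVec, Matrix.one_mulVec] at h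
    simp only [star_trivial, dotProduct, Matrix.mulVec, Pi.sub_apply, Pi.smul_apply, smul_eq_mul,
      mul_sub, Finset.sum_sub_distrib, Finset.mul_sum] at h
    rw [sub_nonneg] at h
    refine le_trans (le_of_eq ?_) (h.trans (le_of_eq ?_))
    · exact Finset.sum_congr rfl fun a _ => Finset.sum_congr rfl fun b _ => by ring
    · rw [Finset.mul_sum]; exact Finset.sum_congr rfl fun a _ => by ring
  have e : (∑ a, ∑ b, y a * (starRingEnd ℂ) (y b) * (tlMat η T a b : ℂ)).re
      = (∑ a, ∑ b, (y a).re * (y b).re * tlMat η T a b)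
        + ∑ a, ∑ b, (y a).im * (y b).im * tlMat η T a b := by
    simp only [Complex.re_sum, Complex.mul_re, Complex.ofReal_re, Complex.ofReal_im, mul_zero,
      sub_zero, Complex.conj_re, Complex.conj_im, mul_neg, sub_neg_eq_add, add_mul,
      Finset.sum_add_distrib]
  rw [e]
  refine (add_le_add (key fun a => (y a).re) (key fun a => (y a).im)).trans_eq ?_
  rw [← mul_add, ← Finset.sum_add_distrib]
  congr 1
  refine Finset.sum_congr rfl fun a _ => ?_
  rw [Complex.sq_norm, Complex.normSq_apply]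
  ring

variable {η : ℝ}

lemma tlMat_pieces (η : ℝ) (T a b : ℕ) (ha : a ≤ T) (hb : b ≤ T) :
    tlMat η T ⟨a, Nat.lt_succ_of_le ha⟩ ⟨b, Nat.lt_succ_of_le hb⟩
      = ∑ l ∈ range 2, if a ≤ T ∧ b ≤ T ∧ a + b ≤ T + l then
          bsMat η a (T + l - a - b) (T - b) l * bsMat η b (T + l - a - b) (T - a) l else 0 := by
  simp only [Finset.sum_range_succ, Finset.sum_range_zero, zero_add, tlMat, Nat.add_zero]
  congr 1
  · split_ifs with h g <;> first | omega | rfl | skip
    rw [bsMat, bsMat, if_pos (by omega), if_pos (by omega)]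
  · split_ifs with h g <;> first | omega | rfl | skip
    rw [bsMat, bsMat, if_pos (by omega), if_pos (by omega)]

/-- Finite form of the two-level bound. -/
lemma two_level_finite (h0 : 0 ≤ η) (h1 : η ≤ 1) (v w : ℕ → ℂ) (M N : ℕ)
    (hw : ∀ i, N ≤ i → w i = 0) :
    ∑ l ∈ range 2, ∑ d ∈ range (M + N + 2),
        ‖∑ m ∈ range M, (starRingEnd ℂ) (v m) * (w (m + d - l) * (bsMat η m d (m + d - l) l : ℂ))‖ ^ 2
      ≤ (1 + η) * ((∑ m ∈ range M, ‖v m‖ ^ 2) * ∑ i ∈ range N, ‖w i‖ ^ 2) := by
  set TT := M + N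
  set y : (T : ℕ) → Fin (T + 1) → ℂ := fun T a =>
    if (a : ℕ) < M then (starRingEnd ℂ) (v a) * (starRingEnd ℂ) (w (T - a)) else 0 with hy
  set x : ℕ → ℕ → ℕ → ℂ := fun l m d =>
    (starRingEnd ℂ) (v m) * (w (m + d - l) * (bsMat η m d (m + d - l) l : ℂ)) with hx
  set g : ℕ → ℕ → ℕ → ℕ → ℂ := fun l a b T =>
    if a ≤ T ∧ b ≤ T ∧ a + b ≤ T + l then
      x l a (T + l - a - b) * (starRingEnd ℂ) (x l b (T + l - a - b)) else 0 with hg
  have hsq : ∀ l d, (‖∑ m ∈ range M, x l m d‖ ^ 2 : ℝ)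
      = (∑ a ∈ range M, ∑ b ∈ range M, x l a d * (starRingEnd ℂ) (x l b d)).re := by
    intro l d
    rw [← Finset.sum_mul_sum, ← map_sum, Complex.mul_conj, Complex.ofReal_re,
      Complex.normSq_eq_norm_sq]
  have hx0 : ∀ l m d, x l m d ≠ 0 → l ≤ m + d ∧ m + d - l < N := by
    intro l m d h
    simp only [hx, ne_eq, mul_eq_zero, not_or] at h
    refine ⟨?_, ?_⟩
    · by_contra hh
      exact h.2.2 (by simp [bsMat_low η (m := m) (d := d) (i := m + d - l) (l := l) (by omega)])
    · by_contra hh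
      exact h.2.1 (hw _ (by omega))
  have e1 : (∑ l ∈ range 2, ∑ d ∈ range (M + N + 2), ‖∑ m ∈ range M, x l m d‖ ^ 2)
      = (∑ T ∈ range TT, ∑ a ∈ range M, ∑ b ∈ range M, ∑ l ∈ range 2, g l a b T).re := by
    simp only [hsq, ← Complex.re_sum]
    congr 1
    calc ∑ l ∈ range 2, ∑ d ∈ range (M + N + 2), ∑ a ∈ range M, ∑ b ∈ range M,
          x l a d * (starRingEnd ℂ) (x l b d)
        = ∑ l ∈ range 2, ∑ a ∈ range M, ∑ b ∈ range M, ∑ d ∈ range (M + N + 2),
            x l a d * (starRingEnd ℂ) (x l b d) :=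
          Finset.sum_congr rfl fun l _ => by
            rw [Finset.sum_comm]; exact Finset.sum_congr rfl fun a _ => Finset.sum_comm
      _ = ∑ l ∈ range 2, ∑ a ∈ range M, ∑ b ∈ range M, ∑ T ∈ range TT, g l a b T := by
          refine Finset.sum_congr rfl fun l hl => Finset.sum_congr rfl fun a ha =>
            Finset.sum_congr rfl fun b hb => ?_
          rw [Finset.mem_range] at hl ha hb
          refine sum_reindex a b l _ TT _ (fun d hd => ?_)
          · obtain ⟨p1, p2⟩ := mul_ne_zero_iff.1 hd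
            have := hx0 l a d p1
            have := hx0 l b d ((map_ne_zero _).1 p2)
            omega
      _ = _ := by
          rw [Finset.sum_comm]
          symm
          rw [Finset.sum_comm]
          refine Finset.sum_congr rfl fun a _ => ?_
          rw [Finset.sum_comm]
          symm
          rw [Finset.sum_comm]
          exact Finset.sum_congr rfl fun b _ => Finset.sum_comm
  refine (le_of_eq e1).trans ?_
  rw [Complex.re_sum]
  have e2 : ∀ T ∈ range TT, (∑ a ∈ range M, ∑ b ∈ range M, ∑ l ∈ range 2, g l a b T).re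
      ≤ (1 + η) * ∑ a : Fin (T + 1), ‖y T a‖ ^ 2 := by
    intro T _
    refine le_trans (le_of_eq ?_) (tlMat_quad h0 h1 T (y T))
    congr 1
    set G : ℕ → ℕ → ℂ := fun a b =>
      if a < M ∧ b < M then ∑ l ∈ range 2, g l a b T else 0 with hG
    have hz : ∀ a b, T < a ∨ T < b → G a b = 0 := fun a b h => by
      simp only [hG]
      split_ifs with hc
      · exact Finset.sum_eq_zero fun l _ => if_neg (by omega)
      · rfl
    calc ∑ a ∈ range M, ∑ b ∈ range M, ∑ l ∈ range 2, g l a b T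
        = ∑ a ∈ range M, ∑ b ∈ range M, G a b := by
          refine Finset.sum_congr rfl fun a ha => Finset.sum_congr rfl fun b hb => ?_
          exact (if_pos ⟨Finset.mem_range.1 ha, Finset.mem_range.1 hb⟩).symm
      _ = ∑ a ∈ range (M + (T + 1)), ∑ b ∈ range (M + (T + 1)), G a b := by
          rw [Finset.sum_subset (Finset.range_subset_range.2 (Nat.le_add_right M (T + 1)))]
          · refine Finset.sum_congr rfl fun a _ => ?_
            refine Finset.sum_subset (Finset.range_subset_range.2 (Nat.le_add_right M (T + 1)))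
              fun b _ hb => if_neg fun hc => hb (Finset.mem_range.2 hc.2)
          · intro a _ ha
            exact Finset.sum_eq_zero fun b _ => if_neg fun hc => ha (Finset.mem_range.2 hc.1)
      _ = ∑ a ∈ range (T + 1), ∑ b ∈ range (T + 1), G a b := by
          refine (Finset.sum_subset (Finset.range_subset_range.2 (Nat.le_add_left _ _)) ?_).symm.trans
            (Finset.sum_congr rfl fun a _ =>
              (Finset.sum_subset (Finset.range_subset_range.2 (Nat.le_add_left _ _)) ?_).symm)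
          · intro a _ ha
            exact Finset.sum_eq_zero fun b _ => hz a b (Or.inl (by simpa [Nat.lt_succ_iff] using ha))
          · intro b _ hb
            exact hz a b (Or.inr (by simpa [Nat.lt_succ_iff] using hb))
      _ = _ := by
          rw [← Fin.sum_univ_eq_sum_range (fun a => ∑ b ∈ range (T + 1), G a b)]
          refine Finset.sum_congr rfl fun a _ => ?_
          rw [← Fin.sum_univ_eq_sum_range (fun b => G a b)]
          refine Finset.sum_congr rfl fun b _ => ?_
          simp only [hG, hy]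
          by_cases haM : (a : ℕ) < M
          · by_cases hbM : (b : ℕ) < M
            · rw [if_pos ⟨haM, hbM⟩, if_pos haM, if_pos hbM,
                tlMat_pieces η T a b (Nat.lt_succ_iff.1 a.isLt) (Nat.lt_succ_iff.1 b.isLt),
                Complex.ofReal_sum, Finset.mul_sum]
              refine Finset.sum_congr rfl fun l _ => ?_
              simp only [hg, hx]
              split_ifs with hc
              · rw [show (a : ℕ) + (T + l - a - b) - l = T - b by omega,
                  show (b : ℕ) + (T + l - a - b) - l = T - a by omega]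
                simp only [map_mul, Complex.conj_conj, Complex.conj_ofReal, Complex.ofReal_mul]
                ring
              · simp
            · simp [hbM]
          · simp [haM]
  refine (Finset.sum_le_sum e2).trans ?_
  rw [← Finset.mul_sum]
  refine mul_le_mul_of_nonneg_left ?_ (by linarith)
  have e3 : ∀ T, (∑ a : Fin (T + 1), ‖y T a‖ ^ 2)
      = ∑ a ∈ range M, if a ≤ T then ‖v a‖ ^ 2 * ‖w (T - a)‖ ^ 2 else 0 := by
    intro T
    rw [← Finset.sum_filter]
    have : ∑ a : Fin (T + 1), ‖y T a‖ ^ 2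
        = ∑ a : Fin (T + 1), if (a : ℕ) < M then ‖v a‖ ^ 2 * ‖w (T - a)‖ ^ 2 else 0 :=
      Finset.sum_congr rfl fun a _ => by
        simp only [hy]; split_ifs <;> simp [mul_pow]
    rw [this, Fin.sum_univ_eq_sum_range (fun a => if a < M then ‖v a‖ ^ 2 * ‖w (T - a)‖ ^ 2 else 0),
      ← Finset.sum_filter]
    refine Finset.sum_congr ?_ fun a _ => rfl
    ext a
    simp only [Finset.mem_filter, Finset.mem_range]
    omega
  simp only [e3]
  rw [Finset.sum_comm, Finset.sum_mul_sum]
  refine Finset.sum_le_sum fun a _ => ?_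
  rw [← Finset.sum_filter, ← Finset.mul_sum, ← Finset.mul_sum]
  refine mul_le_mul_of_nonneg_left ?_ (sq_nonneg _)
  rw [← Finset.sum_image (f := fun i => ‖w i‖ ^ 2) (g := fun T => T - a) (fun T hT T' hT' e => by
    simp only [Finset.coe_filter, Set.mem_ofPred_eq] at hT hT' e
    omega)]
  refine le_of_eq_of_le (Finset.sum_filter_of_ne (p := fun i => i < N) fun i _ hi => ?_).symm ?_
  · by_contra hc; exact hi (by simp [hw i (by omega)])
  · refine Finset.sum_le_sum_of_subset_of_nonneg ?_ fun i _ _ => sq_nonneg _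
    intro i hi
    simp only [Finset.mem_filter, Finset.mem_range] at hi ⊢
    exact hi.2

/-- Photon flow into the environment level `l` for a pure input. -/
def gLev (η : ℝ) (u v : ℕ → ℂ) (l : ℕ) : ℝ := ∑' d : ℕ, ‖kamp η u v l d‖ ^ 2

variable {u v : lp (fun _ : ℕ => ℂ) 2}

lemma sum_kamp_sq_le (h0 : 0 ≤ η) (h1 : η ≤ 1) (hu : ‖u‖ = 1) (hv : ‖v‖ = 1) (l D : ℕ) :
    ∑ d ∈ range D, ‖kamp η u v l d‖ ^ 2 ≤ 1 := by
  have hs : ∀ d, Summable fun i : ℕ => ‖u i‖ ^ 2 * bsMat η (i + l - d) d i l ^ 2 := fun d =>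
    (hasSum_norm_sq u).summable.of_nonneg_of_le (fun i => by positivity)
      fun i => mul_le_of_le_one_right (sq_nonneg _) (bsMat_sq_le h0 h1 _ _ _ _)
  refine le_trans (Finset.sum_le_sum fun d _ =>
    (?_ : ‖kamp η u v l d‖ ^ 2 ≤ ∑' i : ℕ, ‖u i‖ ^ 2 * bsMat η (i + l - d) d i l ^ 2)) ?_
  · have hn : ‖kvecLp h0 h1 u l d‖ ^ 2 = ∑' i : ℕ, ‖u i‖ ^ 2 * bsMat η (i + l - d) d i l ^ 2 :=
      (hasSum_norm_sq _).unique (hasSum_kvec_sq h0 h1 u l d)
    rw [(kamp_eq_inner h0 h1 u v l d).2, ← hn]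
    refine pow_le_pow_left₀ (norm_nonneg _) ?_ 2
    simpa [hv] using norm_inner_le_norm (𝕜 := ℂ) v (kvecLp h0 h1 u l d)
  · refine hasSum_le (fun i => ?_) (hasSum_sum fun d _ => (hs d).hasSum)
      (by simpa [hu] using hasSum_norm_sq u)
    rw [← Finset.mul_sum]
    exact mul_le_of_le_one_right (sq_nonneg _)
      (sum_le_hasSum (range D) (fun d _ => sq_nonneg _) (hasSum_bsMat_sq h0 h1 i l))

lemma summable_kamp_sq (h0 : 0 ≤ η) (h1 : η ≤ 1) (hu : ‖u‖ = 1) (hv : ‖v‖ = 1) (l : ℕ) :
    Summable fun d => ‖kamp η u v l d‖ ^ 2 :=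
  summable_of_sum_range_le (fun _ => sq_nonneg _) (sum_kamp_sq_le h0 h1 hu hv l)

lemma gLev_le_one (h0 : 0 ≤ η) (h1 : η ≤ 1) (hu : ‖u‖ = 1) (hv : ‖v‖ = 1) (l : ℕ) :
    gLev η u v l ≤ 1 :=
  (summable_kamp_sq h0 h1 hu hv l).tsum_le_of_sum_range_le (sum_kamp_sq_le h0 h1 hu hv l)

/-- The largest output weight of the rank-two environment is `1 + η`. -/
lemma gLev_two_le (h0 : 0 ≤ η) (h1 : η ≤ 1) (hu : ‖u‖ = 1) (hv : ‖v‖ = 1) :
    gLev η u v 0 + gLev η u v 1 ≤ 1 + η := by
  have hlim : Tendsto (fun D => ∑ d ∈ range D, (‖kamp η u v 0 d‖ ^ 2 + ‖kamp η u v 1 d‖ ^ 2)) atTop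
      (𝓝 (gLev η u v 0 + gLev η u v 1)) := by
    simp only [Finset.sum_add_distrib]
    exact (summable_kamp_sq h0 h1 hu hv 0).hasSum.tendsto_sum_nat.add
      (summable_kamp_sq h0 h1 hu hv 1).hasSum.tendsto_sum_nat
  refine le_of_tendsto hlim (Eventually.of_forall fun D => ?_)
  have hk : ∀ l d, Tendsto (fun M => ‖∑ m ∈ range M, (starRingEnd ℂ) (v m) *
      (u (m + d - l) * (bsMat η m d (m + d - l) l : ℂ))‖ ^ 2) atTop (𝓝 (‖kamp η u v l d‖ ^ 2)) := by
    intro l d
    obtain ⟨h, e⟩ := kamp_eq_inner h0 h1 u v l d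
    rw [e]
    simpa only [kvec_eq] using (h.tendsto_sum_nat.norm.pow 2)
  refine le_of_tendsto (tendsto_finsetSum _ fun d _ => (hk 0 d).add (hk 1 d))
    (Eventually.of_forall fun M => ?_)
  set N := M + D
  set w : ℕ → ℂ := fun i => if i < N then u i else 0
  have hb := two_level_finite h0 h1 (fun i => v i) w M N fun i hi => if_neg (by omega)
  refine le_trans (le_trans ?_ hb) ?_
  · simp only [Finset.sum_range_succ _ 1, Finset.sum_range_one]
    rw [← Finset.sum_add_distrib]
    refine le_trans (le_of_eq (Finset.sum_congr rfl fun d hd => ?_))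
      (Finset.sum_le_sum_of_subset_of_nonneg (Finset.range_subset_range.2 (by omega))
        fun d _ _ => by positivity)
    have hd' := Finset.mem_range.1 hd
    congr 3
    all_goals
      refine Finset.sum_congr rfl fun m hm => ?_
      have hm' := Finset.mem_range.1 hm
      simp only [w]
      rw [if_pos (by omega)]
  · refine mul_le_of_le_one_right (by linarith) ?_
    have hv2 : ∑ m ∈ range M, ‖v m‖ ^ 2 ≤ 1 := by
      simpa [hv] using sum_le_hasSum (range M) (fun m _ => sq_nonneg _) (hasSum_norm_sq v)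
    have hu2 : ∑ i ∈ range N, ‖w i‖ ^ 2 ≤ 1 := by
      rw [Finset.sum_congr rfl fun i hi => show ‖w i‖ ^ 2 = ‖u i‖ ^ 2 by
        simp only [w, if_pos (Finset.mem_range.1 hi)]]
      simpa [hu] using sum_le_hasSum (range N) (fun m _ => sq_nonneg _) (hasSum_norm_sq u)
    exact mul_le_one₀ hv2 (Finset.sum_nonneg fun _ _ => sq_nonneg _) hu2

lemma outFormInf_pure (h0 : 0 ≤ η) (h1 : η ≤ 1) {q : ℕ → ℝ} (hq : PassiveInf q)
    (U : ℕ → lp (fun _ : ℕ => ℂ) 2) (hU : ‖U 0‖ = 1) (hv : ‖v‖ = 1) :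
    HasSum (fun l => q l * gLev η (U 0) v l) (outFormInf η q pureSpec (fun j => U j) v) := by
  set F : ℕ × ℕ → ℝ := fun x => q x.1 * ‖kamp η (U 0) v x.1 x.2‖ ^ 2 with hF
  have hF0 : ∀ x, 0 ≤ F x := fun x => mul_nonneg (hq.nonneg _) (sq_nonneg _)
  have hrow : ∀ l, HasSum (fun d => F (l, d)) (q l * gLev η (U 0) v l) := fun l =>
    (summable_kamp_sq h0 h1 hU hv l).hasSum.mul_left _
  have hFs : Summable F := (summable_prod_of_nonneg hF0).2 ⟨fun l => (hrow l).summable,
    (hq.total.summable.of_nonneg_of_le (fun l => mul_nonneg (hq.nonneg l)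
      (tsum_nonneg fun _ => sq_nonneg _)) fun l => mul_le_of_le_one_right (hq.nonneg l)
      (gLev_le_one h0 h1 hU hv l)).congr fun l => (hrow l).tsum_eq.symm⟩
  have e : outFormInf η q pureSpec (fun j => U j) v = ∑' x, F x := by
    rw [outFormInf]
    have hinj : Function.Injective fun y : ℕ × ℕ => (((0 : ℕ), y) : ℕ × ℕ × ℕ) := fun a b h =>
      (Prod.mk.inj h).2
    rw [← hinj.tsum_eq (f := fun x : ℕ × ℕ × ℕ =>
      pureSpec x.1 * q x.2.1 * ‖kamp η (U x.1) v x.2.1 x.2.2‖ ^ 2) (fun x hx => by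
        refine ⟨x.2, Prod.ext ?_ rfl⟩
        by_contra hc
        exact hx (by simp [pureSpec, Ne.symm hc]))]
    exact tsum_congr fun y => by simp [hF, pureSpec]
  rw [e]
  exact hFs.hasSum.prod_fiberwise hrow

lemma hasSum_pCinf_pure (h0 : 0 ≤ η) (h1 : η ≤ 1) {q : ℕ → ℝ} (hq : PassiveInf q) (m : ℕ) :
    HasSum (fun l => q l * bsProb η 0 l m) (pCinf η pureSpec q m) := by
  have hrow : ∀ i, HasSum (fun l => pureSpec i * q l * bsProb η i l m)
      (∑' l, pureSpec i * q l * bsProb η i l m) := fun i =>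
    ((summable_pCinf passiveInf_pureSpec hq h0 h1 m).prod_factor i).hasSum
  have h := (summable_pCinf passiveInf_pureSpec hq h0 h1 m).hasSum.prod_fiberwise hrow
  have e : pCinf η pureSpec q m = ∑' l, pureSpec 0 * q l * bsProb η 0 l m := by
    rw [pCinf, ← h.tsum_eq, tsum_eq_single 0 fun i hi => by simp [pureSpec, hi]]
  rw [e]
  simpa [pureSpec] using hrow 0

lemma exists_orthonormal_seq (u : lp (fun _ : ℕ => ℂ) 2) (hu : ‖u‖ = 1) :
    ∃ U : ℕ → lp (fun _ : ℕ => ℂ) 2, Orthonormal ℂ U ∧ U 0 = u := by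
  have h1 : Orthonormal ℂ ((↑) : ({u} : Set (lp (fun _ : ℕ => ℂ) 2)) → lp (fun _ : ℕ => ℂ) 2) := by
    constructor
    · rintro ⟨x, rfl⟩; exact hu
    · rintro ⟨x, rfl⟩ ⟨y, rfl⟩ h; exact absurd rfl h
  classical
  obtain ⟨W, b, hW, hb⟩ := h1.exists_hilbertBasis_extension
  have hinf : Infinite W := by
    by_contra hfin
    rw [not_infinite_iff_finite] at hfin
    have := Fintype.ofFinite W
    have hfd : FiniteDimensional ℂ (Submodule.span ℂ (Set.range b)) :=
      FiniteDimensional.span_of_finite ℂ (Set.finite_range b)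
    have htop : Submodule.span ℂ (Set.range b) = ⊤ := by
      rw [← b.dense_span, eq_comm]
      exact (Submodule.closed_of_finiteDimensional _).submodule_topologicalClosure_eq
    have : FiniteDimensional ℂ (lp (fun _ : ℕ => ℂ) 2) := by
      rw [htop] at hfd; exact Module.Finite.equiv Submodule.topEquiv
    have hli : LinearIndependent ℂ fun n : ℕ =>
        (lp.single 2 n (1 : ℂ) : lp (fun _ : ℕ => ℂ) 2) := by
      refine Orthonormal.linearIndependent ⟨fun n => by simp [lp.norm_single], fun i j hij => ?_⟩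
      simp [lp.inner_single_right, lp.single_apply, Ne.symm hij]
    exact not_finite_iff_infinite.2 (inferInstance : Infinite ℕ) hli.finite
  set x0 : W := ⟨u, hW rfl⟩
  set e0 := Infinite.natEmbedding W
  set E : ℕ ↪ W := e0.trans (Equiv.swap (e0 0) x0).toEmbedding
  refine ⟨fun n => (E n : lp (fun _ : ℕ => ℂ) 2), ?_, ?_⟩
  · have h := b.orthonormal
    rw [hb] at h
    exact h.comp E E.injective
  · simp [E, x0]

/-- **EPnI for a pure first input and a mixture of thermal states and a passive two-level state.** -/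
theorem pure_twoLevel_epni {ι : Type*} {s : Finset ι} {μ zz : ι → ℝ} {w p : ℝ}
    (h0 : 0 ≤ η) (h1 : η ≤ 1) (hμ : ∀ t ∈ s, 0 ≤ μ t) (hz : ∀ t ∈ s, 0 ≤ zz t ∧ zz t < 1)
    (hw : 0 ≤ w) (hsum : ∑ t ∈ s, μ t + w = 1) (hp : 1 / 2 ≤ p) (hp1 : p ≤ 1)
    {q : ℕ → ℝ} (hq : ∀ l, q l = ∑ t ∈ s, μ t * geo (zz t) l + w * twoLev p l)
    (u : lp (fun _ : ℕ => ℂ) 2) (hu : ‖u‖ = 1)
    (e : HilbertBasis ℕ ℂ (lp (fun _ : ℕ => ℂ) 2)) :
    HasSum (fun k => outFormInf η q pureSpec (fun _ => u) (e k)) 1 ∧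
    ENNReal.ofReal (gFun ((1 - η) * ginv (entInf q)))
      ≤ ∑' k, ENNReal.ofReal (Real.negMulLog (outFormInf η q pureSpec (fun _ => u) (e k))) := by
  obtain ⟨U, hU, rfl⟩ := exists_orthonormal_seq u hu
  have hQ2 := passiveInf_twoLev hp hp1
  set c := ∑ t ∈ s, μ t with hc
  have hc0 : 0 ≤ c := Finset.sum_nonneg hμ
  -- the thermal part, normalised
  obtain ⟨qT, hqT, hsetsT, hsplit⟩ : ∃ qT : ℕ → ℝ, PassiveInf qT ∧
      (∀ {v : ℕ → lp (fun _ : ℕ => ℂ) 2}, Orthonormal ℂ v → ∀ K : Finset ℕ,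
        ∑ k ∈ K, outFormInf η qT pureSpec (fun j => U j) (v k)
          ≤ ∑ m ∈ range K.card, pCinf η pureSpec qT m) ∧
      ∀ l, q l = c * qT l + w * twoLev p l := by
    rcases hc0.eq_or_lt with hc' | hc'
    · have hz0 : ∀ t ∈ ({0} : Finset ℕ), 0 ≤ (0 : ℝ) ∧ (0 : ℝ) < 1 := fun _ _ => by norm_num
      have hqT := passiveInf_geo_mix (s := ({0} : Finset ℕ)) (μ := fun _ => (1 : ℝ))
        (zz := fun _ => (0 : ℝ)) hz0 (fun _ _ => zero_le_one) (by simp)
        (q := fun l => geo 0 l) (fun l => by simp)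
      refine ⟨fun l => geo 0 l, hqT, fun hv K => outFormInf_sets (s := ({0} : Finset ℕ))
        (μ := fun _ => (1 : ℝ)) (zz := fun _ => (0 : ℝ)) h0 h1 hz0 (fun _ _ => zero_le_one)
        (fun l => by simp) passiveInf_pureSpec hqT hU hv K, fun l => ?_⟩
      rw [hq, ← hc', zero_mul, zero_add, Finset.sum_eq_zero fun t ht => ?_, zero_add]
      rw [(Finset.sum_eq_zero_iff_of_nonneg hμ).1 (hc'.symm) t ht, zero_mul]
    · have hμ' : ∀ t ∈ s, 0 ≤ μ t / c := fun t ht => div_nonneg (hμ t ht) hc0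
      have hqT := passiveInf_geo_mix (μ := fun t => μ t / c) hz hμ'
        (by rw [← Finset.sum_div, div_self hc'.ne'])
        (q := fun l => ∑ t ∈ s, μ t / c * geo (zz t) l) fun l => rfl
      refine ⟨fun l => ∑ t ∈ s, μ t / c * geo (zz t) l, hqT, fun hv K => outFormInf_sets
        (μ := fun t => μ t / c) h0 h1 hz hμ' (fun l => rfl) passiveInf_pureSpec hqT hU hv K,
        fun l => ?_⟩
      rw [hq, Finset.mul_sum]
      congr 1
      exact Finset.sum_congr rfl fun t _ => by field_simp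
  have hQ : PassiveInf q := by
    refine ⟨fun l => ?_, fun l => ?_, ?_, ?_⟩
    · rw [hsplit]; exact add_nonneg (mul_nonneg hc0 (hqT.nonneg l)) (mul_nonneg hw (hQ2.nonneg l))
    · rw [hsplit, hsplit]
      exact add_le_add (mul_le_mul_of_nonneg_left (hqT.anti l) hc0)
        (mul_le_mul_of_nonneg_left (hQ2.anti l) hw)
    · have h := (hqT.total.mul_left c).add (hQ2.total.mul_left w)
      rw [mul_one, mul_one, hsum] at h
      exact h.congr_fun hsplit
    · exact ((hqT.mean.mul_left c).add (hQ2.mean.mul_left w)).congr fun l => by rw [hsplit]; ring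
  have hP := passiveInf_pureSpec
  have hout : ∀ {q' : ℕ → ℝ}, PassiveInf q' → ∀ k,
      HasSum (fun l => q' l * gLev η (U 0) (e k) l)
        (outFormInf η q' pureSpec (fun j => U j) (e k)) := fun hq' k =>
    outFormInf_pure h0 h1 hq' U (hU.1 0) (e.orthonormal.1 k)
  have heq : ∀ k, outFormInf η q pureSpec (fun _ => U 0) (e k)
      = outFormInf η q pureSpec (fun j => U j) (e k) := fun k => by
    simp only [outFormInf]
    refine tsum_congr fun x => ?_
    rcases eq_or_ne x.1 0 with hx | hx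
    · rw [hx]
    · simp [pureSpec, hx]
  have hlinC : ∀ k, outFormInf η q pureSpec (fun j => U j) (e k)
      = c * outFormInf η qT pureSpec (fun j => U j) (e k)
        + w * outFormInf η (twoLev p) pureSpec (fun j => U j) (e k) := fun k =>
    (hout hQ k).unique ((((hout hqT k).mul_left c).add ((hout hQ2 k).mul_left w)).congr_fun
      fun l => by rw [hsplit]; ring)
  have hlinD : ∀ m, pCinf η pureSpec q m
      = c * pCinf η pureSpec qT m + w * pCinf η pureSpec (twoLev p) m := fun m =>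
    (hasSum_pCinf_pure h0 h1 hQ m).unique ((((hasSum_pCinf_pure h0 h1 hqT m).mul_left c).add
      ((hasSum_pCinf_pure h0 h1 hQ2 m).mul_left w)).congr_fun fun l => by rw [hsplit]; ring)
  have hmaj2 : ∀ K : Finset ℕ, ∑ k ∈ K, outFormInf η (twoLev p) pureSpec (fun j => U j) (e k)
      ≤ ∑ m ∈ range K.card, pCinf η pureSpec (twoLev p) m := by
    intro K
    have hC := hasSum_outFormInf h0 h1 hP hQ2 hU e
    have hD : ∀ m, pCinf η pureSpec (twoLev p) m
        = p * bsProb η 0 0 m + (1 - p) * bsProb η 0 1 m := fun m => by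
      rw [← (hasSum_pCinf_pure h0 h1 hQ2 m).tsum_eq, tsum_eq_sum (s := range 2) fun l hl => by
        simp only [Finset.mem_range, not_lt] at hl
        simp [twoLev, show l ≠ 0 by omega, show l ≠ 1 by omega]]
      simp [Finset.sum_range_succ, twoLev]
    rcases Nat.lt_or_ge K.card 2 with hK | hK
    · rcases Nat.eq_zero_or_pos K.card with h00 | h00
      · simp [Finset.card_eq_zero.1 h00]
      obtain ⟨k, rfl⟩ := Finset.card_eq_one.1 (show K.card = 1 by omega)
      have hk := hout hQ2 k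
      simp only [Finset.card_singleton, Finset.sum_range_one, Finset.sum_singleton, hD]
      rw [← hk.tsum_eq, tsum_eq_sum (s := range 2) fun l hl => by
        simp only [Finset.mem_range, not_lt] at hl
        simp [twoLev, show l ≠ 0 by omega, show l ≠ 1 by omega]]
      simp only [Finset.sum_range_succ, Finset.sum_range_zero, zero_add, twoLev, if_true,
        one_ne_zero, if_false, bsProb_zero h0 h1]
      simp
      nlinarith [gLev_two_le h0 h1 (hU.1 0) (e.orthonormal.1 k),
        gLev_le_one h0 h1 (hU.1 0) (e.orthonormal.1 k) 0]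
    · refine (sum_le_hasSum K (fun k _ => outFormInf_nonneg hP hQ2 _ _) hC).trans ?_
      have hall : HasSum (pCinf η pureSpec (twoLev p))
          (∑ m ∈ range K.card, pCinf η pureSpec (twoLev p) m) :=
        hasSum_sum_of_ne_finset_zero fun m hm => by
          simp only [Finset.mem_range, not_lt] at hm
          rw [hD, bsProb_of_lt η (by omega), bsProb_of_lt η (by omega), mul_zero, mul_zero, add_zero]
      exact (hall.unique (hasSum_pCinf hP hQ2 h0 h1)).ge
  have hmaj : ∀ K : Finset ℕ, ∑ k ∈ K, outFormInf η q pureSpec (fun _ => U 0) (e k)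
      ≤ ∑ m ∈ range K.card, pCinf η pureSpec q m := fun K => by
    simp only [heq, hlinC, hlinD, Finset.sum_add_distrib, ← Finset.mul_sum]
    exact add_le_add (mul_le_mul_of_nonneg_left (hsetsT e.orthonormal K) hc0)
      (mul_le_mul_of_nonneg_left (hmaj2 K) hw)
  obtain ⟨hDsum, hDent, -, -, hbase⟩ := epni_passive_inf hP hQ h0 h1
  have hC : HasSum (fun k => outFormInf η q pureSpec (fun _ => U 0) (e k)) 1 :=
    (hasSum_outFormInf h0 h1 hP hQ hU e).congr_fun heq
  refine ⟨hC, ?_⟩
  have hC0 : ∀ k, 0 ≤ outFormInf η q pureSpec (fun _ => U 0) (e k) := fun k =>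
    outFormInf_nonneg hP hQ _ _
  have hn : ∀ k, 0 ≤ Real.negMulLog (outFormInf η q pureSpec (fun _ => U 0) (e k)) := fun k =>
    Real.negMulLog_nonneg (hC0 k) (le_hasSum hC k fun j _ => hC0 j)
  by_cases hfin : ∑' k, ENNReal.ofReal
      (Real.negMulLog (outFormInf η q pureSpec (fun _ => U 0) (e k))) = ⊤
  · rw [hfin]; exact le_top
  have hs : Summable fun k => Real.negMulLog (outFormInf η q pureSpec (fun _ => U 0) (e k)) :=
    (ENNReal.summable_toReal hfin).congr fun k => ENNReal.toReal_ofReal (hn k)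
  rw [← ENNReal.ofReal_tsum_of_nonneg hn hs]
  refine ENNReal.ofReal_le_ofReal (le_trans (le_of_eq ?_) (hbase.trans
    (entropy_le_of_majorized' hC0 (fun m => pCinf_nonneg hP hQ m) hC hDsum hs hDent hmaj)))
  have hpure : entInf pureSpec = 0 := by
    simp [entInf, pureSpec, apply_ite Real.negMulLog]
  have hg : ginv (entInf pureSpec) = 0 := by
    rw [hpure]
    have h := gFun_ginv (le_refl (0 : ℝ))
    have h00 : gFun 0 = 0 := by simp [gFun]
    exact strictMonoOn_gFun.injOn (ginv_nonneg le_rfl) Set.self_mem_Ici (h.trans h00.symm)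
  rw [hg, mul_zero, zero_add]

end Vale.Agent.P369
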